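import Mathlib

namespace Vale.Agent.H98.QAC

open Matrix
open scoped ComplexOrder

set_option linter.unusedSectionVars false

variable {ι : Type*} [Fintype ι] [DecidableEq ι]

/-- Hermitian idempotent matrices (orthogonal projections). -/
def IsProj (Y : Matrix ι ι ℂ) : Prop := Yᴴ = Y ∧ Y * Y = Y

theorem IsProj.posSemidef {Y : Matrix ι ι ℂ} (h : IsProj Y) : Y.PosSemidef := by
  have h1 : Y = Yᴴ * Y := by rw [h.1, h.2]
  rw [h1]
  exact Matrix.posSemidef_conjTranspose_mul_self Y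

theorem IsProj.one_sub {Y : Matrix ι ι ℂ} (h : IsProj Y) : IsProj (1 - Y) := by
  constructor
  · simp [Matrix.conjTranspose_sub, h.1]
  · simp [sub_mul, mul_sub, h.2]

theorem isProj_one : IsProj (1 : Matrix ι ι ℂ) := ⟨by simp, by simp⟩

theorem trace_proj_mul_nonneg {Y W : Matrix ι ι ℂ} (hY : IsProj Y) (hW : W.PosSemidef) :
    0 ≤ (Y * W).trace := by
  have h1 : (Y * W).trace = (Yᴴ * W * Y).trace := by
    rw [hY.1, Matrix.trace_mul_cycle, hY.2]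
  rw [h1]
  exact (hW.conjTranspose_mul_mul_same Y).trace_nonneg

theorem trace_proj_mul_le {Y W : Matrix ι ι ℂ} (hY : IsProj Y) (hW : W.PosSemidef) :
    (Y * W).trace ≤ W.trace := by
  have h := trace_proj_mul_nonneg hY.one_sub hW
  rw [sub_mul, one_mul, Matrix.trace_sub] at h
  exact sub_nonneg.mp h

/-- Cauchy-Schwarz for the standard sesquilinear form on finite vectors. -/
theorem ip_cs (a b : ι → ℂ) :
    ‖star a ⬝ᵥ b‖ ≤ Real.sqrt (star a ⬝ᵥ a).re * Real.sqrt (star b ⬝ᵥ b).re := by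
  have h := norm_inner_le_norm (𝕜 := ℂ) (WithLp.toLp 2 a) (WithLp.toLp 2 b)
  rw [EuclideanSpace.inner_toLp_toLp, dotProduct_comm] at h
  have hn : ∀ c : ι → ℂ, ‖(WithLp.toLp 2 c : EuclideanSpace ℂ ι)‖ = Real.sqrt (star c ⬝ᵥ c).re := by
    intro c
    rw [EuclideanSpace.norm_eq]
    congr 1
    simp only [dotProduct, Complex.re_sum, Pi.star_apply]
    refine Finset.sum_congr rfl (fun i _ => ?_)
    rw [← Complex.normSq_eq_norm_sq]
    simp [Complex.normSq_apply]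
  rw [hn a, hn b] at h
  exact h

theorem ip_sub_smul {w : ι → ℂ} (hw : star w ⬝ᵥ w = 1) (u v : ι → ℂ) :
    star (u - (star w ⬝ᵥ u) • w) ⬝ᵥ (v - (star w ⬝ᵥ v) • w) =
      star u ⬝ᵥ v - star (star w ⬝ᵥ u) * (star w ⬝ᵥ v) := by
  have h1 : star u ⬝ᵥ w = star (star w ⬝ᵥ u) := Matrix.star_dotProduct u w
  simp only [star_sub, star_smul, sub_dotProduct, dotProduct_sub, smul_dotProduct, dotProduct_smul,
    smul_eq_mul, hw, h1]
  ring

theorem trace_refl (w : ι → ℂ) (X Y : Matrix ι ι ℂ) :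
    (Y * (1 - 2 • vecMulVec w (star w)) * X * (1 - 2 • vecMulVec w (star w))).trace
      = (Y * X).trace - 2 * (star w ⬝ᵥ (X * Y) *ᵥ w) - 2 * (star w ⬝ᵥ (Y * X) *ᵥ w)
        + 4 * ((star w ⬝ᵥ X *ᵥ w) * (star w ⬝ᵥ Y *ᵥ w)) := by
  have e1 : (Y * vecMulVec w (star w) * X).trace = star w ⬝ᵥ (X * Y) *ᵥ w := by
    rw [Matrix.mul_vecMulVec, Matrix.vecMulVec_mul, Matrix.trace_vecMulVec, dotProduct_comm,
      ← Matrix.dotProduct_mulVec, Matrix.mulVec_mulVec]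
  have e2 : (Y * X * vecMulVec w (star w)).trace = star w ⬝ᵥ (Y * X) *ᵥ w := by
    rw [Matrix.mul_vecMulVec, Matrix.trace_vecMulVec, dotProduct_comm]
  have e3 : (Y * vecMulVec w (star w) * X * vecMulVec w (star w)).trace
      = (star w ⬝ᵥ X *ᵥ w) * (star w ⬝ᵥ Y *ᵥ w) := by
    rw [Matrix.mul_vecMulVec Y w (star w), Matrix.vecMulVec_mul (Y *ᵥ w) (star w) X,
      Matrix.vecMulVec_mul_vecMulVec,
      Matrix.trace_vecMulVec, dotProduct_smul, smul_eq_mul, ← Matrix.dotProduct_mulVec,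
      dotProduct_comm (Y *ᵥ w)]
  have h : Y * (1 - 2 • vecMulVec w (star w)) * X * (1 - 2 • vecMulVec w (star w))
      = Y * X - 2 • (Y * vecMulVec w (star w) * X) - 2 • (Y * X * vecMulVec w (star w))
        + 4 • (Y * vecMulVec w (star w) * X * vecMulVec w (star w)) := by
    noncomm_ring
  rw [h, Matrix.trace_add, Matrix.trace_sub, Matrix.trace_sub, Matrix.trace_smul, Matrix.trace_smul,
    Matrix.trace_smul, e1, e2, e3]
  simp only [nsmul_eq_mul]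
  push_cast
  ring

theorem refl_bound {w : ι → ℂ} (hw : star w ⬝ᵥ w = 1) {X Y : Matrix ι ι ℂ}
    (hY : IsProj Y) (hX : Xᴴ = X) {c : ℝ} (hc : 0 ≤ c)
    (hXc : (star (X *ᵥ w) ⬝ᵥ (X *ᵥ w)).re - ‖star w ⬝ᵥ X *ᵥ w‖ ^ 2 ≤ c ^ 2) :
    ‖(Y * (1 - 2 • vecMulVec w (star w)) * X * (1 - 2 • vecMulVec w (star w))).trace
        - (Y * X).trace‖ ≤ 2 * c := by
  set ρ := star w ⬝ᵥ Y *ᵥ w with hρ
  set ξ := star w ⬝ᵥ X *ᵥ w with hξ
  set a := Y *ᵥ w - ρ • w with ha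
  set b := X *ᵥ w - ξ • w with hb
  have hab : star a ⬝ᵥ b = star (Y *ᵥ w) ⬝ᵥ (X *ᵥ w) - star ρ * ξ := ip_sub_smul hw _ _
  have hba : star b ⬝ᵥ a = star (X *ᵥ w) ⬝ᵥ (Y *ᵥ w) - star ξ * ρ := ip_sub_smul hw _ _
  have haa : star a ⬝ᵥ a = star (Y *ᵥ w) ⬝ᵥ (Y *ᵥ w) - star ρ * ρ := ip_sub_smul hw _ _
  have hbb : star b ⬝ᵥ b = star (X *ᵥ w) ⬝ᵥ (X *ᵥ w) - star ξ * ξ := ip_sub_smul hw _ _
  have mm : ∀ A B : Matrix ι ι ℂ, star (A *ᵥ w) ⬝ᵥ (B *ᵥ w) = star w ⬝ᵥ (Aᴴ * B) *ᵥ w := by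
    intro A B
    rw [Matrix.star_mulVec, ← Matrix.dotProduct_mulVec, Matrix.mulVec_mulVec]
  have hρr : star ρ = ρ := by
    rw [hρ, ← Matrix.star_dotProduct, Matrix.star_mulVec, ← Matrix.dotProduct_mulVec, hY.1]
  have hξr : star ξ = ξ := by
    rw [hξ, ← Matrix.star_dotProduct, Matrix.star_mulVec, ← Matrix.dotProduct_mulVec, hX]
  have hYX : star (Y *ᵥ w) ⬝ᵥ (X *ᵥ w) = star w ⬝ᵥ (Y * X) *ᵥ w := by rw [mm, hY.1]
  have hXY : star (X *ᵥ w) ⬝ᵥ (Y *ᵥ w) = star w ⬝ᵥ (X * Y) *ᵥ w := by rw [mm, hX]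
  have hYY : star (Y *ᵥ w) ⬝ᵥ (Y *ᵥ w) = ρ := by rw [mm, hY.1, hY.2]
  have key : (Y * (1 - 2 • vecMulVec w (star w)) * X * (1 - 2 • vecMulVec w (star w))).trace
        - (Y * X).trace = -(2 * (star b ⬝ᵥ a)) - 2 * (star a ⬝ᵥ b) := by
    rw [trace_refl, hab, hba, hYX, hXY, hρr, hξr]
    ring
  have haa' : (star a ⬝ᵥ a).re ≤ 1 / 4 := by
    rw [haa, hYY]
    have : (ρ - star ρ * ρ).re = ρ.re - (ρ.re ^ 2 + ρ.im ^ 2) := by
      simp [Complex.sub_re, Complex.mul_re]; ring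
    rw [this]
    nlinarith [sq_nonneg (ρ.re - 1 / 2), sq_nonneg ρ.im]
  have hbb' : (star b ⬝ᵥ b).re ≤ c ^ 2 := by
    rw [hbb]
    have : (star ξ * ξ).re = ‖ξ‖ ^ 2 := by
      rw [← Complex.normSq_eq_norm_sq]
      simp [Complex.mul_re, Complex.normSq_apply]
    rw [Complex.sub_re, this]
    exact hXc
  have sa : Real.sqrt (star a ⬝ᵥ a).re ≤ 1 / 2 := by
    rw [show (1:ℝ) / 2 = Real.sqrt (1 / 4) by
      rw [show (1:ℝ) / 4 = (1 / 2) ^ 2 by norm_num]; exact (Real.sqrt_sq (by norm_num)).symm]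
    exact Real.sqrt_le_sqrt haa'
  have sb : Real.sqrt (star b ⬝ᵥ b).re ≤ c := by
    rw [← Real.sqrt_sq hc]
    exact Real.sqrt_le_sqrt hbb'
  have c1 := ip_cs a b
  have c2 := ip_cs b a
  have p1 : Real.sqrt (star a ⬝ᵥ a).re * Real.sqrt (star b ⬝ᵥ b).re ≤ 1 / 2 * c :=
    mul_le_mul sa sb (Real.sqrt_nonneg _) (by norm_num)
  have p2 : Real.sqrt (star b ⬝ᵥ b).re * Real.sqrt (star a ⬝ᵥ a).re ≤ c * (1 / 2) :=
    mul_le_mul sb sa (Real.sqrt_nonneg _) hc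
  rw [key]
  calc ‖-(2 * (star b ⬝ᵥ a)) - 2 * (star a ⬝ᵥ b)‖
      ≤ ‖-(2 * (star b ⬝ᵥ a))‖ + ‖2 * (star a ⬝ᵥ b)‖ := norm_sub_le _ _
    _ = 2 * ‖star b ⬝ᵥ a‖ + 2 * ‖star a ⬝ᵥ b‖ := by
        rw [norm_neg, norm_mul, norm_mul]; simp
    _ ≤ 2 * c := by linarith

theorem refl_bound_proj {w : ι → ℂ} (hw : star w ⬝ᵥ w = 1) {X Y : Matrix ι ι ℂ}
    (hY : IsProj Y) (hX : IsProj X) :
    ‖(Y * (1 - 2 • vecMulVec w (star w)) * X * (1 - 2 • vecMulVec w (star w))).trace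
        - (Y * X).trace‖ ≤ 1 := by
  have h := refl_bound hw hY hX.1 (c := 1 / 2) (by norm_num) (by
    have e : star (X *ᵥ w) ⬝ᵥ (X *ᵥ w) = star w ⬝ᵥ X *ᵥ w := by
      rw [Matrix.star_mulVec, ← Matrix.dotProduct_mulVec, Matrix.mulVec_mulVec, hX.1, hX.2]
    rw [e]
    set ξ := star w ⬝ᵥ X *ᵥ w
    have : ‖ξ‖ ^ 2 = ξ.re ^ 2 + ξ.im ^ 2 := by
      rw [← Complex.normSq_eq_norm_sq, Complex.normSq_apply]; ring
    rw [this]
    nlinarith [sq_nonneg (ξ.re - 1 / 2), sq_nonneg ξ.im])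
  linarith

theorem refl_bound_sq {w : ι → ℂ} (hw : star w ⬝ᵥ w = 1) {X Y : Matrix ι ι ℂ}
    (hY : IsProj Y) (hX : Xᴴ = X) (hX2 : IsProj (X * X)) :
    ‖(Y * (1 - 2 • vecMulVec w (star w)) * X * (1 - 2 • vecMulVec w (star w))).trace
        - (Y * X).trace‖ ≤ 2 := by
  have h := refl_bound hw hY hX (c := 1) (by norm_num) (by
    have e : star (X *ᵥ w) ⬝ᵥ (X *ᵥ w) = star w ⬝ᵥ (X * X) *ᵥ w := by
      rw [Matrix.star_mulVec, ← Matrix.dotProduct_mulVec, Matrix.mulVec_mulVec, hX]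
    rw [e]
    have h0 := hX2.one_sub.posSemidef.dotProduct_mulVec_nonneg w
    rw [Matrix.sub_mulVec, Matrix.one_mulVec, dotProduct_sub, hw] at h0
    have h1 := (Complex.nonneg_iff.mp h0).1
    simp only [Complex.sub_re, Complex.one_re] at h1
    nlinarith [sq_nonneg ‖star w ⬝ᵥ X *ᵥ w‖])
  linarith

end Vale.Agent.H98.QAC
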