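import Mathlib

namespace Vale.Agent.H98.QAC

open Matrix

set_option linter.unusedSectionVars false

variable {Q : Type*} [Fintype Q] [DecidableEq Q]

/-- Tensor product of one-qubit operators: the operator on the `Q`-qubit register whose
matrix entry between basis states `s` and `t` is the product of the one-qubit entries. -/
def op (a : Q → Matrix Bool Bool ℂ) : Matrix (Q → Bool) (Q → Bool) ℂ :=
  Matrix.of fun s t => ∏ i, a i (s i) (t i)

theorem op_apply (a : Q → Matrix Bool Bool ℂ) (s t : Q → Bool) :
    op a s t = ∏ i, a i (s i) (t i) := rfl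

theorem op_mul (a b : Q → Matrix Bool Bool ℂ) : op a * op b = op (fun i => a i * b i) := by
  ext s t
  simp only [Matrix.mul_apply, op_apply]
  rw [Finset.prod_univ_sum, Fintype.piFinset_univ]
  refine Finset.sum_congr rfl (fun r _ => ?_)
  rw [Finset.prod_mul_distrib]

theorem op_one : op (fun _ : Q => (1 : Matrix Bool Bool ℂ)) = 1 := by
  ext s t
  simp only [op_apply, Matrix.one_apply]
  by_cases h : s = t
  · subst h; simp
  · rw [if_neg h]
    obtain ⟨i, hi⟩ := Function.ne_iff.mp h
    exact Finset.prod_eq_zero (Finset.mem_univ i) (if_neg hi)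

theorem trace_op (a : Q → Matrix Bool Bool ℂ) : (op a).trace = ∏ i, (a i).trace := by
  simp only [Matrix.trace, Matrix.diag_apply, op_apply]
  rw [Finset.prod_univ_sum, Fintype.piFinset_univ]

theorem op_conjTranspose (a : Q → Matrix Bool Bool ℂ) : (op a)ᴴ = op (fun i => (a i)ᴴ) := by
  ext s t
  simp [Matrix.conjTranspose_apply, op_apply]

theorem op_update_apply (a : Q → Matrix Bool Bool ℂ) (i : Q) (c : Matrix Bool Bool ℂ)
    (s t : Q → Bool) :
    op (Function.update a i c) s t = c (s i) (t i) * ∏ j ∈ Finset.univ.erase i, a j (s j) (t j) := by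
  rw [op_apply, ← Finset.mul_prod_erase _ _ (Finset.mem_univ i), Function.update_self]
  congr 1
  refine Finset.prod_congr rfl (fun j hj => ?_)
  rw [Function.update_of_ne (Finset.ne_of_mem_erase hj)]

theorem op_update_add (a : Q → Matrix Bool Bool ℂ) (i : Q) (c d : Matrix Bool Bool ℂ) :
    op (Function.update a i (c + d)) = op (Function.update a i c) + op (Function.update a i d) := by
  ext s t
  simp only [op_update_apply, Matrix.add_apply, add_mul]

theorem op_update_smul (a : Q → Matrix Bool Bool ℂ) (i : Q) (k : ℂ) (c : Matrix Bool Bool ℂ) :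
    op (Function.update a i (k • c)) = k • op (Function.update a i c) := by
  ext s t
  simp only [op_update_apply, Matrix.smul_apply, smul_eq_mul, mul_assoc]

theorem op_update_sub (a : Q → Matrix Bool Bool ℂ) (i : Q) (c d : Matrix Bool Bool ℂ) :
    op (Function.update a i (c - d)) = op (Function.update a i c) - op (Function.update a i d) := by
  ext s t
  simp only [op_update_apply, Matrix.sub_apply, sub_mul]

theorem op_diagonal (d : Q → Bool → ℂ) :
    op (fun i => Matrix.diagonal (d i)) = Matrix.diagonal (fun s : Q → Bool => ∏ i, d i (s i)) := by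
  ext s t
  simp only [op_apply, Matrix.diagonal_apply]
  by_cases h : s = t
  · subst h; simp
  · rw [if_neg h]
    obtain ⟨i, hi⟩ := Function.ne_iff.mp h
    exact Finset.prod_eq_zero (Finset.mem_univ i) (if_neg hi)

theorem op_vecMulVec (v w : Q → Bool → ℂ) :
    op (fun i => Matrix.vecMulVec (v i) (w i)) =
      Matrix.vecMulVec (fun s : Q → Bool => ∏ i, v i (s i)) (fun s : Q → Bool => ∏ i, w i (s i)) := by
  ext s t
  simp [op_apply, Matrix.vecMulVec_apply, Finset.prod_mul_distrib]

theorem prodVec_dotProduct (v w : Q → Bool → ℂ) :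
    (fun s : Q → Bool => ∏ i, v i (s i)) ⬝ᵥ (fun s : Q → Bool => ∏ i, w i (s i)) =
      ∏ i, (v i ⬝ᵥ w i) := by
  simp only [dotProduct]
  rw [Finset.prod_univ_sum, Fintype.piFinset_univ]
  refine Finset.sum_congr rfl (fun r _ => ?_)
  rw [Finset.prod_mul_distrib]

end Vale.Agent.H98.QAC
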