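import Mathlib
import Vale.Agent.H98.QAC.Basic
import Vale.Agent.H98.QAC.Abs

namespace Vale.Agent.H98.QAC

open Matrix
open scoped ComplexOrder

set_option linter.unusedSectionVars false

variable {Q : Type*} [Fintype Q] [DecidableEq Q]

/-- Diagonal of the one-qubit parity-character factor: `Z` on input qubits, `|0><0|` on the others. -/
def zd (I : Finset Q) (i : Q) (b : Bool) : ℝ :=
  if i ∈ I then (if b then -1 else 1) else (if b then 0 else 1)

/-- Diagonal of the absolute value of the parity-character factor. -/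
def zdAbs (I : Finset Q) (i : Q) (b : Bool) : ℝ :=
  if i ∈ I then 1 else (if b then 0 else 1)

theorem zd_abs (I : Finset Q) (i : Q) (b : Bool) : |zd I i b| = zdAbs I i b := by
  unfold zd zdAbs
  split_ifs <;> simp

theorem zd_sq (I : Finset Q) (i : Q) (b : Bool) : zd I i b * zd I i b = zdAbs I i b := by
  unfold zd zdAbs
  split_ifs <;> simp

theorem zdAbs_sq (I : Finset Q) (i : Q) (b : Bool) : zdAbs I i b * zdAbs I i b = zdAbs I i b := by
  unfold zdAbs
  split_ifs <;> simp

/-- product of the diagonal factors over all qubits -/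
def rz (I : Finset Q) (s : Q → Bool) : ℝ := ∏ i, zd I i (s i)

def rzAbs (I : Finset Q) (s : Q → Bool) : ℝ := ∏ i, zdAbs I i (s i)

theorem rz_abs (I : Finset Q) (s : Q → Bool) : |rz I s| = rzAbs I s := by
  unfold rz rzAbs
  rw [Finset.abs_prod]
  exact Finset.prod_congr rfl (fun i _ => zd_abs I i (s i))

theorem rz_sq (I : Finset Q) (s : Q → Bool) : rz I s * rz I s = rzAbs I s := by
  unfold rz rzAbs
  rw [← Finset.prod_mul_distrib]
  exact Finset.prod_congr rfl (fun i _ => zd_sq I i (s i))

theorem rzAbs_sq (I : Finset Q) (s : Q → Bool) : rzAbs I s * rzAbs I s = rzAbs I s := by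
  unfold rzAbs
  rw [← Finset.prod_mul_distrib]
  exact Finset.prod_congr rfl (fun i _ => zdAbs_sq I i (s i))

theorem sum_rzAbs (I : Finset Q) : ∑ s : Q → Bool, rzAbs I s = 2 ^ I.card := by
  unfold rzAbs
  have h := Finset.prod_univ_sum (fun _ : Q => (Finset.univ : Finset Bool)) (fun i b => zdAbs I i b)
  rw [Fintype.piFinset_univ] at h
  rw [← h]
  have h2 : ∀ i : Q, ∑ b : Bool, zdAbs I i b = if i ∈ I then 2 else 1 := by
    intro i
    unfold zdAbs
    split_ifs <;> simp
  simp only [h2]
  rw [Finset.prod_ite_mem_eq] <;> simp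

theorem sum_rz (I : Finset Q) : ∑ s : Q → Bool, rz I s = if I = ∅ then 1 else 0 := by
  unfold rz
  have h := Finset.prod_univ_sum (fun _ : Q => (Finset.univ : Finset Bool)) (fun i b => zd I i b)
  rw [Fintype.piFinset_univ] at h
  rw [← h]
  have h2 : ∀ i : Q, ∑ b : Bool, zd I i b = if i ∈ I then 0 else 1 := by
    intro i
    unfold zd
    split_ifs <;> simp
  simp only [h2]
  split_ifs with hI
  · subst hI; simp
  · obtain ⟨i, hi⟩ := Finset.nonempty_iff_ne_empty.mpr hI
    exact Finset.prod_eq_zero (Finset.mem_univ i) (if_pos hi)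

/-- conjugated diagonal one-qubit operator -/
def cfam (u : Q → Matrix Bool Bool ℂ) (d : Q → Bool → ℝ) (i : Q) : Matrix Bool Bool ℂ :=
  u i * Matrix.diagonal (fun b => ((d i b : ℝ) : ℂ)) * (u i)ᴴ

theorem op_cfam (u : Q → Matrix Bool Bool ℂ) (d : Q → Bool → ℝ) :
    op (cfam u d) = op u * Matrix.diagonal (fun s : Q → Bool => ((∏ i, d i (s i) : ℝ) : ℂ)) * (op u)ᴴ := by
  have h : Matrix.diagonal (fun s : Q → Bool => ((∏ i, d i (s i) : ℝ) : ℂ))
      = op (fun i => Matrix.diagonal (fun b => ((d i b : ℝ) : ℂ))) := by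
    rw [op_diagonal]
    congr 1
    funext s
    push_cast
    rfl
  rw [h, op_conjTranspose, op_mul, op_mul]
  rfl

theorem op_unitary_left (u : Q → Matrix Bool Bool ℂ) (hu : ∀ i, (u i)ᴴ * u i = 1) :
    (op u)ᴴ * op u = 1 := by
  rw [op_conjTranspose, op_mul]
  simp only [hu]
  exact op_one

theorem op_unitary_right (u : Q → Matrix Bool Bool ℂ) (hu : ∀ i, (u i)ᴴ * u i = 1) :
    op u * (op u)ᴴ = 1 := by
  rw [op_conjTranspose, op_mul]
  have h : ∀ i, u i * (u i)ᴴ = 1 := fun i => mul_eq_one_comm.mp (hu i)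
  simp only [h]
  exact op_one

section conj

variable {ι : Type*} [Fintype ι] [DecidableEq ι]

theorem conj_mul_conj {U : Matrix ι ι ℂ} (hU : Uᴴ * U = 1) (A B : Matrix ι ι ℂ) :
    (U * A * Uᴴ) * (U * B * Uᴴ) = U * (A * B) * Uᴴ := by
  calc (U * A * Uᴴ) * (U * B * Uᴴ) = U * A * (Uᴴ * U) * B * Uᴴ := by
        simp only [Matrix.mul_assoc]
    _ = U * (A * B) * Uᴴ := by rw [hU]; simp only [Matrix.mul_one, Matrix.mul_assoc]

theorem conj_trace {U : Matrix ι ι ℂ} (hU : Uᴴ * U = 1) (A : Matrix ι ι ℂ) :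
    (U * A * Uᴴ).trace = A.trace := by
  rw [Matrix.trace_mul_cycle, hU, Matrix.one_mul]

theorem conj_isProj {U : Matrix ι ι ℂ} (hU : Uᴴ * U = 1) {A : Matrix ι ι ℂ} (hA : IsProj A) :
    IsProj (U * A * Uᴴ) := by
  constructor
  · rw [Matrix.conjTranspose_mul, Matrix.conjTranspose_mul, Matrix.conjTranspose_conjTranspose, hA.1,
      Matrix.mul_assoc]
  · rw [conj_mul_conj hU, hA.2]

theorem diag_real_isProj {d : ι → ℝ} (hd : ∀ s, d s * d s = d s) :
    IsProj (Matrix.diagonal (fun s => ((d s : ℝ) : ℂ))) := by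
  constructor
  · rw [Matrix.diagonal_conjTranspose]
    congr 1
    funext s
    simp
  · rw [Matrix.diagonal_mul_diagonal]
    congr 1
    funext s
    rw [← Complex.ofReal_mul, hd]

theorem psd_trace_real {Y W : Matrix ι ι ℂ} (hY : IsProj Y) (hW : W.PosSemidef) {c : ℝ}
    (hc : W.trace = (c : ℂ)) :
    ∃ r : ℝ, (Y * W).trace = (r : ℂ) ∧ 0 ≤ r ∧ r ≤ c := by
  have h0 := trace_proj_mul_nonneg hY hW
  have h1 := trace_proj_mul_le hY hW
  rw [hc] at h1
  refine ⟨((Y * W).trace).re, ?_, (Complex.nonneg_iff.mp h0).1, ?_⟩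
  · apply Complex.ext
    · simp
    · simpa using (Complex.nonneg_iff.mp h0).2.symm
  · simpa using (Complex.le_def.mp h1).1

end conj

/-- positive part of the conjugated parity character -/
noncomputable def wPlus (u : Q → Matrix Bool Bool ℂ) (I : Finset Q) : Matrix (Q → Bool) (Q → Bool) ℂ :=
  op u * Matrix.diagonal (fun s : Q → Bool => (((rzAbs I s + rz I s) / 2 : ℝ) : ℂ)) * (op u)ᴴ

/-- negative part of the conjugated parity character -/
noncomputable def wMinus (u : Q → Matrix Bool Bool ℂ) (I : Finset Q) : Matrix (Q → Bool) (Q → Bool) ℂ :=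
  op u * Matrix.diagonal (fun s : Q → Bool => (((rzAbs I s - rz I s) / 2 : ℝ) : ℂ)) * (op u)ᴴ

theorem wPlus_psd (u : Q → Matrix Bool Bool ℂ) (I : Finset Q) : (wPlus u I).PosSemidef := by
  unfold wPlus
  refine Matrix.PosSemidef.mul_mul_conjTranspose_same (Matrix.PosSemidef.diagonal ?_) _
  intro s
  have h := rz_abs I s
  have h2 := neg_abs_le (rz I s)
  exact Complex.zero_le_real.mpr (by linarith)

theorem wMinus_psd (u : Q → Matrix Bool Bool ℂ) (I : Finset Q) : (wMinus u I).PosSemidef := by
  unfold wMinus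
  refine Matrix.PosSemidef.mul_mul_conjTranspose_same (Matrix.PosSemidef.diagonal ?_) _
  intro s
  have h := rz_abs I s
  have h2 := le_abs_self (rz I s)
  exact Complex.zero_le_real.mpr (by linarith)

theorem op_cfam_zd (u : Q → Matrix Bool Bool ℂ) (I : Finset Q) :
    op (cfam u (zd I)) = wPlus u I - wMinus u I := by
  rw [op_cfam]
  unfold wPlus wMinus
  rw [← Matrix.sub_mul, ← Matrix.mul_sub, Matrix.diagonal_sub]
  congr 3
  funext s
  simp only [← Complex.ofReal_sub]
  congr 1
  unfold rz
  ring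

theorem op_cfam_zdAbs (u : Q → Matrix Bool Bool ℂ) (I : Finset Q) :
    op (cfam u (zdAbs I)) = wPlus u I + wMinus u I := by
  rw [op_cfam]
  unfold wPlus wMinus
  rw [← Matrix.add_mul, ← Matrix.mul_add, Matrix.diagonal_add]
  congr 3
  funext s
  simp only [← Complex.ofReal_add]
  congr 1
  unfold rzAbs
  ring

theorem trace_wPlus (u : Q → Matrix Bool Bool ℂ) (hu : ∀ i, (u i)ᴴ * u i = 1) (I : Finset Q) :
    (wPlus u I).trace = (((2 ^ I.card + (if I = ∅ then 1 else 0)) / 2 : ℝ) : ℂ) := by
  unfold wPlus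
  rw [conj_trace (op_unitary_left u hu), Matrix.trace_diagonal, ← Complex.ofReal_sum,
    ← Finset.sum_div, Finset.sum_add_distrib, sum_rzAbs, sum_rz]

theorem trace_wMinus (u : Q → Matrix Bool Bool ℂ) (hu : ∀ i, (u i)ᴴ * u i = 1) (I : Finset Q) :
    (wMinus u I).trace = (((2 ^ I.card - (if I = ∅ then 1 else 0)) / 2 : ℝ) : ℂ) := by
  unfold wMinus
  rw [conj_trace (op_unitary_left u hu), Matrix.trace_diagonal, ← Complex.ofReal_sum,
    ← Finset.sum_div, Finset.sum_sub_distrib, sum_rzAbs, sum_rz]

theorem op_cfam_zd_herm (u : Q → Matrix Bool Bool ℂ) (I : Finset Q) :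
    (op (cfam u (zd I)))ᴴ = op (cfam u (zd I)) := by
  rw [op_cfam, Matrix.conjTranspose_mul, Matrix.conjTranspose_mul, Matrix.conjTranspose_conjTranspose,
    Matrix.diagonal_conjTranspose, Matrix.mul_assoc]
  congr 3
  funext s
  simp

theorem op_cfam_zd_sq (u : Q → Matrix Bool Bool ℂ) (hu : ∀ i, (u i)ᴴ * u i = 1) (I : Finset Q) :
    op (cfam u (zd I)) * op (cfam u (zd I)) = op (cfam u (zdAbs I)) := by
  rw [op_cfam, op_cfam, conj_mul_conj (op_unitary_left u hu), Matrix.diagonal_mul_diagonal]
  congr 3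
  funext s
  rw [← Complex.ofReal_mul]
  congr 1
  exact rz_sq I s

theorem op_cfam_zdAbs_isProj (u : Q → Matrix Bool Bool ℂ) (hu : ∀ i, (u i)ᴴ * u i = 1)
    (I : Finset Q) : IsProj (op (cfam u (zdAbs I))) := by
  rw [op_cfam]
  exact conj_isProj (op_unitary_left u hu) (diag_real_isProj (fun s => rzAbs_sq I s))

theorem block_bound (u : Q → Matrix Bool Bool ℂ) (hu : ∀ i, (u i)ᴴ * u i = 1)
    (I : Finset Q) (y : Q → Matrix Bool Bool ℂ)
    (hy : ∀ i, IsProj (y i)) (hy1 : ∀ i, y i = 1 ∨ (y i).trace = 1)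
    (w : Q → Bool → ℂ) (hw : ∀ i, star (w i) ⬝ᵥ w i = 1) :
    ‖(op y * (1 - 2 • op (fun i => vecMulVec (w i) (star (w i)))) * op (cfam u (zd I))
        * (1 - 2 • op (fun i => vecMulVec (w i) (star (w i))))).trace‖ ≤ Real.sqrt 2 ^ I.card := by
  classical
  set wv : (Q → Bool) → ℂ := fun s => ∏ i, w i (s i) with hwv
  have hstar : star wv = fun s : Q → Bool => ∏ i, (star (w i)) (s i) := by
    funext s
    simp [hwv]
  have hP : op (fun i => vecMulVec (w i) (star (w i))) = vecMulVec wv (star wv) := by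
    rw [op_vecMulVec, hstar]
  have hwv1 : star wv ⬝ᵥ wv = 1 := by
    rw [hstar, hwv, prodVec_dotProduct]
    simp [hw]
  rw [hP]
  set P := vecMulVec wv (star wv) with hPdef
  set R := (1 : Matrix (Q → Bool) (Q → Bool) ℂ) - 2 • P with hR
  have hPP : P * P = P := by rw [hPdef, Matrix.vecMulVec_mul_vecMulVec, hwv1, one_smul]
  have hPH : Pᴴ = P := by rw [hPdef, Matrix.conjTranspose_vecMulVec, star_star]
  have hRH : Rᴴ = R := by
    rw [hR, Matrix.conjTranspose_sub, Matrix.conjTranspose_one, Matrix.conjTranspose_smul, hPH]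
    simp
  have hRR : R * R = 1 := by
    have h : R * R = 1 - 4 • P + 4 • (P * P) := by rw [hR]; noncomm_ring
    rw [h, hPP]
    abel
  set Y := op y with hYdef
  have hY : IsProj Y := by
    constructor
    · rw [hYdef, op_conjTranspose]
      congr 1
      funext i
      exact (hy i).1
    · rw [hYdef, op_mul]
      congr 1
      funext i
      exact (hy i).2
  have hPi : IsProj (R * Y * R) := by
    constructor
    · rw [Matrix.conjTranspose_mul, Matrix.conjTranspose_mul, hRH, hY.1, Matrix.mul_assoc]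
    · calc R * Y * R * (R * Y * R) = R * Y * (R * R) * Y * R := by simp only [Matrix.mul_assoc]
        _ = R * Y * R := by rw [hRR, Matrix.mul_one, Matrix.mul_assoc R Y Y, hY.2]
  have hT : ∀ K : Matrix (Q → Bool) (Q → Bool) ℂ,
      (Y * R * K * R).trace = ((R * Y * R) * K).trace := by
    intro K
    rw [Matrix.trace_mul_comm (Y * R * K) R]
    simp only [Matrix.mul_assoc]
  obtain ⟨rp, hrp, hrp0, hrp1⟩ := psd_trace_real hPi (wPlus_psd u I) (trace_wPlus u hu I)
  obtain ⟨rm, hrm, hrm0, hrm1⟩ := psd_trace_real hPi (wMinus_psd u I) (trace_wMinus u hu I)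
  have hTX : (Y * R * op (cfam u (zd I)) * R).trace = ((rp - rm : ℝ) : ℂ) := by
    rw [hT, op_cfam_zd, Matrix.mul_sub, Matrix.trace_sub, hrp, hrm]
    push_cast
    ring
  have hTA : (Y * R * op (cfam u (zdAbs I)) * R).trace = ((rp + rm : ℝ) : ℂ) := by
    rw [hT, op_cfam_zdAbs, Matrix.mul_add, Matrix.trace_add, hrp, hrm]
    push_cast
    ring
  rw [hTX, Complex.norm_real, Real.norm_eq_abs]
  rcases Nat.lt_or_ge I.card 2 with hcard | hcard
  · have hc1 : ((2:ℝ) ^ I.card + (if I = ∅ then 1 else 0)) / 2 ≤ 1 := by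
      interval_cases h : I.card
      · have h0 : I = ∅ := Finset.card_eq_zero.mp h
        simp [h0]
      · have h0 : I ≠ ∅ := by
          intro h0
          rw [h0] at h
          simp at h
        simp [h0]
    have hc2 : ((2:ℝ) ^ I.card - (if I = ∅ then 1 else 0)) / 2 ≤ 1 := by
      interval_cases h : I.card
      · have h0 : I = ∅ := Finset.card_eq_zero.mp h
        simp [h0]
      · have h0 : I ≠ ∅ := by
          intro h0
          rw [h0] at h
          simp at h
        simp [h0]
    have h1 : |rp - rm| ≤ 1 := by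
      rw [abs_le]
      constructor <;> linarith
    exact h1.trans (one_le_pow₀ (Real.one_le_sqrt.mpr (by norm_num)))
  · have h2 : |rp - rm| ≤ 2 := by
      by_cases hA : ∃ i ∈ I, y i = 1
      · obtain ⟨i, hiI, hyi⟩ := hA
        have htr : (Y * op (cfam u (zd I))).trace = 0 := by
          rw [hYdef, op_mul, trace_op]
          apply Finset.prod_eq_zero (Finset.mem_univ i)
          rw [hyi, Matrix.one_mul]
          unfold cfam
          rw [conj_trace (hu i), Matrix.trace_diagonal]
          simp [zd, hiI]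
        have hb := refl_bound_sq hwv1 hY (op_cfam_zd_herm u I)
          (by rw [op_cfam_zd_sq u hu I]; exact op_cfam_zdAbs_isProj u hu I)
        rw [← hPdef, ← hR, htr, sub_zero, hTX, Complex.norm_real, Real.norm_eq_abs] at hb
        exact hb
      · simp only [not_exists, not_and] at hA
        have htr : ‖(Y * op (cfam u (zdAbs I))).trace‖ ≤ 1 := by
          rw [hYdef, op_mul, trace_op, norm_prod]
          apply Finset.prod_le_one (fun i _ => norm_nonneg _)
          intro i _
          by_cases hiI : i ∈ I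
          · have hx1 : cfam u (zdAbs I) i = 1 := by
              unfold cfam
              have h0 : (fun b => ((zdAbs I i b : ℝ) : ℂ)) = fun _ => 1 := by
                funext b
                simp [zdAbs, hiI]
              rw [h0, Matrix.diagonal_one, Matrix.mul_one]
              exact mul_eq_one_comm.mp (hu i)
            rw [hx1, Matrix.mul_one]
            rcases hy1 i with h | h
            · exact absurd h (hA i hiI)
            · rw [h]
              simp
          · have hpsd : (cfam u (zdAbs I) i).PosSemidef := by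
              unfold cfam
              refine Matrix.PosSemidef.mul_mul_conjTranspose_same (Matrix.PosSemidef.diagonal ?_) _
              intro b
              exact Complex.zero_le_real.mpr (by unfold zdAbs; split_ifs <;> norm_num)
            have htr1 : (cfam u (zdAbs I) i).trace = ((1:ℝ):ℂ) := by
              unfold cfam
              rw [conj_trace (hu i), Matrix.trace_diagonal]
              simp [zdAbs, hiI]
            obtain ⟨r, hr, hr0, hr1⟩ := psd_trace_real (hy i) hpsd htr1
            rw [hr, Complex.norm_real, Real.norm_eq_abs, abs_of_nonneg hr0]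
            exact hr1
        have hb := refl_bound_proj hwv1 hY (op_cfam_zdAbs_isProj u hu I)
        rw [← hPdef, ← hR, hTA] at hb
        have h3 : ‖((rp + rm : ℝ) : ℂ)‖ ≤ 2 := by
          calc ‖((rp + rm : ℝ) : ℂ)‖
              = ‖(((rp + rm : ℝ) : ℂ) - (Y * op (cfam u (zdAbs I))).trace)
                  + (Y * op (cfam u (zdAbs I))).trace‖ := by ring_nf
            _ ≤ ‖((rp + rm : ℝ) : ℂ) - (Y * op (cfam u (zdAbs I))).trace‖
                  + ‖(Y * op (cfam u (zdAbs I))).trace‖ := norm_add_le _ _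
            _ ≤ 1 + 1 := add_le_add hb htr
            _ = 2 := by norm_num
        rw [Complex.norm_real, Real.norm_eq_abs, abs_of_nonneg (by linarith)] at h3
        rw [abs_le]
        constructor <;> linarith
    calc |rp - rm| ≤ 2 := h2
      _ = Real.sqrt 2 ^ 2 := by rw [Real.sq_sqrt (by norm_num)]
      _ ≤ Real.sqrt 2 ^ I.card := pow_le_pow_right₀ (Real.one_le_sqrt.mpr (by norm_num)) hcard

end Vale.Agent.H98.QAC
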