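import Mathlib
import Vale.Agent.H98.QAC.Basic
import Vale.Agent.H98.QAC.Abs
import Vale.Agent.H98.QAC.Block

namespace Vale.Agent.H98.QAC

open Matrix

set_option linter.unusedSectionVars false

variable {Q : Type*} [Fintype Q] [DecidableEq Q]

/-- The reflection `1 - 2 P` about the range of the product operator `P = op p`. -/
def refl (p : Q → Matrix Bool Bool ℂ) : Matrix (Q → Bool) (Q → Bool) ℂ := 1 - 2 • op p

/-- Product of the reflections of a list of abstract gates (support, one-qubit factors). -/
def prodR (L : List (Finset Q × (Q → Matrix Bool Bool ℂ))) : Matrix (Q → Bool) (Q → Bool) ℂ :=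
  (L.map (fun g => refl g.2)).prod

/-- The same product in reverse order. -/
def prodRrev (L : List (Finset Q × (Q → Matrix Bool Bool ℂ))) : Matrix (Q → Bool) (Q → Bool) ℂ :=
  (L.map (fun g => refl g.2)).reverse.prod

/-- Union of the supports of a list of abstract gates. -/
def suppU (L : List (Finset Q × (Q → Matrix Bool Bool ℂ))) : Finset Q :=
  L.foldr (fun g acc => g.1 ∪ acc) ∅

theorem prodR_nil : prodR ([] : List (Finset Q × (Q → Matrix Bool Bool ℂ))) = 1 := rfl

theorem prodRrev_nil : prodRrev ([] : List (Finset Q × (Q → Matrix Bool Bool ℂ))) = 1 := rfl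

theorem prodR_cons (g : Finset Q × (Q → Matrix Bool Bool ℂ))
    (L : List (Finset Q × (Q → Matrix Bool Bool ℂ))) :
    prodR (g :: L) = refl g.2 * prodR L := by
  simp [prodR]

theorem prodRrev_cons (g : Finset Q × (Q → Matrix Bool Bool ℂ))
    (L : List (Finset Q × (Q → Matrix Bool Bool ℂ))) :
    prodRrev (g :: L) = prodRrev L * refl g.2 := by
  simp [prodRrev]

theorem suppU_nil : suppU ([] : List (Finset Q × (Q → Matrix Bool Bool ℂ))) = ∅ := rfl

theorem suppU_cons (g : Finset Q × (Q → Matrix Bool Bool ℂ))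
    (L : List (Finset Q × (Q → Matrix Bool Bool ℂ))) :
    suppU (g :: L) = g.1 ∪ suppU L := rfl

theorem disjoint_suppU (A : Finset Q) :
    ∀ L : List (Finset Q × (Q → Matrix Bool Bool ℂ)),
      (∀ g ∈ L, Disjoint A g.1) → Disjoint A (suppU L)
  | [], _ => by simp [suppU_nil]
  | g :: L, h => by
      rw [suppU_cons, Finset.disjoint_union_right]
      exact ⟨h g (by simp), disjoint_suppU A L (fun g' hg' => h g' (by simp [hg']))⟩

theorem refl_conj (p y : Q → Matrix Bool Bool ℂ) :
    refl p * op y * refl p = op y - 2 • op (fun i => p i * y i) - 2 • op (fun i => y i * p i)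
      + 4 • op (fun i => p i * y i * p i) := by
  have h : refl p * op y * refl p = op y - 2 • (op p * op y) - 2 • (op y * op p)
      + 4 • (op p * op y * op p) := by
    unfold refl
    noncomm_ring
  rw [h]
  simp only [op_mul]

/-- The contribution of one first-layer gate to the factorised trace. -/
def blockT (A : Finset Q) (p x y : Q → Matrix Bool Bool ℂ) : ℂ :=
  (∏ i ∈ A, (y i * x i).trace) - 2 * (∏ i ∈ A, (p i * y i * x i).trace)
    - 2 * (∏ i ∈ A, (y i * p i * x i).trace) + 4 * (∏ i ∈ A, (p i * y i * p i * x i).trace)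

theorem blockT_congr (A : Finset Q) (p x y y' : Q → Matrix Bool Bool ℂ)
    (h : ∀ i ∈ A, y' i = y i) : blockT A p x y' = blockT A p x y := by
  unfold blockT
  have e1 : ∏ i ∈ A, (y' i * x i).trace = ∏ i ∈ A, (y i * x i).trace :=
    Finset.prod_congr rfl (fun i hi => by rw [h i hi])
  have e2 : ∏ i ∈ A, (p i * y' i * x i).trace = ∏ i ∈ A, (p i * y i * x i).trace :=
    Finset.prod_congr rfl (fun i hi => by rw [h i hi])
  have e3 : ∏ i ∈ A, (y' i * p i * x i).trace = ∏ i ∈ A, (y i * p i * x i).trace :=
    Finset.prod_congr rfl (fun i hi => by rw [h i hi])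
  have e4 : ∏ i ∈ A, (p i * y' i * p i * x i).trace = ∏ i ∈ A, (p i * y i * p i * x i).trace :=
    Finset.prod_congr rfl (fun i hi => by rw [h i hi])
  rw [e1, e2, e3, e4]

theorem factor_step (x : Q → Matrix Bool Bool ℂ) (A : Finset Q)
    (L : List (Finset Q × (Q → Matrix Bool Bool ℂ)))
    (hdisj : ∀ g ∈ L, Disjoint A g.1)
    (IH : ∀ y : Q → Matrix Bool Bool ℂ, (op y * prodR L * op x * prodRrev L).trace
      = (L.map (fun g => blockT g.1 g.2 x y)).prod * ∏ i ∈ Finset.univ \ suppU L, (y i * x i).trace)
    (y y' : Q → Matrix Bool Bool ℂ) (hy' : ∀ i, i ∉ A → y' i = y i) :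
    (op y' * prodR L * op x * prodRrev L).trace
      = (L.map (fun g => blockT g.1 g.2 x y)).prod
        * (∏ i ∈ Finset.univ \ (A ∪ suppU L), (y i * x i).trace) * ∏ i ∈ A, (y' i * x i).trace := by
  rw [IH y']
  have h1 : L.map (fun g => blockT g.1 g.2 x y') = L.map (fun g => blockT g.1 g.2 x y) := by
    apply List.map_congr_left
    intro g hg
    apply blockT_congr
    intro i hi
    exact hy' i (fun hiA => Finset.disjoint_left.mp (hdisj g hg) hiA hi)
  rw [h1]
  have hsub : A ⊆ Finset.univ \ suppU L := by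
    intro i hi
    rw [Finset.mem_sdiff]
    exact ⟨Finset.mem_univ i, fun h => Finset.disjoint_left.mp (disjoint_suppU A L hdisj) hi h⟩
  rw [← Finset.prod_sdiff hsub]
  have hset : (Finset.univ \ suppU L) \ A = Finset.univ \ (A ∪ suppU L) := by
    ext i
    simp only [Finset.mem_sdiff, Finset.mem_univ, true_and, Finset.mem_union, not_or]
    tauto
  rw [hset]
  have h2 : ∏ i ∈ Finset.univ \ (A ∪ suppU L), (y' i * x i).trace
      = ∏ i ∈ Finset.univ \ (A ∪ suppU L), (y i * x i).trace := by
    apply Finset.prod_congr rfl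
    intro i hi
    rw [Finset.mem_sdiff, Finset.mem_union, not_or] at hi
    rw [hy' i hi.2.1]
  rw [h2]
  ring

theorem factorization (x : Q → Matrix Bool Bool ℂ) :
    ∀ (L : List (Finset Q × (Q → Matrix Bool Bool ℂ))),
      (∀ g ∈ L, ∀ i, i ∉ g.1 → g.2 i = 1) → L.Pairwise (fun g h => Disjoint g.1 h.1) →
      ∀ y : Q → Matrix Bool Bool ℂ, (op y * prodR L * op x * prodRrev L).trace
        = (L.map (fun g => blockT g.1 g.2 x y)).prod
          * ∏ i ∈ Finset.univ \ suppU L, (y i * x i).trace
  | [], _, _, y => by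
      simp [prodR_nil, prodRrev_nil, suppU_nil, op_mul, trace_op]
  | g :: L, hp, hpw, y => by
      have hpw' := List.pairwise_cons.mp hpw
      have IH := factorization x L (fun g' hg' => hp g' (by simp [hg'])) hpw'.2
      have hdisj : ∀ g' ∈ L, Disjoint g.1 g'.1 := hpw'.1
      have hp1 : ∀ i, i ∉ g.1 → g.2 i = 1 := hp g (by simp)
      have hcyc : (op y * prodR (g :: L) * op x * prodRrev (g :: L)).trace
          = ((refl g.2 * op y * refl g.2) * (prodR L * op x * prodRrev L)).trace := by
        rw [prodR_cons, prodRrev_cons]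
        rw [show op y * (refl g.2 * prodR L) * op x * (prodRrev L * refl g.2)
            = (op y * refl g.2 * prodR L * op x * prodRrev L) * refl g.2 by
              simp only [Matrix.mul_assoc]]
        rw [Matrix.trace_mul_comm]
        simp only [Matrix.mul_assoc]
      rw [hcyc, refl_conj]
      simp only [Matrix.add_mul, Matrix.sub_mul, Matrix.smul_mul, Matrix.trace_add, Matrix.trace_sub,
        Matrix.trace_smul, ← Matrix.mul_assoc]
      rw [factor_step x g.1 L hdisj IH y y (fun i _ => rfl),
        factor_step x g.1 L hdisj IH y (fun i => g.2 i * y i)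
          (fun i hi => by simp only [hp1 i hi, Matrix.one_mul]),
        factor_step x g.1 L hdisj IH y (fun i => y i * g.2 i)
          (fun i hi => by simp only [hp1 i hi, Matrix.mul_one]),
        factor_step x g.1 L hdisj IH y (fun i => g.2 i * y i * g.2 i)
          (fun i hi => by simp only [hp1 i hi, Matrix.mul_one, Matrix.one_mul])]
      simp only [List.map_cons, List.prod_cons, suppU_cons, blockT, nsmul_eq_mul]
      push_cast
      ring

end Vale.Agent.H98.QAC
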