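import Mathlib
import Vale.Agent.H98.QAC.Basic
import Vale.Agent.H98.QAC.Abs
import Vale.Agent.H98.QAC.Block
import Vale.Agent.H98.QAC.Factor

namespace Vale.Agent.H98.QAC

open Matrix
open scoped ComplexOrder

set_option linter.unusedSectionVars false

variable {Q : Type*} [Fintype Q] [DecidableEq Q]

/-- An abstract gate is admissible if its factors are the identity off the support and
rank-one projectors onto unit vectors on the support. -/
def GateOK (g : Finset Q × (Q → Matrix Bool Bool ℂ)) : Prop :=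
  (∀ i, i ∉ g.1 → g.2 i = 1) ∧
  (∀ i, i ∈ g.1 → ∃ v : Bool → ℂ, star v ⬝ᵥ v = 1 ∧ g.2 i = vecMulVec v (star v))

/-- Lists of admissible gates with pairwise disjoint supports. -/
def GoodList (L : List (Finset Q × (Q → Matrix Bool Bool ℂ))) : Prop :=
  (∀ g ∈ L, GateOK g) ∧ L.Pairwise (fun g h => Disjoint g.1 h.1)

/-- Families of one-qubit projections each of which is the identity or has trace one. -/
def ProjFam (y : Q → Matrix Bool Bool ℂ) : Prop :=
  ∀ i, IsProj (y i) ∧ (y i = 1 ∨ (y i).trace = 1)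

theorem rankOne_isProj {v : Bool → ℂ} (hv : star v ⬝ᵥ v = 1) :
    IsProj (vecMulVec v (star v)) := by
  constructor
  · rw [Matrix.conjTranspose_vecMulVec, star_star]
  · rw [Matrix.vecMulVec_mul_vecMulVec, hv, one_smul]

theorem rankOne_trace {v : Bool → ℂ} (hv : star v ⬝ᵥ v = 1) :
    (vecMulVec v (star v)).trace = 1 := by
  rw [Matrix.trace_vecMulVec, dotProduct_comm, hv]

theorem GateOK.projFam {g : Finset Q × (Q → Matrix Bool Bool ℂ)} (hg : GateOK g) : ProjFam g.2 := by
  intro i
  by_cases hi : i ∈ g.1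
  · obtain ⟨v, hv, hgi⟩ := hg.2 i hi
    rw [hgi]
    exact ⟨rankOne_isProj hv, Or.inr (rankOne_trace hv)⟩
  · rw [hg.1 i hi]
    exact ⟨isProj_one, Or.inl rfl⟩

theorem blockT_bound (u : Q → Matrix Bool Bool ℂ) (hu : ∀ i, (u i)ᴴ * u i = 1) (I : Finset Q)
    (g : Finset Q × (Q → Matrix Bool Bool ℂ)) (hg : GateOK g)
    (y : Q → Matrix Bool Bool ℂ) (hy : ProjFam y) :
    ‖blockT g.1 g.2 (cfam u (zd I)) y‖ ≤ Real.sqrt 2 ^ (I ∩ g.1).card := by
  classical
  obtain ⟨A, p⟩ := g
  simp only at hg ⊢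
  have hex : ∀ i : {i // i ∈ A}, ∃ v : Bool → ℂ, star v ⬝ᵥ v = 1 ∧ p i = vecMulVec v (star v) :=
    fun i => hg.2 i.1 i.2
  choose w hw hpw using hex
  set I' : Finset {i // i ∈ A} := I.subtype (fun i => i ∈ A) with hI'
  have hb := block_bound (fun i : {i // i ∈ A} => u i) (fun i => hu i) I'
    (fun i : {i // i ∈ A} => y i) (fun i => (hy i).1) (fun i => (hy i).2) w hw
  have hcard : I'.card = (I ∩ A).card := by
    rw [hI', Finset.card_subtype, Finset.filter_mem_eq_inter]
  rw [hcard] at hb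
  refine le_of_eq_of_le (congrArg norm ?_) hb
  -- identify the block quantity with the trace on the subsystem
  have hx : cfam (fun i : {i // i ∈ A} => u i) (zd I') = fun i : {i // i ∈ A} => cfam u (zd I) i := by
    funext i
    unfold cfam zd
    simp [hI']
  have hpp : (fun i : {i // i ∈ A} => vecMulVec (w i) (star (w i))) = fun i : {i // i ∈ A} => p i := by
    funext i
    exact (hpw i).symm
  rw [hx, hpp]
  have hexp : ∀ (Y P X : Matrix ({i // i ∈ A} → Bool) ({i // i ∈ A} → Bool) ℂ),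
      Y * (1 - 2 • P) * X * (1 - 2 • P)
        = Y * X - 2 • (Y * P * X) - 2 • (Y * X * P) + 4 • (Y * P * X * P) := by
    intro Y P X
    noncomm_ring
  rw [hexp, Matrix.trace_add, Matrix.trace_sub, Matrix.trace_sub, Matrix.trace_smul,
    Matrix.trace_smul, Matrix.trace_smul]
  simp only [op_mul, trace_op, nsmul_eq_mul]
  unfold blockT
  rw [← Finset.prod_coe_sort A, ← Finset.prod_coe_sort A, ← Finset.prod_coe_sort A,
    ← Finset.prod_coe_sort A]
  have c1 : ∀ i : {i // i ∈ A}, (p i * y i * cfam u (zd I) i).trace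
      = (y i * cfam u (zd I) i * p i).trace := by
    intro i
    rw [Matrix.trace_mul_cycle (y i.1) (cfam u (zd I) i.1) (p i.1)]
  have c2 : ∀ i : {i // i ∈ A}, (p i * y i * p i * cfam u (zd I) i).trace
      = (y i * p i * cfam u (zd I) i * p i).trace := by
    intro i
    rw [Matrix.trace_mul_comm (y i.1 * p i.1 * cfam u (zd I) i.1) (p i.1)]
    simp only [Matrix.mul_assoc]
  simp only [c1, c2]
  push_cast
  ring

theorem untouched_bound (u : Q → Matrix Bool Bool ℂ) (hu : ∀ i, (u i)ᴴ * u i = 1) (I : Finset Q)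
    (y : Q → Matrix Bool Bool ℂ) (hy : ProjFam y) (i : Q) :
    ‖(y i * cfam u (zd I) i).trace‖ ≤ 1 := by
  set Wp : Matrix Bool Bool ℂ :=
    u i * Matrix.diagonal (fun b => (((zdAbs I i b + zd I i b) / 2 : ℝ) : ℂ)) * (u i)ᴴ with hWp
  set Wm : Matrix Bool Bool ℂ :=
    u i * Matrix.diagonal (fun b => (((zdAbs I i b - zd I i b) / 2 : ℝ) : ℂ)) * (u i)ᴴ with hWm
  have hx : cfam u (zd I) i = Wp - Wm := by
    unfold cfam
    rw [hWp, hWm, ← Matrix.sub_mul, ← Matrix.mul_sub, Matrix.diagonal_sub]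
    congr 3
    funext b
    push_cast
    ring
  have hp : Wp.PosSemidef := by
    refine Matrix.PosSemidef.mul_mul_conjTranspose_same (Matrix.PosSemidef.diagonal ?_) _
    intro b
    exact Complex.zero_le_real.mpr (by unfold zd zdAbs; split_ifs <;> norm_num)
  have hm : Wm.PosSemidef := by
    refine Matrix.PosSemidef.mul_mul_conjTranspose_same (Matrix.PosSemidef.diagonal ?_) _
    intro b
    exact Complex.zero_le_real.mpr (by unfold zd zdAbs; split_ifs <;> norm_num)
  have htp : Wp.trace = ((1 : ℝ) : ℂ) := by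
    rw [hWp, conj_trace (hu i), Matrix.trace_diagonal, ← Complex.ofReal_sum, Fintype.sum_bool]
    congr 1
    by_cases hi : i ∈ I <;> simp [zd, zdAbs, hi]
  have htm : Wm.trace = (((if i ∈ I then 1 else 0 : ℝ)) : ℂ) := by
    rw [hWm, conj_trace (hu i), Matrix.trace_diagonal, ← Complex.ofReal_sum, Fintype.sum_bool]
    congr 1
    by_cases hi : i ∈ I <;> simp [zd, zdAbs, hi]
  obtain ⟨rp, hrp, hrp0, hrp1⟩ := psd_trace_real (hy i).1 hp htp
  obtain ⟨rm, hrm, hrm0, hrm1⟩ := psd_trace_real (hy i).1 hm htm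
  have hrm1' : rm ≤ 1 := hrm1.trans (by split_ifs <;> norm_num)
  rw [hx, Matrix.mul_sub, Matrix.trace_sub, hrp, hrm, ← Complex.ofReal_sub, Complex.norm_real,
    Real.norm_eq_abs, abs_le]
  constructor <;> linarith

theorem prod_blockT_bound (u : Q → Matrix Bool Bool ℂ) (hu : ∀ i, (u i)ᴴ * u i = 1) (I : Finset Q)
    (y : Q → Matrix Bool Bool ℂ) (hy : ProjFam y) :
    ∀ L : List (Finset Q × (Q → Matrix Bool Bool ℂ)), GoodList L →
      ‖(L.map (fun g => blockT g.1 g.2 (cfam u (zd I)) y)).prod‖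
        ≤ Real.sqrt 2 ^ (I ∩ suppU L).card
  | [], _ => by simp [suppU_nil]
  | g :: L, h => by
      have hpw := List.pairwise_cons.mp h.2
      have IH := prod_blockT_bound u hu I y hy L ⟨fun g' hg' => h.1 g' (by simp [hg']), hpw.2⟩
      have hb := blockT_bound u hu I g (h.1 g (by simp)) y hy
      have hdis : Disjoint (I ∩ g.1) (I ∩ suppU L) :=
        Finset.disjoint_of_subset_left Finset.inter_subset_right
          (Finset.disjoint_of_subset_right Finset.inter_subset_right (disjoint_suppU g.1 L hpw.1))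
      rw [List.map_cons, List.prod_cons, norm_mul, suppU_cons, Finset.inter_union_distrib_left,
        Finset.card_union_of_disjoint hdis, pow_add]
      exact mul_le_mul hb IH (norm_nonneg _) (by positivity)

theorem single_bound (u : Q → Matrix Bool Bool ℂ) (hu : ∀ i, (u i)ᴴ * u i = 1) (I : Finset Q)
    (L : List (Finset Q × (Q → Matrix Bool Bool ℂ))) (hL : GoodList L)
    (y : Q → Matrix Bool Bool ℂ) (hy : ProjFam y) :
    ‖(op y * prodR L * op (cfam u (zd I)) * prodRrev L).trace‖ ≤ Real.sqrt 2 ^ I.card := by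
  rw [factorization _ L (fun g hg => (hL.1 g hg).1) hL.2 y, norm_mul, norm_prod]
  have h1 := prod_blockT_bound u hu I y hy L hL
  have h2 : ∏ i ∈ Finset.univ \ suppU L, ‖(y i * cfam u (zd I) i).trace‖ ≤ 1 :=
    Finset.prod_le_one (fun i _ => norm_nonneg _) (fun i _ => untouched_bound u hu I y hy i)
  calc ‖(L.map (fun g => blockT g.1 g.2 (cfam u (zd I)) y)).prod‖
        * ∏ i ∈ Finset.univ \ suppU L, ‖(y i * cfam u (zd I) i).trace‖
      ≤ Real.sqrt 2 ^ (I ∩ suppU L).card * 1 :=
        mul_le_mul h1 h2 (Finset.prod_nonneg (fun i _ => norm_nonneg _)) (by positivity)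
    _ ≤ Real.sqrt 2 ^ I.card := by
        rw [mul_one]
        exact pow_le_pow_right₀ (Real.one_le_sqrt.mpr (by norm_num))
          (Finset.card_le_card Finset.inter_subset_left)

end Vale.Agent.H98.QAC
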