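import Mathlib
import Vale.Agent.H98.QAC.Basic
import Vale.Agent.H98.QAC.Abs

namespace Vale.Agent.H98.QAC

open Matrix
open scoped ComplexOrder

set_option linter.unusedSectionVars false

variable {ι : Type*} [Fintype ι] [DecidableEq ι]

theorem exists_phase (z : ℂ) : ∃ ω : ℂ, ‖ω‖ = 1 ∧ ω * z = ((‖z‖ : ℝ) : ℂ) := by
  by_cases h : z = 0
  · exact ⟨1, by simp, by simp [h]⟩
  · have hn : (‖z‖ : ℝ) ≠ 0 := norm_ne_zero_iff.mpr h
    have hnc : ((‖z‖ : ℝ) : ℂ) ≠ 0 := Complex.ofReal_ne_zero.mpr hn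
    refine ⟨star z / ((‖z‖ : ℝ) : ℂ), ?_, ?_⟩
    · rw [norm_div, Complex.norm_real, norm_star, Real.norm_eq_abs, abs_norm, div_self hn]
    · rw [div_mul_eq_mul_div, Complex.star_def, Complex.conj_mul', div_eq_iff hnc]
      ring

theorem proj_scale_trace_le {C Y Kp : Matrix ι ι ℂ} {lam : ℝ} (hlam : 0 ≤ lam)
    (hC : Cᴴ * C = (lam : ℂ) • Y) (hCY : C * Y = C) (hK : Kp.PosSemidef) :
    ((C * Cᴴ * Kp).trace).re ≤ lam * (Kp.trace).re := by
  rcases hlam.eq_or_lt with h0 | hpos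
  · have hC0 : C = 0 := by
      have h1 : Cᴴ * C = 0 := by rw [hC, ← h0]; simp
      exact Matrix.conjTranspose_mul_self_eq_zero.mp h1
    rw [hC0, ← h0]
    simp
  · set P : Matrix ι ι ℂ := ((lam⁻¹ : ℝ) : ℂ) • (C * Cᴴ) with hP
    have hPproj : IsProj P := by
      constructor
      · rw [hP, Matrix.conjTranspose_smul, Matrix.conjTranspose_mul,
          Matrix.conjTranspose_conjTranspose]
        simp
      · have h1 : C * Cᴴ * (C * Cᴴ) = (lam : ℂ) • (C * Cᴴ) := by
          calc C * Cᴴ * (C * Cᴴ) = C * (Cᴴ * C) * Cᴴ := by simp only [Matrix.mul_assoc]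
            _ = (lam : ℂ) • (C * Cᴴ) := by
                rw [hC, Matrix.mul_smul, Matrix.smul_mul, hCY]
        rw [hP, Matrix.smul_mul, Matrix.mul_smul, smul_smul, h1, smul_smul]
        congr 1
        push_cast
        field_simp
    have h := trace_proj_mul_le hPproj hK
    have h2 := (Complex.le_def.mp h).1
    rw [hP, Matrix.smul_mul, Matrix.trace_smul] at h2
    simp only [smul_eq_mul, Complex.re_ofReal_mul] at h2
    rwa [inv_mul_le_iff₀ hpos] at h2

/-- Polarisation bound: a product of two subspace isometries with common initial projection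
pairs with a difference of two positive semidefinite matrices by at most the larger trace. -/
theorem polar_bound (Kp Km A B Y : Matrix ι ι ℂ) (γ : ℂ) (c : ℝ)
    (hKp : Kp.PosSemidef) (hKm : Km.PosSemidef)
    (hcp : (Kp.trace).re ≤ c) (hcm : (Km.trace).re ≤ c)
    (hA : Aᴴ * A = Y) (hB : Bᴴ * B = Y) (hAB : Aᴴ * B = γ • Y)
    (hAY : A * Y = A) (hBY : B * Y = B) (hγ : ‖γ‖ ≤ 1) :
    ‖(A * Bᴴ * (Kp - Km)).trace‖ ≤ c := by
  set z := (A * Bᴴ * (Kp - Km)).trace with hz
  obtain ⟨ω, hω1, hωz⟩ := exists_phase z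
  set B1 : Matrix ι ι ℂ := (star ω) • B with hB1
  have hB1H : B1ᴴ = ω • Bᴴ := by rw [hB1, Matrix.conjTranspose_smul, star_star]
  have hωω : star ω * ω = 1 := by
    rw [Complex.star_def, Complex.conj_mul', hω1]
    simp
  have hYH : Yᴴ = Y := by
    rw [← hA, Matrix.conjTranspose_mul, Matrix.conjTranspose_conjTranspose]
  have hB1B1 : B1ᴴ * B1 = Y := by
    rw [hB1H, hB1, Matrix.smul_mul, Matrix.mul_smul, smul_smul, hB, mul_comm, hωω, one_smul]
  have hAB1 : Aᴴ * B1 = (star ω * γ) • Y := by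
    rw [hB1, Matrix.mul_smul, hAB, smul_smul]
  have hB1A : B1ᴴ * A = star (star ω * γ) • Y := by
    have h : B1ᴴ * A = (Aᴴ * B1)ᴴ := by
      rw [Matrix.conjTranspose_mul, Matrix.conjTranspose_conjTranspose]
    rw [h, hAB1, Matrix.conjTranspose_smul, hYH]
  have hB1Y : B1 * Y = B1 := by rw [hB1, Matrix.smul_mul, hBY]
  set μ : ℝ := (star ω * γ).re with hμ
  have hμ1 : |μ| ≤ 1 := by
    calc |μ| ≤ ‖star ω * γ‖ := Complex.abs_re_le_norm _
      _ = ‖γ‖ := by rw [norm_mul, norm_star, hω1, one_mul]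
      _ ≤ 1 := hγ
  have hμle := abs_le.mp hμ1
  have hsum : (star ω * γ) + star (star ω * γ) = ((2 * μ : ℝ) : ℂ) :=
    Complex.add_conj (star ω * γ)
  have hCp : (A + B1)ᴴ * (A + B1) = ((2 + 2 * μ : ℝ) : ℂ) • Y := by
    rw [Matrix.conjTranspose_add, Matrix.add_mul, Matrix.mul_add, Matrix.mul_add, hA, hAB1, hB1A,
      hB1B1]
    have e : Y + (star ω * γ) • Y + (star (star ω * γ) • Y + Y)
        = ((1 : ℂ) + (star ω * γ) + star (star ω * γ) + 1) • Y := by
      simp only [add_smul, one_smul]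
      abel
    rw [e]
    congr 1
    rw [add_assoc (1 : ℂ), hsum]
    push_cast
    ring
  have hCm : (A - B1)ᴴ * (A - B1) = ((2 - 2 * μ : ℝ) : ℂ) • Y := by
    rw [Matrix.conjTranspose_sub, Matrix.sub_mul, Matrix.mul_sub, Matrix.mul_sub, hA, hAB1, hB1A,
      hB1B1]
    have e : Y - (star ω * γ) • Y - (star (star ω * γ) • Y - Y)
        = ((1 : ℂ) - ((star ω * γ) + star (star ω * γ)) + 1) • Y := by
      simp only [add_smul, sub_smul, one_smul]
      abel
    rw [e]
    congr 1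
    rw [hsum]
    push_cast
    ring
  have hCpY : (A + B1) * Y = A + B1 := by rw [Matrix.add_mul, hAY, hB1Y]
  have hCmY : (A - B1) * Y = A - B1 := by rw [Matrix.sub_mul, hAY, hB1Y]
  -- upper bounds
  have u1 := proj_scale_trace_le (by linarith : (0:ℝ) ≤ 2 + 2 * μ) hCp hCpY hKp
  have u2 := proj_scale_trace_le (by linarith : (0:ℝ) ≤ 2 - 2 * μ) hCm hCmY hKm
  -- nonnegativity
  have nn : ∀ (C K : Matrix ι ι ℂ), K.PosSemidef → 0 ≤ ((C * Cᴴ * K).trace).re := by
    intro C K hK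
    have h := (hK.conjTranspose_mul_mul_same C).trace_nonneg
    rw [Matrix.trace_mul_cycle] at h
    exact (Complex.nonneg_iff.mp h).1
  have n1 := nn (A + B1) Km hKm
  have n2 := nn (A - B1) Kp hKp
  -- the polarisation identity
  have hKH : (Kp - Km)ᴴ = Kp - Km := by
    rw [Matrix.conjTranspose_sub, hKp.isHermitian.eq, hKm.isHermitian.eq]
  have t1 : (A * B1ᴴ * (Kp - Km)).trace = ((‖z‖ : ℝ) : ℂ) := by
    rw [hB1H, Matrix.mul_smul, Matrix.smul_mul, Matrix.trace_smul, smul_eq_mul, ← hz, hωz]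
  have t2 : (B1 * Aᴴ * (Kp - Km)).trace = ((‖z‖ : ℝ) : ℂ) := by
    have h : (B1 * Aᴴ * (Kp - Km)).trace = star ((A * B1ᴴ * (Kp - Km)).trace) := by
      rw [← Matrix.trace_conjTranspose, Matrix.conjTranspose_mul, Matrix.conjTranspose_mul,
        Matrix.conjTranspose_conjTranspose, hKH, Matrix.trace_mul_comm]
    rw [h, t1]
    simp
  have pol : ((A + B1) * (A + B1)ᴴ * (Kp - Km)).trace - ((A - B1) * (A - B1)ᴴ * (Kp - Km)).trace
      = 4 * ((‖z‖ : ℝ) : ℂ) := by
    have e : (A + B1) * (A + B1)ᴴ * (Kp - Km) - (A - B1) * (A - B1)ᴴ * (Kp - Km)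
        = 2 • (A * B1ᴴ * (Kp - Km)) + 2 • (B1 * Aᴴ * (Kp - Km)) := by
      rw [Matrix.conjTranspose_add, Matrix.conjTranspose_sub]
      noncomm_ring
    rw [← Matrix.trace_sub, e, Matrix.trace_add, Matrix.trace_smul, Matrix.trace_smul, t1, t2]
    simp only [nsmul_eq_mul]
    push_cast
    ring
  have polre := congrArg Complex.re pol
  simp only [Matrix.mul_sub, Matrix.trace_sub, Complex.sub_re, Complex.mul_re, Complex.ofReal_re,
    Complex.ofReal_im, mul_zero, sub_zero] at polre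
  have h4 : (4 : ℂ).re = 4 := by norm_num
  rw [h4] at polre
  have hc0 : 0 ≤ c := le_trans (Complex.nonneg_iff.mp hKp.trace_nonneg).1 hcp
  nlinarith [norm_nonneg z]

end Vale.Agent.H98.QAC
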