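import Mathlib
import Vale.Agent.H98.QAC.Basic
import Vale.Agent.H98.QAC.Abs
import Vale.Agent.H98.QAC.Block
import Vale.Agent.H98.QAC.Factor
import Vale.Agent.H98.QAC.Core
import Vale.Agent.H98.QAC.Polar

namespace Vale.Agent.H98.QAC

open Matrix
open scoped ComplexOrder

set_option linter.unusedSectionVars false

/-- One-qubit atoms: the identity, or a rank-one operator `|a><b|` with unit vectors. -/
def Atom1 (m : Matrix Bool Bool ℂ) : Prop :=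
  m = 1 ∨ ∃ a b : Bool → ℂ, star a ⬝ᵥ a = 1 ∧ star b ⬝ᵥ b = 1 ∧ m = vecMulVec a (star b)

theorem atom1_one : Atom1 1 := Or.inl rfl

theorem vmv_mul (u v w x : Bool → ℂ) :
    vecMulVec u v * vecMulVec w x = (v ⬝ᵥ w) • vecMulVec u x := by
  rw [Matrix.vecMulVec_mul_vecMulVec, Matrix.vecMulVec_smul]

theorem atom1_rank {a b : Bool → ℂ} (ha : star a ⬝ᵥ a = 1) (hb : star b ⬝ᵥ b = 1) :
    Atom1 (vecMulVec a (star b)) := Or.inr ⟨a, b, ha, hb, rfl⟩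

theorem unit_ip_le {a b : Bool → ℂ} (ha : star a ⬝ᵥ a = 1) (hb : star b ⬝ᵥ b = 1) :
    ‖star a ⬝ᵥ b‖ ≤ 1 := by
  have h := ip_cs a b
  rw [ha, hb] at h
  simpa using h

theorem atom1_mul_left {w : Bool → ℂ} (hw : star w ⬝ᵥ w = 1) {m : Matrix Bool Bool ℂ}
    (hm : Atom1 m) :
    ∃ z : ℂ, ‖z‖ ≤ 1 ∧ ∃ m' : Matrix Bool Bool ℂ, Atom1 m' ∧ vecMulVec w (star w) * m = z • m' := by
  rcases hm with rfl | ⟨a, b, ha, hb, rfl⟩
  · exact ⟨1, by simp, _, atom1_rank hw hw, by simp⟩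
  · exact ⟨star w ⬝ᵥ a, unit_ip_le hw ha, _, atom1_rank hw hb, vmv_mul _ _ _ _⟩

theorem atom1_mul_right {w : Bool → ℂ} (hw : star w ⬝ᵥ w = 1) {m : Matrix Bool Bool ℂ}
    (hm : Atom1 m) :
    ∃ z : ℂ, ‖z‖ ≤ 1 ∧ ∃ m' : Matrix Bool Bool ℂ, Atom1 m' ∧ m * vecMulVec w (star w) = z • m' := by
  rcases hm with rfl | ⟨a, b, ha, hb, rfl⟩
  · exact ⟨1, by simp, _, atom1_rank hw hw, by simp⟩
  · exact ⟨star b ⬝ᵥ w, unit_ip_le hb hw, _, atom1_rank ha hw, vmv_mul _ _ _ _⟩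

theorem atom1_mul_both {w : Bool → ℂ} (hw : star w ⬝ᵥ w = 1) {m : Matrix Bool Bool ℂ}
    (hm : Atom1 m) :
    ∃ z : ℂ, ‖z‖ ≤ 1 ∧ ∃ m' : Matrix Bool Bool ℂ, Atom1 m' ∧
      vecMulVec w (star w) * m * vecMulVec w (star w) = z • m' := by
  rcases hm with rfl | ⟨a, b, ha, hb, rfl⟩
  · refine ⟨1, by simp, _, atom1_rank hw hw, ?_⟩
    rw [Matrix.mul_one, vmv_mul, hw, one_smul]
  · refine ⟨(star w ⬝ᵥ a) * (star b ⬝ᵥ w), ?_, _, atom1_rank hw hw, ?_⟩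
    · rw [norm_mul]
      exact mul_le_one₀ (unit_ip_le hw ha) (norm_nonneg _) (unit_ip_le hb hw)
    · rw [vmv_mul, Matrix.smul_mul, vmv_mul, smul_smul]

theorem atom1_conj {v : Matrix Bool Bool ℂ} (hv : vᴴ * v = 1) {m : Matrix Bool Bool ℂ}
    (hm : Atom1 m) : Atom1 (vᴴ * m * v) := by
  have hv' : v * vᴴ = 1 := mul_eq_one_comm.mp hv
  rcases hm with rfl | ⟨a, b, ha, hb, rfl⟩
  · left
    rw [Matrix.mul_one, hv]
  · right
    have hu : ∀ c : Bool → ℂ, star c ⬝ᵥ c = 1 → star (vᴴ *ᵥ c) ⬝ᵥ (vᴴ *ᵥ c) = 1 := by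
      intro c hc
      rw [Matrix.star_mulVec, Matrix.conjTranspose_conjTranspose, ← Matrix.dotProduct_mulVec,
        Matrix.mulVec_mulVec, hv', Matrix.one_mulVec, hc]
    refine ⟨vᴴ *ᵥ a, vᴴ *ᵥ b, hu a ha, hu b hb, ?_⟩
    rw [Matrix.mul_vecMulVec, Matrix.vecMulVec_mul, Matrix.star_mulVec,
      Matrix.conjTranspose_conjTranspose]

/-- the vector `|0>` -/
def e0v : Bool → ℂ := fun c => if c then 0 else 1

theorem e0v_unit : star e0v ⬝ᵥ e0v = 1 := by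
  simp [dotProduct, e0v]

theorem atom1_iso {m : Matrix Bool Bool ℂ} (hm : Atom1 m) :
    ∃ (α β y : Matrix Bool Bool ℂ) (γ : ℂ), ‖γ‖ ≤ 1 ∧ m = α * βᴴ ∧ αᴴ * α = y ∧ βᴴ * β = y ∧
      αᴴ * β = γ • y ∧ α * y = α ∧ β * y = β := by
  rcases hm with rfl | ⟨a, b, ha, hb, rfl⟩
  · exact ⟨1, 1, 1, 1, by simp, by simp, by simp, by simp, by simp, by simp, by simp⟩
  · refine ⟨vecMulVec a (star e0v), vecMulVec b (star e0v), vecMulVec e0v (star e0v),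
      star a ⬝ᵥ b, unit_ip_le ha hb, ?_, ?_, ?_, ?_, ?_, ?_⟩
    · rw [Matrix.conjTranspose_vecMulVec, star_star, vmv_mul, e0v_unit, one_smul]
    · rw [Matrix.conjTranspose_vecMulVec, star_star, vmv_mul, ha, one_smul]
    · rw [Matrix.conjTranspose_vecMulVec, star_star, vmv_mul, hb, one_smul]
    · rw [Matrix.conjTranspose_vecMulVec, star_star, vmv_mul]
    · rw [vmv_mul, e0v_unit, one_smul]
    · rw [vmv_mul, e0v_unit, one_smul]

variable {Q : Type*} [Fintype Q] [DecidableEq Q]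

/-- Families of one-qubit atoms. -/
def AtomFam (x : Q → Matrix Bool Bool ℂ) : Prop := ∀ i, Atom1 (x i)

theorem op_smul_fam (z : Q → ℂ) (x : Q → Matrix Bool Bool ℂ) :
    op (fun i => z i • x i) = (∏ i, z i) • op x := by
  ext s t
  simp only [op_apply, Matrix.smul_apply, smul_eq_mul, Finset.prod_mul_distrib]

theorem atomFam_conj (v : Q → Matrix Bool Bool ℂ) (hv : ∀ i, (v i)ᴴ * v i = 1)
    (y : Q → Matrix Bool Bool ℂ) (hy : AtomFam y) :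
    AtomFam (fun i => (v i)ᴴ * y i * v i) := fun i => atom1_conj (hv i) (hy i)

theorem projFam_atomFam_of_rank (y : Q → Matrix Bool Bool ℂ)
    (hy : ∀ i, y i = 1 ∨ ∃ a : Bool → ℂ, star a ⬝ᵥ a = 1 ∧ y i = vecMulVec a (star a)) :
    AtomFam y := by
  intro i
  rcases hy i with h | ⟨a, ha, h⟩
  · exact Or.inl h
  · exact Or.inr ⟨a, a, ha, ha, h⟩

/-- Assembling pointwise scalar-times-atom decompositions. -/
theorem atomFam_of_pointwise (S : Finset Q) (f y : Q → Matrix Bool Bool ℂ)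
    (h : ∀ i, ∃ z : ℂ, ‖z‖ ≤ 1 ∧ ∃ m' : Matrix Bool Bool ℂ, Atom1 m' ∧ f i = z • m' ∧
      (i ∉ S → m' = y i)) :
    ∃ z : ℂ, ‖z‖ ≤ 1 ∧ ∃ x' : Q → Matrix Bool Bool ℂ, AtomFam x' ∧ (∀ i, i ∉ S → x' i = y i) ∧
      op f = z • op x' := by
  choose z hz x' hx' hf hS using h
  refine ⟨∏ i, z i, ?_, x', hx', hS, ?_⟩
  · rw [norm_prod]
    exact Finset.prod_le_one (fun i _ => norm_nonneg _) (fun i _ => hz i)
  · rw [← op_smul_fam]
    congr 1
    funext i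
    exact hf i

theorem atomFam_mul_left (g : Finset Q × (Q → Matrix Bool Bool ℂ)) (hg : GateOK g)
    (y : Q → Matrix Bool Bool ℂ) (hy : AtomFam y) :
    ∃ z : ℂ, ‖z‖ ≤ 1 ∧ ∃ x' : Q → Matrix Bool Bool ℂ, AtomFam x' ∧ (∀ i, i ∉ g.1 → x' i = y i) ∧
      op (fun i => g.2 i * y i) = z • op x' := by
  apply atomFam_of_pointwise g.1
  intro i
  by_cases hi : i ∈ g.1
  · obtain ⟨w, hw, hgi⟩ := hg.2 i hi
    obtain ⟨z, hz, m', hm', e⟩ := atom1_mul_left hw (hy i)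
    exact ⟨z, hz, m', hm', by rw [hgi, e], fun h => absurd hi h⟩
  · exact ⟨1, by simp, y i, hy i, by rw [hg.1 i hi, Matrix.one_mul, one_smul], fun _ => rfl⟩

theorem atomFam_mul_right (g : Finset Q × (Q → Matrix Bool Bool ℂ)) (hg : GateOK g)
    (y : Q → Matrix Bool Bool ℂ) (hy : AtomFam y) :
    ∃ z : ℂ, ‖z‖ ≤ 1 ∧ ∃ x' : Q → Matrix Bool Bool ℂ, AtomFam x' ∧ (∀ i, i ∉ g.1 → x' i = y i) ∧
      op (fun i => y i * g.2 i) = z • op x' := by
  apply atomFam_of_pointwise g.1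
  intro i
  by_cases hi : i ∈ g.1
  · obtain ⟨w, hw, hgi⟩ := hg.2 i hi
    obtain ⟨z, hz, m', hm', e⟩ := atom1_mul_right hw (hy i)
    exact ⟨z, hz, m', hm', by rw [hgi, e], fun h => absurd hi h⟩
  · exact ⟨1, by simp, y i, hy i, by rw [hg.1 i hi, Matrix.mul_one, one_smul], fun _ => rfl⟩

theorem atomFam_mul_both (g : Finset Q × (Q → Matrix Bool Bool ℂ)) (hg : GateOK g)
    (y : Q → Matrix Bool Bool ℂ) (hy : AtomFam y) :
    ∃ z : ℂ, ‖z‖ ≤ 1 ∧ ∃ x' : Q → Matrix Bool Bool ℂ, AtomFam x' ∧ (∀ i, i ∉ g.1 → x' i = y i) ∧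
      op (fun i => g.2 i * y i * g.2 i) = z • op x' := by
  apply atomFam_of_pointwise g.1
  intro i
  by_cases hi : i ∈ g.1
  · obtain ⟨w, hw, hgi⟩ := hg.2 i hi
    obtain ⟨z, hz, m', hm', e⟩ := atom1_mul_both hw (hy i)
    exact ⟨z, hz, m', hm', by rw [hgi, e], fun h => absurd hi h⟩
  · exact ⟨1, by simp, y i, hy i,
      by rw [hg.1 i hi, Matrix.one_mul, Matrix.mul_one, one_smul], fun _ => rfl⟩

/-- A product of atoms is a product of two subspace isometries with common initial projection. -/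
theorem atomFam_iso (x : Q → Matrix Bool Bool ℂ) (hx : AtomFam x) :
    ∃ (A B Y : Matrix (Q → Bool) (Q → Bool) ℂ) (γ : ℂ), ‖γ‖ ≤ 1 ∧ op x = A * Bᴴ ∧
      Aᴴ * A = Y ∧ Bᴴ * B = Y ∧ Aᴴ * B = γ • Y ∧ A * Y = A ∧ B * Y = B := by
  have h := fun i => atom1_iso (hx i)
  choose α β y γ hγ hm hα hβ hαβ hαy hβy using h
  refine ⟨op α, op β, op y, ∏ i, γ i, ?_, ?_, ?_, ?_, ?_, ?_, ?_⟩
  · rw [norm_prod]
    exact Finset.prod_le_one (fun i _ => norm_nonneg _) (fun i _ => hγ i)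
  · rw [op_conjTranspose, op_mul]
    congr 1
    funext i
    exact hm i
  · rw [op_conjTranspose, op_mul]
    congr 1
    funext i
    exact hα i
  · rw [op_conjTranspose, op_mul]
    congr 1
    funext i
    exact hβ i
  · rw [op_conjTranspose, op_mul, ← op_smul_fam]
    congr 1
    funext i
    exact hαβ i
  · rw [op_mul]
    congr 1
    funext i
    exact hαy i
  · rw [op_mul]
    congr 1
    funext i
    exact hβy i

end Vale.Agent.H98.QAC
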