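import Mathlib
import Vale.Agent.H98.QAC.Basic
import Vale.Agent.H98.QAC.Abs
import Vale.Agent.H98.QAC.Block
import Vale.Agent.H98.QAC.Factor
import Vale.Agent.H98.QAC.Core
import Vale.Agent.H98.QAC.Polar
import Vale.Agent.H98.QAC.Atom

namespace Vale.Agent.H98.QAC

open Matrix

set_option linter.unusedSectionVars false

/-- a unit vector orthogonal to `a` -/
def perp (a : Bool → ℂ) : Bool → ℂ := fun r => if r then star (a false) else - star (a true)

/-- the matrix with columns `a` and `perp a` -/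
def colU (a : Bool → ℂ) : Matrix Bool Bool ℂ := Matrix.of (fun r c => if c then perp a r else a r)

theorem unit_expand {a : Bool → ℂ} (ha : star a ⬝ᵥ a = 1) :
    (starRingEnd ℂ) (a true) * a true + (starRingEnd ℂ) (a false) * a false = 1 := by
  simpa [dotProduct, Fintype.sum_bool] using ha

theorem colU_unitary {a : Bool → ℂ} (ha : star a ⬝ᵥ a = 1) : (colU a)ᴴ * colU a = 1 := by
  have h1 := unit_expand ha
  ext r c
  cases r <;> cases c <;>
    simp [colU, perp, Matrix.mul_apply, Matrix.conjTranspose_apply]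
  · linear_combination h1
  · ring
  · ring
  · linear_combination h1

theorem colU_diag0 (a : Bool → ℂ) :
    colU a * Matrix.diagonal (fun c : Bool => if c then (0 : ℂ) else 1) * (colU a)ᴴ
      = vecMulVec a (star a) := by
  ext r c
  cases r <;> cases c <;>
    simp [colU, perp, Matrix.mul_apply, Matrix.conjTranspose_apply,
      Matrix.diagonal_apply, Matrix.vecMulVec_apply]

theorem colU_diag1 (a : Bool → ℂ) :
    colU a * Matrix.diagonal (fun c : Bool => if c then (1 : ℂ) else 0) * (colU a)ᴴ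
      = vecMulVec (perp a) (star (perp a)) := by
  ext r c
  cases r <;> cases c <;>
    simp [colU, perp, Matrix.mul_apply, Matrix.conjTranspose_apply,
      Matrix.diagonal_apply, Matrix.vecMulVec_apply]

theorem perp_unit {a : Bool → ℂ} (ha : star a ⬝ᵥ a = 1) : star (perp a) ⬝ᵥ perp a = 1 := by
  have h1 := unit_expand ha
  simp only [dotProduct, Fintype.sum_bool, perp, Pi.star_apply]
  simp
  linear_combination h1

theorem one_sub_rank {a : Bool → ℂ} (ha : star a ⬝ᵥ a = 1) :
    1 - vecMulVec a (star a) = vecMulVec (perp a) (star (perp a)) := by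
  have hU : colU a * (colU a)ᴴ = 1 := mul_eq_one_comm.mp (colU_unitary ha)
  rw [← colU_diag0, ← colU_diag1]
  have hd : Matrix.diagonal (fun c : Bool => if c then (1 : ℂ) else 0)
      = 1 - Matrix.diagonal (fun c : Bool => if c then (0 : ℂ) else 1) := by
    ext r c
    cases r <;> cases c <;> simp
  rw [hd, Matrix.mul_sub, Matrix.sub_mul, Matrix.mul_one, hU]

/-- Simultaneous diagonalisation of a rank-one projector and its complement. -/
theorem rank_diag {m : Matrix Bool Bool ℂ}
    (hm : m = 1 ∨ ∃ a : Bool → ℂ, star a ⬝ᵥ a = 1 ∧ m = vecMulVec a (star a)) :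
    ∃ v : Matrix Bool Bool ℂ, vᴴ * v = 1 ∧
      (m = 1 ∨ (m = v * Matrix.diagonal (fun c : Bool => if c then (0 : ℂ) else 1) * vᴴ ∧
        Atom1 (1 - m) ∧
        1 - m = v * Matrix.diagonal (fun c : Bool => if c then (1 : ℂ) else 0) * vᴴ)) := by
  rcases hm with h | ⟨a, ha, rfl⟩
  · exact ⟨1, by simp, Or.inl h⟩
  · refine ⟨colU a, colU_unitary ha, Or.inr ⟨(colU_diag0 a).symm, ?_, ?_⟩⟩
    · rw [one_sub_rank ha]
      exact atom1_rank (perp_unit ha) (perp_unit ha)
    · rw [one_sub_rank ha, colU_diag1]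

section general

variable {ι : Type*} [Fintype ι] [DecidableEq ι]

/-- Trace of a conjugated diagonal matrix against `K`. -/
theorem trace_conj_diag (V K : Matrix ι ι ℂ) (f : ι → ℂ) :
    (V * Matrix.diagonal f * Vᴴ * K).trace = ∑ s, f s * (Vᴴ * K * V) s s := by
  have h : (V * Matrix.diagonal f * Vᴴ * K).trace = (Matrix.diagonal f * (Vᴴ * K * V)).trace := by
    rw [Matrix.mul_assoc V, Matrix.mul_assoc V, Matrix.trace_mul_comm]
    simp only [Matrix.mul_assoc]
  rw [h]
  simp only [Matrix.trace, Matrix.diag_apply, Matrix.diagonal_mul]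

/-- The diagonal of a unitary conjugate of a real diagonal matrix has absolute sum at most the
absolute sum of the diagonal. -/
theorem diag_conj_abs_sum (C : Matrix ι ι ℂ) (hC : Cᴴ * C = 1) (d : ι → ℝ) :
    ∑ s, ‖(C * Matrix.diagonal (fun t => ((d t : ℝ) : ℂ)) * Cᴴ) s s‖ ≤ ∑ t, |d t| := by
  have e : ∀ s, (C * Matrix.diagonal (fun t => ((d t : ℝ) : ℂ)) * Cᴴ) s s
      = ∑ t, ((d t : ℝ) : ℂ) * ((‖C s t‖ ^ 2 : ℝ) : ℂ) := by
    intro s
    rw [Matrix.mul_apply]
    refine Finset.sum_congr rfl (fun t _ => ?_)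
    rw [Matrix.mul_diagonal, Matrix.conjTranspose_apply, Complex.star_def, mul_assoc, mul_comm,
      mul_assoc, mul_comm (starRingEnd ℂ (C s t)), Complex.mul_conj, Complex.normSq_eq_norm_sq,
      mul_comm]
  have hcol : ∀ t, ∑ s, ‖C s t‖ ^ 2 = 1 := by
    intro t
    have h1 : (Cᴴ * C) t t = 1 := by rw [hC]; simp
    rw [Matrix.mul_apply] at h1
    have h3 : ((∑ s, ‖C s t‖ ^ 2 : ℝ) : ℂ) = 1 := by
      rw [← h1]
      push_cast
      refine Finset.sum_congr rfl (fun s _ => ?_)
      rw [Matrix.conjTranspose_apply, Complex.star_def, mul_comm, Complex.mul_conj,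
        Complex.normSq_eq_norm_sq]
      push_cast
      rfl
    exact_mod_cast h3
  calc ∑ s, ‖(C * Matrix.diagonal (fun t => ((d t : ℝ) : ℂ)) * Cᴴ) s s‖
      ≤ ∑ s, ∑ t, |d t| * ‖C s t‖ ^ 2 := by
        refine Finset.sum_le_sum (fun s _ => ?_)
        rw [e]
        refine (norm_sum_le _ _).trans (Finset.sum_le_sum (fun t _ => ?_))
        rw [norm_mul, Complex.norm_real, Complex.norm_real, Real.norm_eq_abs, Real.norm_eq_abs,
          abs_of_nonneg (sq_nonneg ‖C s t‖)]
    _ = ∑ t, |d t| := by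
        rw [Finset.sum_comm]
        refine Finset.sum_congr rfl (fun t _ => ?_)
        rw [← Finset.mul_sum, hcol, mul_one]

end general

section approx

variable {Q : Type*} [Fintype Q] [DecidableEq Q]

/-- Families of one-qubit operators each of which is the identity or the projector onto a
unit vector. -/
def RankFam (y : Q → Matrix Bool Bool ℂ) : Prop :=
  ∀ i, y i = 1 ∨ ∃ a : Bool → ℂ, star a ⬝ᵥ a = 1 ∧ y i = vecMulVec a (star a)

/-- diagonal of the projector family: `|0><0|` on `G`, identity elsewhere -/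
def dG (G : Finset Q) (i : Q) (c : Bool) : ℝ := if i ∈ G then (if c then 0 else 1) else 1

/-- diagonal of the complementary family: `|1><1|` on `T`, identity elsewhere -/
def dT (T : Finset Q) (i : Q) (c : Bool) : ℝ := if i ∈ T then (if c then 1 else 0) else 1

theorem prod_dG (G : Finset Q) (s : Q → Bool) :
    ∏ i, dG G i (s i) = if (G.filter (fun i => s i = true)).card = 0 then 1 else 0 := by
  have h : ∀ i, dG G i (s i) = if ¬ (i ∈ G ∧ s i = true) then 1 else 0 := by
    intro i
    unfold dG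
    by_cases hi : i ∈ G <;> cases hs : s i <;> simp [hi]
  simp only [h]
  have hiff : (∀ i : Q, ¬ (i ∈ G ∧ s i = true))
      ↔ (G.filter (fun i => s i = true)).card = 0 := by
    rw [Finset.card_eq_zero, Finset.filter_eq_empty_iff]
    constructor
    · intro h i hi hs
      exact h i ⟨hi, hs⟩
    · intro h i hh
      exact h hh.1 hh.2
  rw [Fintype.prod_boole]
  exact if_congr hiff rfl rfl

theorem prod_dT (T : Finset Q) (s : Q → Bool) :
    ∏ i, dT T i (s i) = if ∀ i ∈ T, s i = true then 1 else 0 := by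
  have h : ∀ i, dT T i (s i) = if (i ∈ T → s i = true) then 1 else 0 := by
    intro i
    unfold dT
    by_cases hi : i ∈ T <;> cases hs : s i <;> simp [hi]
  simp only [h]
  rw [Fintype.prod_boole]

theorem sum_powersetCard_boole (G : Finset Q) (s : Q → Bool) (j : ℕ) :
    ∑ T ∈ G.powersetCard j, (if ∀ i ∈ T, s i = true then (1 : ℝ) else 0)
      = ((G.filter (fun i => s i = true)).card.choose j : ℝ) := by
  rw [Finset.sum_boole, ← Finset.card_powersetCard]
  congr 2
  ext T
  simp only [Finset.mem_filter, Finset.mem_powersetCard, Finset.subset_iff]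
  constructor
  · rintro ⟨⟨h1, h2⟩, h3⟩
    exact ⟨fun i hi => ⟨h1 hi, h3 i hi⟩, h2⟩
  · rintro ⟨h1, h2⟩
    exact ⟨⟨fun i hi => (h1 hi).1, h2⟩, fun i hi => (h1 hi).2⟩

theorem cfam_dG_eq (v y : Q → Matrix Bool Bool ℂ) (hvu : ∀ i, (v i)ᴴ * v i = 1) (G : Finset Q)
    (hG1 : ∀ i, i ∉ G → y i = 1)
    (hG2 : ∀ i, i ∈ G →
      y i = v i * Matrix.diagonal (fun c : Bool => if c then (0 : ℂ) else 1) * (v i)ᴴ) :
    y = cfam v (dG G) := by
  funext i
  unfold cfam dG
  by_cases hi : i ∈ G
  · rw [hG2 i hi]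
    have hd : (fun b : Bool => (((if i ∈ G then (if b then (0 : ℝ) else 1) else 1 : ℝ)) : ℂ))
        = fun c : Bool => if c then (0 : ℂ) else 1 := by
      funext c
      cases c <;> simp [hi]
    rw [hd]
  · rw [hG1 i hi]
    have h1 : (fun b : Bool => (((if i ∈ G then (if b then (0 : ℝ) else 1) else 1 : ℝ)) : ℂ))
        = fun _ => 1 := by
      funext b
      simp [hi]
    rw [h1, Matrix.diagonal_one, Matrix.mul_one, mul_eq_one_comm.mp (hvu i)]

theorem cfam_dT_eq (v y : Q → Matrix Bool Bool ℂ) (hvu : ∀ i, (v i)ᴴ * v i = 1) (T : Finset Q)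
    (hT : ∀ i, i ∈ T →
      1 - y i = v i * Matrix.diagonal (fun c : Bool => if c then (1 : ℂ) else 0) * (v i)ᴴ) (i : Q) :
    cfam v (dT T) i = if i ∈ T then 1 - y i else 1 := by
  unfold cfam dT
  by_cases hi : i ∈ T
  · rw [if_pos hi, hT i hi]
    have hd : (fun b : Bool => (((if i ∈ T then (if b then (1 : ℝ) else 0) else 1 : ℝ)) : ℂ))
        = fun c : Bool => if c then (1 : ℂ) else 0 := by
      funext c
      cases c <;> simp [hi]
    rw [hd]
  · rw [if_neg hi]
    have h1 : (fun b : Bool => (((if i ∈ T then (if b then (1 : ℝ) else 0) else 1 : ℝ)) : ℂ))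
        = fun _ => 1 := by
      funext b
      simp [hi]
    rw [h1, Matrix.diagonal_one, Matrix.mul_one, mul_eq_one_comm.mp (hvu i)]

/-- Approximate inclusion-exclusion for a product projector with at most `W` non-identity
factors: if the indicator of zero is approximated on `0..W` to within `ε` by `∑ j ≤ k, β j * choose m j`, then the trace of
`op y * K` is controlled by `ε` times the diagonal mass of `K` plus the weighted sum of the
bounds for products of at most `k` rank-one atoms. -/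
theorem and_approx (K : Matrix (Q → Bool) (Q → Bool) ℂ) (D c ε : ℝ) (k W : ℕ) (β : ℕ → ℝ)
    (hβ : ∀ m : ℕ, m ≤ W →
      |(if m = 0 then (1 : ℝ) else 0) - ∑ j ∈ Finset.range (k + 1), β j * (m.choose j : ℝ)| ≤ ε)
    (hD : ∀ v : Q → Matrix Bool Bool ℂ, (∀ i, (v i)ᴴ * v i = 1) →
      ∑ s, ‖((op v)ᴴ * K * op v) s s‖ ≤ D)
    (hterm : ∀ (T : Finset Q) (y' : Q → Matrix Bool Bool ℂ), AtomFam y' →
      (∀ i, i ∉ T → y' i = 1) → ‖(op y' * K).trace‖ ≤ 9 ^ T.card * c)
    (y : Q → Matrix Bool Bool ℂ) (hy : RankFam y) (S : Finset Q) (hS : ∀ i, i ∉ S → y i = 1)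
    (hSW : S.card ≤ W) :
    ‖(op y * K).trace‖ ≤ ε * D
      + (∑ j ∈ Finset.range (k + 1), |β j| * (W.choose j : ℝ) * 9 ^ j) * c := by
  classical
  have hv := fun i => rank_diag (hy i)
  choose v hvu hvd using hv
  set G : Finset Q := Finset.univ.filter (fun i => y i ≠ 1) with hG
  have hG1 : ∀ i, i ∉ G → y i = 1 := by
    intro i hi
    by_contra h
    exact hi (Finset.mem_filter.mpr ⟨Finset.mem_univ _, h⟩)
  have hG2 : ∀ i, i ∈ G →
      (y i = v i * Matrix.diagonal (fun c : Bool => if c then (0 : ℂ) else 1) * (v i)ᴴ ∧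
        Atom1 (1 - y i) ∧
        1 - y i = v i * Matrix.diagonal (fun c : Bool => if c then (1 : ℂ) else 0) * (v i)ᴴ) := by
    intro i hi
    rcases hvd i with h | h
    · exact absurd h (Finset.mem_filter.mp hi).2
    · exact h
  have hy1 : y = cfam v (dG G) := cfam_dG_eq v y hvu G hG1 (fun i hi => (hG2 i hi).1)
  set κ : (Q → Bool) → ℂ := fun s => ((op v)ᴴ * K * op v) s s with hκ
  set b : (Q → Bool) → ℕ := fun s => (G.filter (fun i => s i = true)).card with hb
  have hGS : G ⊆ S := by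
    intro i hi
    by_contra h
    exact (Finset.mem_filter.mp hi).2 (hS i h)
  have hGW : G.card ≤ W := (Finset.card_le_card hGS).trans hSW
  have hbN : ∀ s, b s ≤ W := fun s =>
    (Finset.card_le_card (Finset.filter_subset _ _)).trans hGW
  have tr_d : ∀ d : Q → Bool → ℝ,
      (op (cfam v d) * K).trace = ∑ s, ((∏ i, d i (s i) : ℝ) : ℂ) * κ s := by
    intro d
    rw [op_cfam, trace_conj_diag]
  have e1 : (op y * K).trace = ∑ s, ((∏ i, dG G i (s i) : ℝ) : ℂ) * κ s := by
    conv_lhs => rw [hy1]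
    exact tr_d _
  have hsumT : ∀ j : ℕ, ∑ T ∈ G.powersetCard j, (op (cfam v (dT T)) * K).trace
      = ∑ s, (((b s).choose j : ℝ) : ℂ) * κ s := by
    intro j
    simp only [tr_d]
    rw [Finset.sum_comm]
    refine Finset.sum_congr rfl (fun s _ => ?_)
    rw [← Finset.sum_mul, ← Complex.ofReal_sum]
    congr 2
    simp only [prod_dT]
    exact sum_powersetCard_boole G s j
  have hmain : (op y * K).trace
        - ∑ j ∈ Finset.range (k + 1),
            (β j : ℂ) * ∑ T ∈ G.powersetCard j, (op (cfam v (dT T)) * K).trace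
      = ∑ s, (((if b s = 0 then (1 : ℝ) else 0)
          - ∑ j ∈ Finset.range (k + 1), β j * ((b s).choose j : ℝ) : ℝ) : ℂ) * κ s := by
    simp only [hsumT]
    rw [e1]
    have e2 : ∑ j ∈ Finset.range (k + 1), (β j : ℂ) * ∑ s, (((b s).choose j : ℝ) : ℂ) * κ s
        = ∑ s, ((∑ j ∈ Finset.range (k + 1), β j * ((b s).choose j : ℝ) : ℝ) : ℂ) * κ s := by
      simp only [Finset.mul_sum]
      rw [Finset.sum_comm]
      refine Finset.sum_congr rfl (fun s _ => ?_)
      rw [Complex.ofReal_sum, Finset.sum_mul]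
      refine Finset.sum_congr rfl (fun j _ => ?_)
      push_cast
      ring
    rw [e2, ← Finset.sum_sub_distrib]
    refine Finset.sum_congr rfl (fun s _ => ?_)
    rw [prod_dG, Complex.ofReal_sub, sub_mul]
  have hε0 : 0 ≤ ε := (abs_nonneg _).trans (hβ 0 (Nat.zero_le _))
  have herr : ‖∑ s, (((if b s = 0 then (1 : ℝ) else 0)
          - ∑ j ∈ Finset.range (k + 1), β j * ((b s).choose j : ℝ) : ℝ) : ℂ) * κ s‖ ≤ ε * D := by
    refine (norm_sum_le _ _).trans ?_
    have h1 : ∀ s ∈ (Finset.univ : Finset (Q → Bool)),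
        ‖(((if b s = 0 then (1 : ℝ) else 0)
          - ∑ j ∈ Finset.range (k + 1), β j * ((b s).choose j : ℝ) : ℝ) : ℂ) * κ s‖
          ≤ ε * ‖κ s‖ := by
      intro s _
      rw [norm_mul, Complex.norm_real, Real.norm_eq_abs]
      exact mul_le_mul_of_nonneg_right (hβ (b s) (hbN s)) (norm_nonneg _)
    refine (Finset.sum_le_sum h1).trans ?_
    rw [← Finset.mul_sum]
    exact mul_le_mul_of_nonneg_left (hD v hvu) hε0
  have hc0 : 0 ≤ c := by
    have h := hterm ∅ (fun _ => 1) (fun _ => atom1_one) (fun _ _ => rfl)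
    have h2 := (norm_nonneg _).trans h
    simpa using h2
  have hT : ∀ j, ∀ T ∈ G.powersetCard j, ‖(op (cfam v (dT T)) * K).trace‖ ≤ 9 ^ j * c := by
    intro j T hT
    rw [Finset.mem_powersetCard] at hT
    have hTd := cfam_dT_eq v y hvu T (fun i hi => (hG2 i (hT.1 hi)).2.2)
    have hfam : AtomFam (cfam v (dT T)) := by
      intro i
      rw [hTd i]
      by_cases hi : i ∈ T
      · rw [if_pos hi]
        exact (hG2 i (hT.1 hi)).2.1
      · rw [if_neg hi]
        exact atom1_one
    have hout : ∀ i, i ∉ T → cfam v (dT T) i = 1 := by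
      intro i hi
      rw [hTd i, if_neg hi]
    have h := hterm T _ hfam hout
    rwa [hT.2] at h
  have hmainb : ‖∑ j ∈ Finset.range (k + 1),
        (β j : ℂ) * ∑ T ∈ G.powersetCard j, (op (cfam v (dT T)) * K).trace‖
      ≤ (∑ j ∈ Finset.range (k + 1), |β j| * (W.choose j : ℝ) * 9 ^ j) * c := by
    rw [Finset.sum_mul]
    refine (norm_sum_le _ _).trans (Finset.sum_le_sum (fun j _ => ?_))
    rw [norm_mul, Complex.norm_real, Real.norm_eq_abs]
    have h1 : ‖∑ T ∈ G.powersetCard j, (op (cfam v (dT T)) * K).trace‖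
        ≤ (G.card.choose j : ℝ) * (9 ^ j * c) := by
      refine (norm_sum_le _ _).trans ?_
      refine (Finset.sum_le_sum (hT j)).trans ?_
      rw [Finset.sum_const, Finset.card_powersetCard, nsmul_eq_mul]
    have h2 : (G.card.choose j : ℝ) ≤ (W.choose j : ℝ) := by
      exact_mod_cast Nat.choose_le_choose j hGW
    have h3 : (0 : ℝ) ≤ 9 ^ j * c := by positivity
    calc |β j| * ‖∑ T ∈ G.powersetCard j, (op (cfam v (dT T)) * K).trace‖
        ≤ |β j| * ((G.card.choose j : ℝ) * (9 ^ j * c)) :=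
          mul_le_mul_of_nonneg_left h1 (abs_nonneg _)
      _ ≤ |β j| * ((W.choose j : ℝ) * (9 ^ j * c)) :=
          mul_le_mul_of_nonneg_left (mul_le_mul_of_nonneg_right h2 h3) (abs_nonneg _)
      _ = |β j| * (W.choose j : ℝ) * 9 ^ j * c := by ring
  have hfin : (op y * K).trace
      = (∑ s, (((if b s = 0 then (1 : ℝ) else 0)
          - ∑ j ∈ Finset.range (k + 1), β j * ((b s).choose j : ℝ) : ℝ) : ℂ) * κ s)
        + ∑ j ∈ Finset.range (k + 1),
            (β j : ℂ) * ∑ T ∈ G.powersetCard j, (op (cfam v (dT T)) * K).trace := by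
    rw [← hmain]
    ring
  rw [hfin]
  exact (norm_add_le _ _).trans (add_le_add herr hmainb)

end approx

end Vale.Agent.H98.QAC
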