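import Mathlib
import Vale.Agent.H98.QAC.Basic
import Vale.Agent.H98.QAC.Abs
import Vale.Agent.H98.QAC.Block
import Vale.Agent.H98.QAC.Atom
import Vale.Agent.H98.QAC.Approx

namespace Vale.Agent.H98.QAC

open Matrix

set_option linter.unusedSectionVars false

section approx2

variable {Q : Type*} [Fintype Q] [DecidableEq Q]

/-- Approximate inclusion-exclusion for a product projector with at most `W` non-identity
factors: if the indicator of zero is approximated on `0..W` to within `ε` by `∑ j ≤ k, β j * choose m j`, then the trace of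
`op y * K` is controlled by `ε` times the diagonal mass of `K` plus the weighted sum of the
bounds for products of at most `k` rank-one atoms (general base `ρ`). -/
theorem and_approx_gen (K : Matrix (Q → Bool) (Q → Bool) ℂ) (D c ε ρ : ℝ) (hρ : 0 ≤ ρ) (k W : ℕ)
    (β : ℕ → ℝ)
    (hβ : ∀ m : ℕ, m ≤ W →
      |(if m = 0 then (1 : ℝ) else 0) - ∑ j ∈ Finset.range (k + 1), β j * (m.choose j : ℝ)| ≤ ε)
    (hD : ∀ v : Q → Matrix Bool Bool ℂ, (∀ i, (v i)ᴴ * v i = 1) →
      ∑ s, ‖((op v)ᴴ * K * op v) s s‖ ≤ D)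
    (hterm : ∀ (T : Finset Q) (y' : Q → Matrix Bool Bool ℂ), AtomFam y' →
      (∀ i, i ∉ T → y' i = 1) → ‖(op y' * K).trace‖ ≤ ρ ^ T.card * c)
    (y : Q → Matrix Bool Bool ℂ) (hy : RankFam y) (S : Finset Q) (hS : ∀ i, i ∉ S → y i = 1)
    (hSW : S.card ≤ W) :
    ‖(op y * K).trace‖ ≤ ε * D
      + (∑ j ∈ Finset.range (k + 1), |β j| * (W.choose j : ℝ) * ρ ^ j) * c := by
  classical
  have hv := fun i => rank_diag (hy i)
  choose v hvu hvd using hv
  set G : Finset Q := Finset.univ.filter (fun i => y i ≠ 1) with hG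
  have hG1 : ∀ i, i ∉ G → y i = 1 := by
    intro i hi
    by_contra h
    exact hi (Finset.mem_filter.mpr ⟨Finset.mem_univ _, h⟩)
  have hG2 : ∀ i, i ∈ G →
      (y i = v i * Matrix.diagonal (fun c : Bool => if c then (0 : ℂ) else 1) * (v i)ᴴ ∧
        Atom1 (1 - y i) ∧
        1 - y i = v i * Matrix.diagonal (fun c : Bool => if c then (1 : ℂ) else 0) * (v i)ᴴ) := by
    intro i hi
    rcases hvd i with h | h
    · exact absurd h (Finset.mem_filter.mp hi).2
    · exact h
  have hy1 : y = cfam v (dG G) := cfam_dG_eq v y hvu G hG1 (fun i hi => (hG2 i hi).1)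
  set κ : (Q → Bool) → ℂ := fun s => ((op v)ᴴ * K * op v) s s with hκ
  set b : (Q → Bool) → ℕ := fun s => (G.filter (fun i => s i = true)).card with hb
  have hGS : G ⊆ S := by
    intro i hi
    by_contra h
    exact (Finset.mem_filter.mp hi).2 (hS i h)
  have hGW : G.card ≤ W := (Finset.card_le_card hGS).trans hSW
  have hbN : ∀ s, b s ≤ W := fun s =>
    (Finset.card_le_card (Finset.filter_subset _ _)).trans hGW
  have tr_d : ∀ d : Q → Bool → ℝ,
      (op (cfam v d) * K).trace = ∑ s, ((∏ i, d i (s i) : ℝ) : ℂ) * κ s := by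
    intro d
    rw [op_cfam, trace_conj_diag]
  have e1 : (op y * K).trace = ∑ s, ((∏ i, dG G i (s i) : ℝ) : ℂ) * κ s := by
    conv_lhs => rw [hy1]
    exact tr_d _
  have hsumT : ∀ j : ℕ, ∑ T ∈ G.powersetCard j, (op (cfam v (dT T)) * K).trace
      = ∑ s, (((b s).choose j : ℝ) : ℂ) * κ s := by
    intro j
    simp only [tr_d]
    rw [Finset.sum_comm]
    refine Finset.sum_congr rfl (fun s _ => ?_)
    rw [← Finset.sum_mul, ← Complex.ofReal_sum]
    congr 2
    simp only [prod_dT]
    exact sum_powersetCard_boole G s j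
  have hmain : (op y * K).trace
        - ∑ j ∈ Finset.range (k + 1),
            (β j : ℂ) * ∑ T ∈ G.powersetCard j, (op (cfam v (dT T)) * K).trace
      = ∑ s, (((if b s = 0 then (1 : ℝ) else 0)
          - ∑ j ∈ Finset.range (k + 1), β j * ((b s).choose j : ℝ) : ℝ) : ℂ) * κ s := by
    simp only [hsumT]
    rw [e1]
    have e2 : ∑ j ∈ Finset.range (k + 1), (β j : ℂ) * ∑ s, (((b s).choose j : ℝ) : ℂ) * κ s
        = ∑ s, ((∑ j ∈ Finset.range (k + 1), β j * ((b s).choose j : ℝ) : ℝ) : ℂ) * κ s := by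
      simp only [Finset.mul_sum]
      rw [Finset.sum_comm]
      refine Finset.sum_congr rfl (fun s _ => ?_)
      rw [Complex.ofReal_sum, Finset.sum_mul]
      refine Finset.sum_congr rfl (fun j _ => ?_)
      push_cast
      ring
    rw [e2, ← Finset.sum_sub_distrib]
    refine Finset.sum_congr rfl (fun s _ => ?_)
    rw [prod_dG, Complex.ofReal_sub, sub_mul]
  have hε0 : 0 ≤ ε := (abs_nonneg _).trans (hβ 0 (Nat.zero_le _))
  have herr : ‖∑ s, (((if b s = 0 then (1 : ℝ) else 0)
          - ∑ j ∈ Finset.range (k + 1), β j * ((b s).choose j : ℝ) : ℝ) : ℂ) * κ s‖ ≤ ε * D := by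
    refine (norm_sum_le _ _).trans ?_
    have h1 : ∀ s ∈ (Finset.univ : Finset (Q → Bool)),
        ‖(((if b s = 0 then (1 : ℝ) else 0)
          - ∑ j ∈ Finset.range (k + 1), β j * ((b s).choose j : ℝ) : ℝ) : ℂ) * κ s‖
          ≤ ε * ‖κ s‖ := by
      intro s _
      rw [norm_mul, Complex.norm_real, Real.norm_eq_abs]
      exact mul_le_mul_of_nonneg_right (hβ (b s) (hbN s)) (norm_nonneg _)
    refine (Finset.sum_le_sum h1).trans ?_
    rw [← Finset.mul_sum]
    exact mul_le_mul_of_nonneg_left (hD v hvu) hε0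
  have hc0 : 0 ≤ c := by
    have h := hterm ∅ (fun _ => 1) (fun _ => atom1_one) (fun _ _ => rfl)
    have h2 := (norm_nonneg _).trans h
    simpa using h2
  have hT : ∀ j, ∀ T ∈ G.powersetCard j, ‖(op (cfam v (dT T)) * K).trace‖ ≤ ρ ^ j * c := by
    intro j T hT
    rw [Finset.mem_powersetCard] at hT
    have hTd := cfam_dT_eq v y hvu T (fun i hi => (hG2 i (hT.1 hi)).2.2)
    have hfam : AtomFam (cfam v (dT T)) := by
      intro i
      rw [hTd i]
      by_cases hi : i ∈ T
      · rw [if_pos hi]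
        exact (hG2 i (hT.1 hi)).2.1
      · rw [if_neg hi]
        exact atom1_one
    have hout : ∀ i, i ∉ T → cfam v (dT T) i = 1 := by
      intro i hi
      rw [hTd i, if_neg hi]
    have h := hterm T _ hfam hout
    rwa [hT.2] at h
  have hmainb : ‖∑ j ∈ Finset.range (k + 1),
        (β j : ℂ) * ∑ T ∈ G.powersetCard j, (op (cfam v (dT T)) * K).trace‖
      ≤ (∑ j ∈ Finset.range (k + 1), |β j| * (W.choose j : ℝ) * ρ ^ j) * c := by
    rw [Finset.sum_mul]
    refine (norm_sum_le _ _).trans (Finset.sum_le_sum (fun j _ => ?_))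
    rw [norm_mul, Complex.norm_real, Real.norm_eq_abs]
    have h1 : ‖∑ T ∈ G.powersetCard j, (op (cfam v (dT T)) * K).trace‖
        ≤ (G.card.choose j : ℝ) * (ρ ^ j * c) := by
      refine (norm_sum_le _ _).trans ?_
      refine (Finset.sum_le_sum (hT j)).trans ?_
      rw [Finset.sum_const, Finset.card_powersetCard, nsmul_eq_mul]
    have h2 : (G.card.choose j : ℝ) ≤ (W.choose j : ℝ) := by
      exact_mod_cast Nat.choose_le_choose j hGW
    have h3 : (0 : ℝ) ≤ ρ ^ j * c := mul_nonneg (pow_nonneg hρ j) hc0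
    calc |β j| * ‖∑ T ∈ G.powersetCard j, (op (cfam v (dT T)) * K).trace‖
        ≤ |β j| * ((G.card.choose j : ℝ) * (ρ ^ j * c)) :=
          mul_le_mul_of_nonneg_left h1 (abs_nonneg _)
      _ ≤ |β j| * ((W.choose j : ℝ) * (ρ ^ j * c)) :=
          mul_le_mul_of_nonneg_left (mul_le_mul_of_nonneg_right h2 h3) (abs_nonneg _)
      _ = |β j| * (W.choose j : ℝ) * ρ ^ j * c := by ring
  have hfin : (op y * K).trace
      = (∑ s, (((if b s = 0 then (1 : ℝ) else 0)
          - ∑ j ∈ Finset.range (k + 1), β j * ((b s).choose j : ℝ) : ℝ) : ℂ) * κ s)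
        + ∑ j ∈ Finset.range (k + 1),
            (β j : ℂ) * ∑ T ∈ G.powersetCard j, (op (cfam v (dT T)) * K).trace := by
    rw [← hmain]
    ring
  rw [hfin]
  exact (norm_add_le _ _).trans (add_le_add herr hmainb)

end approx2

end Vale.Agent.H98.QAC
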