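import Mathlib
import Vale.Agent.H98.QAC.Basic
import Vale.Agent.H98.QAC.Abs
import Vale.Agent.H98.QAC.Block
import Vale.Agent.H98.QAC.Factor
import Vale.Agent.H98.QAC.Core
import Vale.Agent.H98.QAC.Polar
import Vale.Agent.H98.QAC.Atom

namespace Vale.Agent.H98.QAC

open Matrix
open scoped ComplexOrder

set_option linter.unusedSectionVars false

section small

variable {ι : Type*} [Fintype ι] [DecidableEq ι]

theorem tr_vmv_mul (a b : ι → ℂ) (M : Matrix ι ι ℂ) :
    (vecMulVec a (star b) * M).trace = star b ⬝ᵥ M *ᵥ a := by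
  rw [Matrix.vecMulVec_mul, Matrix.trace_vecMulVec, dotProduct_comm, Matrix.dotProduct_mulVec]

theorem herm_sq_proj_bilin {x : Matrix ι ι ℂ} (hx : xᴴ = x) (hx2 : IsProj (x * x))
    {a b : ι → ℂ} (ha : star a ⬝ᵥ a = 1) (hb : star b ⬝ᵥ b = 1) :
    ‖star b ⬝ᵥ x *ᵥ a‖ ≤ 1 := by
  have h := ip_cs b (x *ᵥ a)
  have e : star (x *ᵥ a) ⬝ᵥ (x *ᵥ a) = star a ⬝ᵥ (x * x) *ᵥ a := by
    rw [Matrix.star_mulVec, ← Matrix.dotProduct_mulVec, Matrix.mulVec_mulVec, hx]
  have h0 := hx2.one_sub.posSemidef.dotProduct_mulVec_nonneg a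
  rw [Matrix.sub_mulVec, Matrix.one_mulVec, dotProduct_sub, ha] at h0
  have h1 := (Complex.nonneg_iff.mp h0).1
  simp only [Complex.sub_re, Complex.one_re] at h1
  have h2 := hx2.posSemidef.dotProduct_mulVec_nonneg a
  have h3 := (Complex.nonneg_iff.mp h2).1
  rw [hb, e] at h
  have h4 : Real.sqrt (star a ⬝ᵥ (x * x) *ᵥ a).re ≤ 1 := by
    rw [show (1 : ℝ) = Real.sqrt 1 by simp]
    exact Real.sqrt_le_sqrt (by linarith)
  simp only [Complex.one_re, Real.sqrt_one, one_mul] at h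
  exact h.trans h4

end small

variable {Q : Type*} [Fintype Q] [DecidableEq Q]

theorem cfam_zd_herm (u : Q → Matrix Bool Bool ℂ) (I : Finset Q) (i : Q) :
    (cfam u (zd I) i)ᴴ = cfam u (zd I) i := by
  unfold cfam
  rw [Matrix.conjTranspose_mul, Matrix.conjTranspose_mul, Matrix.conjTranspose_conjTranspose,
    Matrix.diagonal_conjTranspose, Matrix.mul_assoc]
  congr 3
  funext s
  simp

theorem cfam_zd_sq_isProj (u : Q → Matrix Bool Bool ℂ) (hu : ∀ i, (u i)ᴴ * u i = 1)
    (I : Finset Q) (i : Q) : IsProj (cfam u (zd I) i * cfam u (zd I) i) := by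
  unfold cfam
  rw [conj_mul_conj (hu i), Matrix.diagonal_mul_diagonal]
  have h : (fun b => ((zd I i b : ℝ) : ℂ) * ((zd I i b : ℝ) : ℂ)) = fun b => ((zdAbs I i b : ℝ) : ℂ) := by
    funext b
    rw [← Complex.ofReal_mul, zd_sq]
  rw [h]
  exact conj_isProj (hu i) (diag_real_isProj (fun b => zdAbs_sq I i b))

theorem cfam_zd_trace_le (u : Q → Matrix Bool Bool ℂ) (hu : ∀ i, (u i)ᴴ * u i = 1)
    (I : Finset Q) (i : Q) : ‖(cfam u (zd I) i).trace‖ ≤ 1 := by
  unfold cfam
  rw [conj_trace (hu i), Matrix.trace_diagonal, Fintype.sum_bool]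
  by_cases hi : i ∈ I <;> simp [zd, hi]

/-- One-qubit atoms pair with the one-qubit parity factor by at most one. -/
theorem atom1_cfam_le (u : Q → Matrix Bool Bool ℂ) (hu : ∀ i, (u i)ᴴ * u i = 1) (I : Finset Q)
    (i : Q) {m : Matrix Bool Bool ℂ} (hm : Atom1 m) :
    ‖(m * cfam u (zd I) i).trace‖ ≤ 1 := by
  rcases hm with rfl | ⟨a, b, ha, hb, rfl⟩
  · rw [Matrix.one_mul]
    exact cfam_zd_trace_le u hu I i
  · rw [tr_vmv_mul]
    exact herm_sq_proj_bilin (cfam_zd_herm u I i) (cfam_zd_sq_isProj u hu I i) ha hb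

theorem smul_atom_cfam_le (u : Q → Matrix Bool Bool ℂ) (hu : ∀ i, (u i)ᴴ * u i = 1) (I : Finset Q)
    (i : Q) {f : Matrix Bool Bool ℂ}
    (hf : ∃ z : ℂ, ‖z‖ ≤ 1 ∧ ∃ m' : Matrix Bool Bool ℂ, Atom1 m' ∧ f = z • m') :
    ‖(f * cfam u (zd I) i).trace‖ ≤ 1 := by
  obtain ⟨z, hz, m', hm', rfl⟩ := hf
  rw [Matrix.smul_mul, Matrix.trace_smul, smul_eq_mul, norm_mul]
  exact mul_le_one₀ hz (norm_nonneg _) (atom1_cfam_le u hu I i hm')

/-- The block quantity is a trace on the subsystem of the block. -/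
theorem blockT_eq_sub (A : Finset Q) (p x y : Q → Matrix Bool Bool ℂ) :
    (op (fun i : {i // i ∈ A} => y i) * (1 - 2 • op (fun i : {i // i ∈ A} => p i))
        * op (fun i : {i // i ∈ A} => x i) * (1 - 2 • op (fun i : {i // i ∈ A} => p i))).trace
      = blockT A p x y := by
  have hexp : ∀ (Y P X : Matrix ({i // i ∈ A} → Bool) ({i // i ∈ A} → Bool) ℂ),
      Y * (1 - 2 • P) * X * (1 - 2 • P)
        = Y * X - 2 • (Y * P * X) - 2 • (Y * X * P) + 4 • (Y * P * X * P) := by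
    intro Y P X
    noncomm_ring
  rw [hexp, Matrix.trace_add, Matrix.trace_sub, Matrix.trace_sub, Matrix.trace_smul,
    Matrix.trace_smul, Matrix.trace_smul]
  simp only [op_mul, trace_op, nsmul_eq_mul]
  unfold blockT
  rw [← Finset.prod_coe_sort A, ← Finset.prod_coe_sort A, ← Finset.prod_coe_sort A,
    ← Finset.prod_coe_sort A]
  have c1 : ∀ i : {i // i ∈ A}, (p i * y i * x i).trace = (y i * x i * p i).trace := by
    intro i
    rw [Matrix.trace_mul_cycle (y i.1) (x i.1) (p i.1)]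
  have c2 : ∀ i : {i // i ∈ A}, (p i * y i * p i * x i).trace = (y i * p i * x i * p i).trace := by
    intro i
    rw [Matrix.trace_mul_comm (y i.1 * p i.1 * x i.1) (p i.1)]
    simp only [Matrix.mul_assoc]
  simp only [c1, c2]
  push_cast
  ring

/-- Nine-term bound for a block. -/
theorem blockT_atom_nine (u : Q → Matrix Bool Bool ℂ) (hu : ∀ i, (u i)ᴴ * u i = 1) (I : Finset Q)
    (g : Finset Q × (Q → Matrix Bool Bool ℂ)) (hg : GateOK g)
    (y : Q → Matrix Bool Bool ℂ) (hy : AtomFam y) :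
    ‖blockT g.1 g.2 (cfam u (zd I)) y‖ ≤ 9 := by
  unfold blockT
  have b1 : ‖∏ i ∈ g.1, (y i * cfam u (zd I) i).trace‖ ≤ 1 := by
    rw [norm_prod]
    exact Finset.prod_le_one (fun i _ => norm_nonneg _) (fun i _ => atom1_cfam_le u hu I i (hy i))
  have b2 : ‖∏ i ∈ g.1, (g.2 i * y i * cfam u (zd I) i).trace‖ ≤ 1 := by
    rw [norm_prod]
    refine Finset.prod_le_one (fun i _ => norm_nonneg _) (fun i hi => ?_)
    obtain ⟨w, hw, hgi⟩ := hg.2 i hi
    rw [hgi]
    exact smul_atom_cfam_le u hu I i (atom1_mul_left hw (hy i))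
  have b3 : ‖∏ i ∈ g.1, (y i * g.2 i * cfam u (zd I) i).trace‖ ≤ 1 := by
    rw [norm_prod]
    refine Finset.prod_le_one (fun i _ => norm_nonneg _) (fun i hi => ?_)
    obtain ⟨w, hw, hgi⟩ := hg.2 i hi
    rw [hgi]
    exact smul_atom_cfam_le u hu I i (atom1_mul_right hw (hy i))
  have b4 : ‖∏ i ∈ g.1, (g.2 i * y i * g.2 i * cfam u (zd I) i).trace‖ ≤ 1 := by
    rw [norm_prod]
    refine Finset.prod_le_one (fun i _ => norm_nonneg _) (fun i hi => ?_)
    obtain ⟨w, hw, hgi⟩ := hg.2 i hi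
    rw [hgi]
    exact smul_atom_cfam_le u hu I i (atom1_mul_both hw (hy i))
  calc ‖(∏ i ∈ g.1, (y i * cfam u (zd I) i).trace)
          - 2 * (∏ i ∈ g.1, (g.2 i * y i * cfam u (zd I) i).trace)
          - 2 * (∏ i ∈ g.1, (y i * g.2 i * cfam u (zd I) i).trace)
          + 4 * (∏ i ∈ g.1, (g.2 i * y i * g.2 i * cfam u (zd I) i).trace)‖
      ≤ ‖∏ i ∈ g.1, (y i * cfam u (zd I) i).trace‖
          + ‖2 * (∏ i ∈ g.1, (g.2 i * y i * cfam u (zd I) i).trace)‖
          + ‖2 * (∏ i ∈ g.1, (y i * g.2 i * cfam u (zd I) i).trace)‖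
          + ‖4 * (∏ i ∈ g.1, (g.2 i * y i * g.2 i * cfam u (zd I) i).trace)‖ := by
        refine (norm_add_le _ _).trans (add_le_add ?_ le_rfl)
        refine (norm_sub_le _ _).trans (add_le_add ?_ le_rfl)
        exact norm_sub_le _ _
    _ ≤ 9 := by
        rw [norm_mul, norm_mul, norm_mul]
        have h2 : ‖(2 : ℂ)‖ = 2 := by simp
        have h4 : ‖(4 : ℂ)‖ = 4 := by simp
        rw [h2, h4]
        linarith

/-- Half bound for a block on its own subsystem. -/
theorem block_atom_half (u : Q → Matrix Bool Bool ℂ) (hu : ∀ i, (u i)ᴴ * u i = 1)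
    (I : Finset Q) (y : Q → Matrix Bool Bool ℂ) (hy : AtomFam y)
    (w : Q → Bool → ℂ) (hw : ∀ i, star (w i) ⬝ᵥ w i = 1) :
    ‖(op y * (1 - 2 • op (fun i => vecMulVec (w i) (star (w i)))) * op (cfam u (zd I))
        * (1 - 2 • op (fun i => vecMulVec (w i) (star (w i))))).trace‖
      ≤ (2 ^ I.card + (if I = ∅ then 1 else 0)) / 2 := by
  classical
  set wv : (Q → Bool) → ℂ := fun s => ∏ i, w i (s i) with hwv
  have hstar : star wv = fun s : Q → Bool => ∏ i, (star (w i)) (s i) := by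
    funext s
    simp [hwv]
  have hP : op (fun i => vecMulVec (w i) (star (w i))) = vecMulVec wv (star wv) := by
    rw [op_vecMulVec, hstar]
  have hwv1 : star wv ⬝ᵥ wv = 1 := by
    rw [hstar, hwv, prodVec_dotProduct]
    simp [hw]
  rw [hP]
  set P := vecMulVec wv (star wv) with hPdef
  set R := (1 : Matrix (Q → Bool) (Q → Bool) ℂ) - 2 • P with hR
  have hPP : P * P = P := by rw [hPdef, Matrix.vecMulVec_mul_vecMulVec, hwv1, one_smul]
  have hPH : Pᴴ = P := by rw [hPdef, Matrix.conjTranspose_vecMulVec, star_star]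
  have hRH : Rᴴ = R := by
    rw [hR, Matrix.conjTranspose_sub, Matrix.conjTranspose_one, Matrix.conjTranspose_smul, hPH]
    simp
  have hRR : R * R = 1 := by
    have h : R * R = 1 - 4 • P + 4 • (P * P) := by rw [hR]; noncomm_ring
    rw [h, hPP]
    abel
  have hKp : (R * wPlus u I * R).PosSemidef := by
    have h := (wPlus_psd u I).conjTranspose_mul_mul_same R
    rwa [hRH] at h
  have hKm : (R * wMinus u I * R).PosSemidef := by
    have h := (wMinus_psd u I).conjTranspose_mul_mul_same R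
    rwa [hRH] at h
  have htr : ∀ W : Matrix (Q → Bool) (Q → Bool) ℂ, (R * W * R).trace = W.trace := by
    intro W
    rw [Matrix.trace_mul_cycle, hRR, Matrix.one_mul]
  obtain ⟨A, B, Y, γ, hγ, hop, hA, hB, hAB, hAY, hBY⟩ := atomFam_iso y hy
  have hb := polar_bound (R * wPlus u I * R) (R * wMinus u I * R) A B Y γ
    ((2 ^ I.card + (if I = ∅ then 1 else 0)) / 2) hKp hKm
    (by
      rw [htr, trace_wPlus u hu I, Complex.ofReal_re])
    (by
      rw [htr, trace_wMinus u hu I, Complex.ofReal_re]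
      split_ifs <;> linarith)
    hA hB hAB hAY hBY hγ
  have e : op y * R * op (cfam u (zd I)) * R
      = A * Bᴴ * (R * wPlus u I * R - R * wMinus u I * R) := by
    rw [← hop, op_cfam_zd, ← Matrix.sub_mul, ← Matrix.mul_sub]
    simp only [Matrix.mul_assoc]
  rw [e]
  exact hb

/-- the fourth root of two -/
noncomputable def r4 : ℝ := Real.sqrt (Real.sqrt 2)

theorem r4_one_le : 1 ≤ r4 := by
  unfold r4
  rw [Real.one_le_sqrt, Real.one_le_sqrt]
  norm_num

theorem r4_pow_four : r4 ^ 4 = 2 := by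
  unfold r4
  have h : Real.sqrt (Real.sqrt 2) ^ 4 = (Real.sqrt (Real.sqrt 2) ^ 2) ^ 2 := by ring
  rw [h, Real.sq_sqrt (Real.sqrt_nonneg 2), Real.sq_sqrt (by norm_num)]

theorem r4_pos : 0 < r4 := lt_of_lt_of_le one_pos r4_one_le

theorem nine_le_r4 : (9 : ℝ) ≤ r4 ^ 15 := by
  have h1 := r4_one_le
  have h4 := r4_pow_four
  have h3 : (9 : ℝ) / 8 ≤ r4 ^ 3 := by
    by_contra hc
    rw [not_le] at hc
    have ha : r4 ≤ r4 ^ 3 := by nlinarith [sq_nonneg (r4 - 1)]
    have hb : r4 ^ 4 = r4 * r4 ^ 3 := by ring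
    nlinarith
  have h15 : r4 ^ 15 = (r4 ^ 4) ^ 3 * r4 ^ 3 := by ring
  rw [h15, h4]
  linarith

/-- Block bound for atoms: at most `2 ^ (3 c / 4)` where `c` counts the input qubits of the block. -/
theorem blockT_atom_bound (u : Q → Matrix Bool Bool ℂ) (hu : ∀ i, (u i)ᴴ * u i = 1) (I : Finset Q)
    (g : Finset Q × (Q → Matrix Bool Bool ℂ)) (hg : GateOK g)
    (y : Q → Matrix Bool Bool ℂ) (hy : AtomFam y) :
    ‖blockT g.1 g.2 (cfam u (zd I)) y‖ ≤ r4 ^ (3 * (I ∩ g.1).card) := by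
  classical
  have h9 := blockT_atom_nine u hu I g hg y hy
  obtain ⟨A, p⟩ := g
  simp only at hg h9 ⊢
  have hex : ∀ i : {i // i ∈ A}, ∃ v : Bool → ℂ, star v ⬝ᵥ v = 1 ∧ p i = vecMulVec v (star v) :=
    fun i => hg.2 i.1 i.2
  choose w hw hpw using hex
  set I' : Finset {i // i ∈ A} := I.subtype (fun i => i ∈ A) with hI'
  have hb := block_atom_half (fun i : {i // i ∈ A} => u i) (fun i => hu i) I'
    (fun i : {i // i ∈ A} => y i) (fun i => hy i) w hw
  have hcard : I'.card = (I ∩ A).card := by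
    rw [hI', Finset.card_subtype, Finset.filter_mem_eq_inter]
  have hx : cfam (fun i : {i // i ∈ A} => u i) (zd I') = fun i : {i // i ∈ A} => cfam u (zd I) i := by
    funext i
    unfold cfam zd
    simp [hI']
  have hpp : (fun i : {i // i ∈ A} => vecMulVec (w i) (star (w i))) = fun i : {i // i ∈ A} => p i := by
    funext i
    exact (hpw i).symm
  rw [hx, hpp, blockT_eq_sub, hcard] at hb
  have hemp : (I' = ∅) ↔ (I ∩ A).card = 0 := by
    rw [← hcard, Finset.card_eq_zero]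
  have h1 := r4_one_le
  have h4 := r4_pow_four
  rcases Nat.lt_or_ge (I ∩ A).card 5 with hlt | hge
  · refine hb.trans ?_
    interval_cases hc : (I ∩ A).card
    · rw [if_pos (hemp.mpr rfl)]
      norm_num
    · rw [if_neg (fun h => by simpa using hemp.mp h)]
      have : (1 : ℝ) ≤ r4 ^ 3 := one_le_pow₀ h1
      norm_num
      linarith
    · rw [if_neg (fun h => by simpa using hemp.mp h)]
      have e : r4 ^ (3 * 2) = r4 ^ 4 * r4 ^ 2 := by ring
      rw [e, h4]
      nlinarith [sq_nonneg (r4 - 1)]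
    · rw [if_neg (fun h => by simpa using hemp.mp h)]
      have e : r4 ^ (3 * 3) = r4 ^ 4 * r4 ^ 4 * r4 := by ring
      rw [e, h4]
      linarith
    · rw [if_neg (fun h => by simpa using hemp.mp h)]
      have e : r4 ^ (3 * 4) = r4 ^ 4 * r4 ^ 4 * r4 ^ 4 := by ring
      rw [e, h4]
      norm_num
  · calc ‖blockT A p (cfam u (zd I)) y‖ ≤ 9 := h9
      _ ≤ r4 ^ 15 := nine_le_r4
      _ ≤ r4 ^ (3 * (I ∩ A).card) := pow_le_pow_right₀ h1 (by omega)

theorem prod_blockT_atom_bound (u : Q → Matrix Bool Bool ℂ) (hu : ∀ i, (u i)ᴴ * u i = 1)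
    (I : Finset Q) (y : Q → Matrix Bool Bool ℂ) (hy : AtomFam y) :
    ∀ L : List (Finset Q × (Q → Matrix Bool Bool ℂ)), GoodList L →
      ‖(L.map (fun g => blockT g.1 g.2 (cfam u (zd I)) y)).prod‖
        ≤ r4 ^ (3 * (I ∩ suppU L).card)
  | [], _ => by simp [suppU_nil]
  | g :: L, h => by
      have hpw := List.pairwise_cons.mp h.2
      have IH := prod_blockT_atom_bound u hu I y hy L
        ⟨fun g' hg' => h.1 g' (by simp [hg']), hpw.2⟩
      have hb := blockT_atom_bound u hu I g (h.1 g (by simp)) y hy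
      have hdis : Disjoint (I ∩ g.1) (I ∩ suppU L) :=
        Finset.disjoint_of_subset_left Finset.inter_subset_right
          (Finset.disjoint_of_subset_right Finset.inter_subset_right (disjoint_suppU g.1 L hpw.1))
      rw [List.map_cons, List.prod_cons, norm_mul, suppU_cons, Finset.inter_union_distrib_left,
        Finset.card_union_of_disjoint hdis, mul_add, pow_add]
      exact mul_le_mul hb IH (norm_nonneg _) (pow_nonneg r4_pos.le _)

/-- Bound for one product of atoms against the parity operator pushed through one layer. -/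
theorem single_bound_atom (u : Q → Matrix Bool Bool ℂ) (hu : ∀ i, (u i)ᴴ * u i = 1) (I : Finset Q)
    (L : List (Finset Q × (Q → Matrix Bool Bool ℂ))) (hL : GoodList L)
    (y : Q → Matrix Bool Bool ℂ) (hy : AtomFam y) :
    ‖(op y * prodR L * op (cfam u (zd I)) * prodRrev L).trace‖ ≤ r4 ^ (3 * I.card) := by
  rw [factorization _ L (fun g hg => (hL.1 g hg).1) hL.2 y, norm_mul, norm_prod]
  have h1 := prod_blockT_atom_bound u hu I y hy L hL
  have h2 : ∏ i ∈ Finset.univ \ suppU L, ‖(y i * cfam u (zd I) i).trace‖ ≤ 1 :=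
    Finset.prod_le_one (fun i _ => norm_nonneg _) (fun i _ => atom1_cfam_le u hu I i (hy i))
  calc ‖(L.map (fun g => blockT g.1 g.2 (cfam u (zd I)) y)).prod‖
        * ∏ i ∈ Finset.univ \ suppU L, ‖(y i * cfam u (zd I) i).trace‖
      ≤ r4 ^ (3 * (I ∩ suppU L).card) * 1 :=
        mul_le_mul h1 h2 (Finset.prod_nonneg (fun i _ => norm_nonneg _))
          (pow_nonneg r4_pos.le _)
    _ ≤ r4 ^ (3 * I.card) := by
        rw [mul_one]
        exact pow_le_pow_right₀ r4_one_le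
          (Nat.mul_le_mul_left 3 (Finset.card_le_card Finset.inter_subset_left))

end Vale.Agent.H98.QAC
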