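import Mathlib
import Vale.Agent.H98.QAC.Basic
import Vale.Agent.H98.QAC.Abs
import Vale.Agent.H98.QAC.Block

namespace Vale.Agent.H98.QAC

open Matrix
open scoped ComplexOrder

set_option linter.unusedSectionVars false

variable {Q : Type*} [Fintype Q] [DecidableEq Q]

theorem block_bound2 (u : Q → Matrix Bool Bool ℂ) (hu : ∀ i, (u i)ᴴ * u i = 1)
    (I : Finset Q) (y : Q → Matrix Bool Bool ℂ)
    (hy : ∀ i, IsProj (y i)) (hy1 : ∀ i, y i = 1 ∨ (y i).trace = 1)
    (w : Q → Bool → ℂ) (hw : ∀ i, star (w i) ⬝ᵥ w i = 1) :
    ‖(op y * (1 - 2 • op (fun i => vecMulVec (w i) (star (w i)))) * op (cfam u (zd I))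
        * (1 - 2 • op (fun i => vecMulVec (w i) (star (w i))))).trace‖
      ≤ if I.card < 2 then 1 else 2 := by
  classical
  set wv : (Q → Bool) → ℂ := fun s => ∏ i, w i (s i) with hwv
  have hstar : star wv = fun s : Q → Bool => ∏ i, (star (w i)) (s i) := by
    funext s
    simp [hwv]
  have hP : op (fun i => vecMulVec (w i) (star (w i))) = vecMulVec wv (star wv) := by
    rw [op_vecMulVec, hstar]
  have hwv1 : star wv ⬝ᵥ wv = 1 := by
    rw [hstar, hwv, prodVec_dotProduct]
    simp [hw]
  rw [hP]
  set P := vecMulVec wv (star wv) with hPdef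
  set R := (1 : Matrix (Q → Bool) (Q → Bool) ℂ) - 2 • P with hR
  have hPP : P * P = P := by rw [hPdef, Matrix.vecMulVec_mul_vecMulVec, hwv1, one_smul]
  have hPH : Pᴴ = P := by rw [hPdef, Matrix.conjTranspose_vecMulVec, star_star]
  have hRH : Rᴴ = R := by
    rw [hR, Matrix.conjTranspose_sub, Matrix.conjTranspose_one, Matrix.conjTranspose_smul, hPH]
    simp
  have hRR : R * R = 1 := by
    have h : R * R = 1 - 4 • P + 4 • (P * P) := by rw [hR]; noncomm_ring
    rw [h, hPP]
    abel
  set Y := op y with hYdef
  have hY : IsProj Y := by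
    constructor
    · rw [hYdef, op_conjTranspose]
      congr 1
      funext i
      exact (hy i).1
    · rw [hYdef, op_mul]
      congr 1
      funext i
      exact (hy i).2
  have hPi : IsProj (R * Y * R) := by
    constructor
    · rw [Matrix.conjTranspose_mul, Matrix.conjTranspose_mul, hRH, hY.1, Matrix.mul_assoc]
    · calc R * Y * R * (R * Y * R) = R * Y * (R * R) * Y * R := by simp only [Matrix.mul_assoc]
        _ = R * Y * R := by rw [hRR, Matrix.mul_one, Matrix.mul_assoc R Y Y, hY.2]
  have hT : ∀ K : Matrix (Q → Bool) (Q → Bool) ℂ,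
      (Y * R * K * R).trace = ((R * Y * R) * K).trace := by
    intro K
    rw [Matrix.trace_mul_comm (Y * R * K) R]
    simp only [Matrix.mul_assoc]
  obtain ⟨rp, hrp, hrp0, hrp1⟩ := psd_trace_real hPi (wPlus_psd u I) (trace_wPlus u hu I)
  obtain ⟨rm, hrm, hrm0, hrm1⟩ := psd_trace_real hPi (wMinus_psd u I) (trace_wMinus u hu I)
  have hTX : (Y * R * op (cfam u (zd I)) * R).trace = ((rp - rm : ℝ) : ℂ) := by
    rw [hT, op_cfam_zd, Matrix.mul_sub, Matrix.trace_sub, hrp, hrm]
    push_cast
    ring
  have hTA : (Y * R * op (cfam u (zdAbs I)) * R).trace = ((rp + rm : ℝ) : ℂ) := by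
    rw [hT, op_cfam_zdAbs, Matrix.mul_add, Matrix.trace_add, hrp, hrm]
    push_cast
    ring
  rw [hTX, Complex.norm_real, Real.norm_eq_abs]
  rcases Nat.lt_or_ge I.card 2 with hcard | hcard
  · have hc1 : ((2:ℝ) ^ I.card + (if I = ∅ then 1 else 0)) / 2 ≤ 1 := by
      interval_cases h : I.card
      · have h0 : I = ∅ := Finset.card_eq_zero.mp h
        simp [h0]
      · have h0 : I ≠ ∅ := by
          intro h0
          rw [h0] at h
          simp at h
        simp [h0]
    have hc2 : ((2:ℝ) ^ I.card - (if I = ∅ then 1 else 0)) / 2 ≤ 1 := by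
      interval_cases h : I.card
      · have h0 : I = ∅ := Finset.card_eq_zero.mp h
        simp [h0]
      · have h0 : I ≠ ∅ := by
          intro h0
          rw [h0] at h
          simp at h
        simp [h0]
    have h1 : |rp - rm| ≤ 1 := by
      rw [abs_le]
      constructor <;> linarith
    rw [if_pos hcard]
    exact h1
  · have h2 : |rp - rm| ≤ 2 := by
      by_cases hA : ∃ i ∈ I, y i = 1
      · obtain ⟨i, hiI, hyi⟩ := hA
        have htr : (Y * op (cfam u (zd I))).trace = 0 := by
          rw [hYdef, op_mul, trace_op]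
          apply Finset.prod_eq_zero (Finset.mem_univ i)
          rw [hyi, Matrix.one_mul]
          unfold cfam
          rw [conj_trace (hu i), Matrix.trace_diagonal]
          simp [zd, hiI]
        have hb := refl_bound_sq hwv1 hY (op_cfam_zd_herm u I)
          (by rw [op_cfam_zd_sq u hu I]; exact op_cfam_zdAbs_isProj u hu I)
        rw [← hPdef, ← hR, htr, sub_zero, hTX, Complex.norm_real, Real.norm_eq_abs] at hb
        exact hb
      · simp only [not_exists, not_and] at hA
        have htr : ‖(Y * op (cfam u (zdAbs I))).trace‖ ≤ 1 := by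
          rw [hYdef, op_mul, trace_op, norm_prod]
          apply Finset.prod_le_one (fun i _ => norm_nonneg _)
          intro i _
          by_cases hiI : i ∈ I
          · have hx1 : cfam u (zdAbs I) i = 1 := by
              unfold cfam
              have h0 : (fun b => ((zdAbs I i b : ℝ) : ℂ)) = fun _ => 1 := by
                funext b
                simp [zdAbs, hiI]
              rw [h0, Matrix.diagonal_one, Matrix.mul_one]
              exact mul_eq_one_comm.mp (hu i)
            rw [hx1, Matrix.mul_one]
            rcases hy1 i with h | h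
            · exact absurd h (hA i hiI)
            · rw [h]
              simp
          · have hpsd : (cfam u (zdAbs I) i).PosSemidef := by
              unfold cfam
              refine Matrix.PosSemidef.mul_mul_conjTranspose_same (Matrix.PosSemidef.diagonal ?_) _
              intro b
              exact Complex.zero_le_real.mpr (by unfold zdAbs; split_ifs <;> norm_num)
            have htr1 : (cfam u (zdAbs I) i).trace = ((1:ℝ):ℂ) := by
              unfold cfam
              rw [conj_trace (hu i), Matrix.trace_diagonal]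
              simp [zdAbs, hiI]
            obtain ⟨r, hr, hr0, hr1⟩ := psd_trace_real (hy i) hpsd htr1
            rw [hr, Complex.norm_real, Real.norm_eq_abs, abs_of_nonneg hr0]
            exact hr1
        have hb := refl_bound_proj hwv1 hY (op_cfam_zdAbs_isProj u hu I)
        rw [← hPdef, ← hR, hTA] at hb
        have h3 : ‖((rp + rm : ℝ) : ℂ)‖ ≤ 2 := by
          calc ‖((rp + rm : ℝ) : ℂ)‖
              = ‖(((rp + rm : ℝ) : ℂ) - (Y * op (cfam u (zdAbs I))).trace)
                  + (Y * op (cfam u (zdAbs I))).trace‖ := by ring_nf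
            _ ≤ ‖((rp + rm : ℝ) : ℂ) - (Y * op (cfam u (zdAbs I))).trace‖
                  + ‖(Y * op (cfam u (zdAbs I))).trace‖ := norm_add_le _ _
            _ ≤ 1 + 1 := add_le_add hb htr
            _ = 2 := by norm_num
        rw [Complex.norm_real, Real.norm_eq_abs, abs_of_nonneg (by linarith)] at h3
        rw [abs_le]
        constructor <;> linarith
    rw [if_neg (by omega)]
    exact h2

end Vale.Agent.H98.QAC
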