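import Mathlib

namespace Vale.Agent.H98.QAC

open Polynomial

/-- Newton expansion of a polynomial of degree at most `k` at the natural numbers,
truncated at `k`. -/
theorem newton_trunc (P : ℝ[X]) (k : ℕ) (hP : P.natDegree ≤ k) (m : ℕ) :
    P.eval (m : ℝ)
      = ∑ j ∈ Finset.range (k + 1), ((fwdDiff (1 : ℝ))^[j] P.eval 0) * (m.choose j : ℝ) := by
  have h := shift_eq_sum_fwdDiff_iter (1 : ℝ) P.eval m 0
  have h0 : (0 : ℝ) + m • (1 : ℝ) = (m : ℝ) := by simp
  rw [h0] at h
  rw [h]
  have key : ∀ j, (k < j ∨ m < j) → (m.choose j) • ((fwdDiff (1 : ℝ))^[j] P.eval 0) = 0 := by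
    intro j hj
    rcases hj with hj | hj
    · rw [Polynomial.fwdDiff_iter_eq_zero_of_degree_lt (lt_of_le_of_lt hP hj)]
      simp
    · rw [Nat.choose_eq_zero_of_lt hj]
      simp
  have e1 : ∑ j ∈ Finset.range (m + 1), m.choose j • ((fwdDiff (1 : ℝ))^[j] P.eval 0)
      = ∑ j ∈ Finset.range (max m k + 1), m.choose j • ((fwdDiff (1 : ℝ))^[j] P.eval 0) := by
    apply Finset.sum_subset
    · intro j hj
      simp only [Finset.mem_range] at hj ⊢
      have := le_max_left m k
      omega
    · intro j _ hj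
      simp only [Finset.mem_range] at hj
      exact key j (Or.inr (by omega))
  have e2 : ∑ j ∈ Finset.range (k + 1), ((fwdDiff (1 : ℝ))^[j] P.eval 0) * (m.choose j : ℝ)
      = ∑ j ∈ Finset.range (max m k + 1), m.choose j • ((fwdDiff (1 : ℝ))^[j] P.eval 0) := by
    have hsm : ∀ j, ((fwdDiff (1 : ℝ))^[j] P.eval 0) * (m.choose j : ℝ)
        = m.choose j • ((fwdDiff (1 : ℝ))^[j] P.eval 0) := by
      intro j
      rw [nsmul_eq_mul, mul_comm]
    simp only [hsm]
    apply Finset.sum_subset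
    · intro j hj
      simp only [Finset.mem_range] at hj ⊢
      have := le_max_right m k
      omega
    · intro j _ hj
      simp only [Finset.mem_range] at hj
      exact key j (Or.inl (by omega))
  rw [e1, e2]

/-- A polynomial of degree at most `k` equal to one at zero and small at `1, ..., M`. -/
theorem cheb_poly (M k : ℕ) : ∃ P : ℝ[X], P.natDegree ≤ k ∧ P.eval 0 = 1 ∧
    ∀ m : ℕ, 1 ≤ m → m ≤ M → |P.eval (m : ℝ)| ≤ 1 / Real.cosh ((k : ℝ) / Real.sqrt M) := by
  set θ : ℝ := 1 / Real.sqrt M with hθ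
  set a : ℝ := Real.cosh θ with ha
  have ha1 : 1 ≤ a := Real.one_le_cosh θ
  have hcpos : 0 < Real.cosh ((k : ℝ) * θ) := Real.cosh_pos _
  have hkθ : (k : ℝ) / Real.sqrt M = (k : ℝ) * θ := by
    rw [hθ]
    ring
  refine ⟨C (1 / Real.cosh ((k : ℝ) * θ))
    * (Chebyshev.T ℝ (k : ℤ)).comp (C a - C (a - 1) * X), ?_, ?_, ?_⟩
  · refine (natDegree_C_mul_le _ _).trans ?_
    refine natDegree_comp_le.trans ?_
    rw [Chebyshev.natDegree_T]
    have h1 : (C a - C (a - 1) * X : ℝ[X]).natDegree ≤ 1 := by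
      refine (natDegree_sub_le _ _).trans ?_
      rw [natDegree_C]
      exact max_le (Nat.zero_le _) ((natDegree_C_mul_le _ _).trans natDegree_X_le)
    calc (k : ℤ).natAbs * (C a - C (a - 1) * X : ℝ[X]).natDegree
        ≤ (k : ℤ).natAbs * 1 := Nat.mul_le_mul_left _ h1
      _ = k := by simp
  · simp only [eval_mul, eval_C, eval_comp, eval_sub, eval_X, mul_zero, sub_zero]
    rw [ha, Chebyshev.T_real_cosh]
    push_cast
    field_simp
  · intro m hm1 hmM
    simp only [eval_mul, eval_C, eval_comp, eval_sub, eval_X]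
    rw [abs_mul, abs_of_pos (by positivity), hkθ]
    have hM1 : (1 : ℝ) ≤ M := by exact_mod_cast hm1.trans hmM
    have hMpos : (0 : ℝ) < M := by linarith
    have hθsq : θ ^ 2 = 1 / M := by
      rw [hθ, div_pow, Real.sq_sqrt hMpos.le, one_pow]
    have h1 : a ≤ Real.exp (1 / (2 * (M : ℝ))) := by
      have h := Real.cosh_le_exp_half_sq θ
      rw [hθsq] at h
      have e : (1 : ℝ) / (2 * (M : ℝ)) = 1 / M / 2 := by
        field_simp
      rw [e]
      exact h
    have h2 : Real.exp (1 / (2 * (M : ℝ))) ≤ 1 + 1 / M := by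
      set x : ℝ := 1 / (2 * (M : ℝ)) with hx
      have hx0 : 0 ≤ x := by positivity
      have hx1 : x ≤ 1 / 2 := by
        rw [hx, div_le_div_iff₀ (by positivity) (by norm_num)]
        linarith
      have h3 := Real.exp_bound_div_one_sub_of_interval hx0 (by linarith)
      have h4 : 1 / (1 - x) ≤ 1 + 2 * x := by
        rw [div_le_iff₀ (by linarith)]
        nlinarith
      have h5 : 2 * x = 1 / M := by
        rw [hx]
        field_simp
      linarith
    have ha2 : a - 1 ≤ 1 / M := by linarith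
    have hm1' : (1 : ℝ) ≤ m := by exact_mod_cast hm1
    have hmM' : (m : ℝ) ≤ M := by exact_mod_cast hmM
    have hx : |a - (a - 1) * (m : ℝ)| ≤ 1 := by
      rw [abs_le]
      constructor
      · have h6 : (a - 1) * (m : ℝ) ≤ 1 / M * M :=
          mul_le_mul ha2 hmM' (by linarith) (by positivity)
        rw [one_div, inv_mul_cancel₀ hMpos.ne'] at h6
        linarith
      · nlinarith
    have h7 := Chebyshev.abs_eval_T_real_le_one (k : ℤ) hx
    calc 1 / Real.cosh ((k : ℝ) * θ) * |eval (a - (a - 1) * (m : ℝ)) (Chebyshev.T ℝ (k : ℤ))|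
        ≤ 1 / Real.cosh ((k : ℝ) * θ) * 1 :=
          mul_le_mul_of_nonneg_left h7 (by positivity)
      _ = 1 / Real.cosh ((k : ℝ) * θ) := mul_one _

/-- Approximate inclusion-exclusion coefficients: the indicator of zero on `0..M` is
approximated to within `2 exp (-k / sqrt M)` by a combination of the binomial coefficients
`choose m j`, `j ≤ k`, whose weighted coefficient sum is at most `(18 M + 1) ^ k`. -/
theorem cheb_exists (M k : ℕ) : ∃ β : ℕ → ℝ,
    (∀ m : ℕ, m ≤ M →
      |(if m = 0 then (1 : ℝ) else 0) - ∑ j ∈ Finset.range (k + 1), β j * (m.choose j : ℝ)|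
        ≤ 2 * Real.exp (-((k : ℝ) / Real.sqrt M))) ∧
    (∑ j ∈ Finset.range (k + 1), |β j| * (M.choose j : ℝ) * 9 ^ j ≤ (18 * (M : ℝ) + 1) ^ k) := by
  obtain ⟨P, hdeg, h0, hP⟩ := cheb_poly M k
  set y : ℝ := (k : ℝ) / Real.sqrt M with hy
  have hy0 : 0 ≤ y := by positivity
  have hcosh : 1 / Real.cosh y ≤ 2 * Real.exp (-y) := by
    rw [div_le_iff₀ (Real.cosh_pos y), Real.cosh_eq]
    have h1 : Real.exp (-y) * Real.exp y = 1 := by
      rw [← Real.exp_add]
      simp
    nlinarith [Real.exp_pos y, Real.exp_pos (-y)]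
  have hcosh1 : 1 / Real.cosh y ≤ 1 := by
    rw [div_le_one (Real.cosh_pos y)]
    exact Real.one_le_cosh y
  have hPle : ∀ i : ℕ, i ≤ M → |P.eval (i : ℝ)| ≤ 1 := by
    intro i hi
    rcases Nat.eq_zero_or_pos i with rfl | hpos
    · simp [h0]
    · exact (hP i hpos hi).trans hcosh1
  refine ⟨fun j => (fwdDiff (1 : ℝ))^[j] P.eval 0, ?_, ?_⟩
  · intro m hm
    rw [← newton_trunc P k hdeg m]
    rcases Nat.eq_zero_or_pos m with rfl | hpos
    · simp only [if_true, Nat.cast_zero, h0, sub_self, abs_zero]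
      positivity
    · rw [if_neg (by omega), zero_sub, abs_neg]
      exact (hP m hpos hm).trans hcosh
  · have hβ : ∀ j, j ≤ M → |(fwdDiff (1 : ℝ))^[j] P.eval 0| ≤ 2 ^ j := by
      intro j hj
      rw [fwdDiff_iter_eq_sum_shift]
      refine (Finset.abs_sum_le_sum_abs _ _).trans ?_
      have hb : ∀ i ∈ Finset.range (j + 1),
          |((-1 : ℤ) ^ (j - i) * (j.choose i : ℤ)) • P.eval (0 + i • (1 : ℝ))|
            ≤ (j.choose i : ℝ) := by
        intro i hi
        rw [Finset.mem_range] at hi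
        rw [zsmul_eq_mul, abs_mul]
        have h1 : |(((-1 : ℤ) ^ (j - i) * (j.choose i : ℤ) : ℤ) : ℝ)| = (j.choose i : ℝ) := by
          push_cast
          rw [abs_mul, abs_pow, abs_neg, abs_one, one_pow, one_mul, Nat.abs_cast]
        rw [h1]
        have h2 : (0 : ℝ) + i • (1 : ℝ) = (i : ℝ) := by simp
        rw [h2]
        have h3 := hPle i (by omega)
        calc (j.choose i : ℝ) * |P.eval (i : ℝ)| ≤ (j.choose i : ℝ) * 1 :=
              mul_le_mul_of_nonneg_left h3 (by positivity)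
          _ = (j.choose i : ℝ) := mul_one _
      refine (Finset.sum_le_sum hb).trans ?_
      have h4 := Nat.sum_range_choose j
      exact_mod_cast h4.le
    have hterm : ∀ j ∈ Finset.range (k + 1),
        |(fwdDiff (1 : ℝ))^[j] P.eval 0| * (M.choose j : ℝ) * 9 ^ j
          ≤ (18 * (M : ℝ)) ^ j * 1 ^ (k - j) * (k.choose j : ℝ) := by
      intro j hj
      rw [Finset.mem_range] at hj
      by_cases hjM : j ≤ M
      · have h1 := hβ j hjM
        have h2 : (M.choose j : ℝ) ≤ (M : ℝ) ^ j := by exact_mod_cast Nat.choose_le_pow M j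
        have h3 : (1 : ℝ) ≤ (k.choose j : ℝ) := by
          exact_mod_cast Nat.choose_pos (by omega : j ≤ k)
        have h5 : (0 : ℝ) ≤ (18 * (M : ℝ)) ^ j := by positivity
        calc |(fwdDiff (1 : ℝ))^[j] P.eval 0| * (M.choose j : ℝ) * 9 ^ j
            ≤ 2 ^ j * (M : ℝ) ^ j * 9 ^ j := by
              have h6 : |(fwdDiff (1 : ℝ))^[j] P.eval 0| * (M.choose j : ℝ)
                  ≤ 2 ^ j * (M : ℝ) ^ j := mul_le_mul h1 h2 (by positivity) (by positivity)
              exact mul_le_mul_of_nonneg_right h6 (by positivity)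
          _ = (18 * (M : ℝ)) ^ j * 1 := by
              rw [mul_one, mul_pow, show (18 : ℝ) = 2 * 9 by norm_num, mul_pow]
              ring
          _ ≤ (18 * (M : ℝ)) ^ j * 1 ^ (k - j) * (k.choose j : ℝ) := by
              rw [one_pow, mul_one]
              nlinarith
      · rw [Nat.choose_eq_zero_of_lt (by omega)]
        simp only [Nat.cast_zero, mul_zero, zero_mul]
        positivity
    refine (Finset.sum_le_sum hterm).trans ?_
    rw [add_pow]

end Vale.Agent.H98.QAC
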