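import Mathlib
import Vale.Agent.H98.QAC.Cheb

namespace Vale.Agent.H98.QAC

open Polynomial

/-- Approximate inclusion-exclusion coefficients: the indicator of zero on `0..M` is
approximated to within `2 exp (-k / sqrt M)` by a combination of the binomial coefficients
`choose m j`, `j ≤ k`, whose coefficient sum weighted by `b ^ j` is at most `(2 b M + 1) ^ k`. -/
theorem cheb_exists_gen (M k : ℕ) (b : ℝ) (hb : 0 ≤ b) : ∃ β : ℕ → ℝ,
    (∀ m : ℕ, m ≤ M →
      |(if m = 0 then (1 : ℝ) else 0) - ∑ j ∈ Finset.range (k + 1), β j * (m.choose j : ℝ)|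
        ≤ 2 * Real.exp (-((k : ℝ) / Real.sqrt M))) ∧
    (∑ j ∈ Finset.range (k + 1), |β j| * (M.choose j : ℝ) * b ^ j
      ≤ (2 * b * (M : ℝ) + 1) ^ k) := by
  obtain ⟨P, hdeg, h0, hP⟩ := cheb_poly M k
  set y : ℝ := (k : ℝ) / Real.sqrt M with hy
  have hy0 : 0 ≤ y := by positivity
  have hcosh : 1 / Real.cosh y ≤ 2 * Real.exp (-y) := by
    rw [div_le_iff₀ (Real.cosh_pos y), Real.cosh_eq]
    have h1 : Real.exp (-y) * Real.exp y = 1 := by
      rw [← Real.exp_add]
      simp
    nlinarith [Real.exp_pos y, Real.exp_pos (-y)]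
  have hcosh1 : 1 / Real.cosh y ≤ 1 := by
    rw [div_le_one (Real.cosh_pos y)]
    exact Real.one_le_cosh y
  have hPle : ∀ i : ℕ, i ≤ M → |P.eval (i : ℝ)| ≤ 1 := by
    intro i hi
    rcases Nat.eq_zero_or_pos i with rfl | hpos
    · simp [h0]
    · exact (hP i hpos hi).trans hcosh1
  refine ⟨fun j => (fwdDiff (1 : ℝ))^[j] P.eval 0, ?_, ?_⟩
  · intro m hm
    rw [← newton_trunc P k hdeg m]
    rcases Nat.eq_zero_or_pos m with rfl | hpos
    · simp only [if_true, Nat.cast_zero, h0, sub_self, abs_zero]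
      positivity
    · rw [if_neg (by omega), zero_sub, abs_neg]
      exact (hP m hpos hm).trans hcosh
  · have hβ : ∀ j, j ≤ M → |(fwdDiff (1 : ℝ))^[j] P.eval 0| ≤ 2 ^ j := by
      intro j hj
      rw [fwdDiff_iter_eq_sum_shift]
      refine (Finset.abs_sum_le_sum_abs _ _).trans ?_
      have hb : ∀ i ∈ Finset.range (j + 1),
          |((-1 : ℤ) ^ (j - i) * (j.choose i : ℤ)) • P.eval (0 + i • (1 : ℝ))|
            ≤ (j.choose i : ℝ) := by
        intro i hi
        rw [Finset.mem_range] at hi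
        rw [zsmul_eq_mul, abs_mul]
        have h1 : |(((-1 : ℤ) ^ (j - i) * (j.choose i : ℤ) : ℤ) : ℝ)| = (j.choose i : ℝ) := by
          push_cast
          rw [abs_mul, abs_pow, abs_neg, abs_one, one_pow, one_mul, Nat.abs_cast]
        rw [h1]
        have h2 : (0 : ℝ) + i • (1 : ℝ) = (i : ℝ) := by simp
        rw [h2]
        have h3 := hPle i (by omega)
        calc (j.choose i : ℝ) * |P.eval (i : ℝ)| ≤ (j.choose i : ℝ) * 1 :=
              mul_le_mul_of_nonneg_left h3 (by positivity)
          _ = (j.choose i : ℝ) := mul_one _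
      refine (Finset.sum_le_sum hb).trans ?_
      have h4 := Nat.sum_range_choose j
      exact_mod_cast h4.le
    have hterm : ∀ j ∈ Finset.range (k + 1),
        |(fwdDiff (1 : ℝ))^[j] P.eval 0| * (M.choose j : ℝ) * b ^ j
          ≤ (2 * b * (M : ℝ)) ^ j * 1 ^ (k - j) * (k.choose j : ℝ) := by
      intro j hj
      rw [Finset.mem_range] at hj
      by_cases hjM : j ≤ M
      · have h1 := hβ j hjM
        have h2 : (M.choose j : ℝ) ≤ (M : ℝ) ^ j := by exact_mod_cast Nat.choose_le_pow M j
        have h3 : (1 : ℝ) ≤ (k.choose j : ℝ) := by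
          exact_mod_cast Nat.choose_pos (by omega : j ≤ k)
        have h5 : (0 : ℝ) ≤ (2 * b * (M : ℝ)) ^ j := by positivity
        calc |(fwdDiff (1 : ℝ))^[j] P.eval 0| * (M.choose j : ℝ) * b ^ j
            ≤ 2 ^ j * (M : ℝ) ^ j * b ^ j := by
              have h6 : |(fwdDiff (1 : ℝ))^[j] P.eval 0| * (M.choose j : ℝ)
                  ≤ 2 ^ j * (M : ℝ) ^ j := mul_le_mul h1 h2 (by positivity) (by positivity)
              exact mul_le_mul_of_nonneg_right h6 (by positivity)
          _ = (2 * b * (M : ℝ)) ^ j * 1 := by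
              rw [mul_one, mul_pow, mul_pow]
              ring
          _ ≤ (2 * b * (M : ℝ)) ^ j * 1 ^ (k - j) * (k.choose j : ℝ) := by
              rw [one_pow, mul_one]
              nlinarith
      · rw [Nat.choose_eq_zero_of_lt (by omega)]
        simp only [Nat.cast_zero, mul_zero, zero_mul]
        positivity
    refine (Finset.sum_le_sum hterm).trans ?_
    rw [add_pow]

end Vale.Agent.H98.QAC
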