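import Mathlib

namespace Vale.Agent.H98.QAC

/-- A gate of a QAC circuit on a register whose qubits are indexed by `Q`: a one-qubit gate
with matrix `u` acting on qubit `i`, or a generalized Toffoli gate with control set `S` and
target qubit `b`. -/
inductive Gate (Q : Type) : Type
  | oneQubit (i : Q) (u : Matrix Bool Bool ℂ) : Gate Q
  | toffoli (S : Finset Q) (b : Q) : Gate Q

namespace Gate

variable {Q : Type} [Fintype Q] [DecidableEq Q]

/-- The set of qubits a gate acts on. -/
def support : Gate Q → Finset Q
  | oneQubit i _ => {i}
  | toffoli S b => insert b S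

/-- A one-qubit gate must be unitary; a generalized Toffoli gate has at least one control and
its target is not a control. -/
def Valid : Gate Q → Prop
  | oneQubit _ u => u ∈ Matrix.unitaryGroup Bool ℂ
  | toffoli S b => S.Nonempty ∧ b ∉ S

/-- Whether the gate is a multi-qubit gate. -/
def isMultiQubit : Gate Q → Bool
  | oneQubit _ _ => false
  | toffoli _ _ => true

/-- The matrix of a gate in the computational basis (basis states are bit assignments
`Q → Bool`). The one-qubit gate applies `u` to qubit `i`; the generalized Toffoli gate maps
the basis state `t` to `t` with bit `b` replaced by `t b XOR (AND of the bits t i, i ∈ S)`. -/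
def matrix : Gate Q → Matrix (Q → Bool) (Q → Bool) ℂ
  | oneQubit i u => Matrix.of fun s t => if ∀ j, j ≠ i → s j = t j then u (s i) (t i) else 0
  | toffoli S b => Matrix.of fun s t =>
      if s = Function.update t b (xor (t b) (decide (∀ i ∈ S, t i = true))) then 1 else 0

end Gate

variable {Q : Type} [Fintype Q] [DecidableEq Q]

/-- A layer is a list of valid gates with pairwise disjoint supports. -/
def IsLayer (l : List (Gate Q)) : Prop :=
  (∀ g ∈ l, g.Valid) ∧ l.Pairwise (fun g h => Disjoint g.support h.support)

/-- The unitary of a layer: the product of its gates. -/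
def layerMatrix (l : List (Gate Q)) : Matrix (Q → Bool) (Q → Bool) ℂ :=
  (l.map Gate.matrix).prod

/-- The unitary of a circuit given by the list of its layers; the head of the list is
applied first. -/
def circuitMatrix (c : List (List (Gate Q))) : Matrix (Q → Bool) (Q → Bool) ℂ :=
  (c.map layerMatrix).reverse.prod

/-- Entangling depth: the number of layers that contain a multi-qubit gate. -/
def entanglingDepth (c : List (List (Gate Q))) : ℕ :=
  (c.filter (fun l => l.any Gate.isMultiQubit)).length

/-- The probability that measuring qubit `q` of the state `C |s0>` in the computational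
basis gives the outcome `b`. -/
noncomputable def outProb (C : Matrix (Q → Bool) (Q → Bool) ℂ) (q : Q) (s0 : Q → Bool) (b : Bool) : ℝ :=
  ∑ s : Q → Bool, if s q = b then ‖C s s0‖ ^ 2 else 0

/-- The parity of a bit string. -/
def parity {n : ℕ} (x : Fin n → Bool) : Bool :=
  decide (Odd (Finset.univ.filter (fun i => x i = true)).card)

/-- The initial basis state: the input `x` on the `n` input qubits `Sum.inl i`, and `0` on
every ancilla qubit `Sum.inr a`. -/
def inputState {n : ℕ} {A : Type} (x : Fin n → Bool) : Fin n ⊕ A → Bool :=
  Sum.elim x (fun _ => false)

/-- Parity correlation of the circuit unitary `C` with output qubit `q`: the average over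
uniformly random inputs `x` of `Pr[output = parity x] - Pr[output ≠ parity x]`. -/
noncomputable def parityCorrelation {n : ℕ} {A : Type} [Fintype A] [DecidableEq A]
    (C : Matrix (Fin n ⊕ A → Bool) (Fin n ⊕ A → Bool) ℂ) (q : Fin n ⊕ A) : ℝ :=
  (∑ x : Fin n → Bool,
    (outProb C q (inputState x) (parity x) - outProb C q (inputState x) (!(parity x)))) / 2 ^ n

end Vale.Agent.H98.QAC
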