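import Mathlib
import Vale.Agent.H98.QAC.Basic
import Vale.Agent.H98.QAC.Abs
import Vale.Agent.H98.QAC.Block
import Vale.Agent.H98.QAC.Block2
import Vale.Agent.H98.QAC.Factor
import Vale.Agent.H98.QAC.Core

namespace Vale.Agent.H98.QAC

open Matrix
open scoped ComplexOrder

set_option linter.unusedSectionVars false

variable {Q : Type*} [Fintype Q] [DecidableEq Q]

theorem blockT_bound2 (u : Q → Matrix Bool Bool ℂ) (hu : ∀ i, (u i)ᴴ * u i = 1) (I : Finset Q)
    (g : Finset Q × (Q → Matrix Bool Bool ℂ)) (hg : GateOK g)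
    (y : Q → Matrix Bool Bool ℂ) (hy : ProjFam y) :
    ‖blockT g.1 g.2 (cfam u (zd I)) y‖ ≤ if (I ∩ g.1).card < 2 then 1 else 2 := by
  classical
  obtain ⟨A, p⟩ := g
  simp only at hg ⊢
  have hex : ∀ i : {i // i ∈ A}, ∃ v : Bool → ℂ, star v ⬝ᵥ v = 1 ∧ p i = vecMulVec v (star v) :=
    fun i => hg.2 i.1 i.2
  choose w hw hpw using hex
  set I' : Finset {i // i ∈ A} := I.subtype (fun i => i ∈ A) with hI'
  have hb := block_bound2 (fun i : {i // i ∈ A} => u i) (fun i => hu i) I'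
    (fun i : {i // i ∈ A} => y i) (fun i => (hy i).1) (fun i => (hy i).2) w hw
  have hcard : I'.card = (I ∩ A).card := by
    rw [hI', Finset.card_subtype, Finset.filter_mem_eq_inter]
  rw [hcard] at hb
  refine le_of_eq_of_le (congrArg norm ?_) hb
  -- identify the block quantity with the trace on the subsystem
  have hx : cfam (fun i : {i // i ∈ A} => u i) (zd I') = fun i : {i // i ∈ A} => cfam u (zd I) i := by
    funext i
    unfold cfam zd
    simp [hI']
  have hpp : (fun i : {i // i ∈ A} => vecMulVec (w i) (star (w i))) = fun i : {i // i ∈ A} => p i := by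
    funext i
    exact (hpw i).symm
  rw [hx, hpp]
  have hexp : ∀ (Y P X : Matrix ({i // i ∈ A} → Bool) ({i // i ∈ A} → Bool) ℂ),
      Y * (1 - 2 • P) * X * (1 - 2 • P)
        = Y * X - 2 • (Y * P * X) - 2 • (Y * X * P) + 4 • (Y * P * X * P) := by
    intro Y P X
    noncomm_ring
  rw [hexp, Matrix.trace_add, Matrix.trace_sub, Matrix.trace_sub, Matrix.trace_smul,
    Matrix.trace_smul, Matrix.trace_smul]
  simp only [op_mul, trace_op, nsmul_eq_mul]
  unfold blockT
  rw [← Finset.prod_coe_sort A, ← Finset.prod_coe_sort A, ← Finset.prod_coe_sort A,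
    ← Finset.prod_coe_sort A]
  have c1 : ∀ i : {i // i ∈ A}, (p i * y i * cfam u (zd I) i).trace
      = (y i * cfam u (zd I) i * p i).trace := by
    intro i
    rw [Matrix.trace_mul_cycle (y i.1) (cfam u (zd I) i.1) (p i.1)]
  have c2 : ∀ i : {i // i ∈ A}, (p i * y i * p i * cfam u (zd I) i).trace
      = (y i * p i * cfam u (zd I) i * p i).trace := by
    intro i
    rw [Matrix.trace_mul_comm (y i.1 * p i.1 * cfam u (zd I) i.1) (p i.1)]
    simp only [Matrix.mul_assoc]
  simp only [c1, c2]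
  push_cast
  ring

theorem blockT_le_two (u : Q → Matrix Bool Bool ℂ) (hu : ∀ i, (u i)ᴴ * u i = 1) (I : Finset Q)
    (g : Finset Q × (Q → Matrix Bool Bool ℂ)) (hg : GateOK g)
    (y : Q → Matrix Bool Bool ℂ) (hy : ProjFam y) :
    ‖blockT g.1 g.2 (cfam u (zd I)) y‖ ≤ 2 := by
  refine (blockT_bound2 u hu I g hg y hy).trans ?_
  split_ifs <;> norm_num

theorem blockT_le_one (u : Q → Matrix Bool Bool ℂ) (hu : ∀ i, (u i)ᴴ * u i = 1) (I : Finset Q)
    (g : Finset Q × (Q → Matrix Bool Bool ℂ)) (hg : GateOK g)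
    (y : Q → Matrix Bool Bool ℂ) (hy : ProjFam y) (hc : (I ∩ g.1).card < 2) :
    ‖blockT g.1 g.2 (cfam u (zd I)) y‖ ≤ 1 := by
  have h := blockT_bound2 u hu I g hg y hy
  rwa [if_pos hc] at h

theorem blockT_le_pow (u : Q → Matrix Bool Bool ℂ) (hu : ∀ i, (u i)ᴴ * u i = 1) (I : Finset Q)
    (g : Finset Q × (Q → Matrix Bool Bool ℂ)) (hg : GateOK g)
    (y : Q → Matrix Bool Bool ℂ) (hy : ProjFam y) :
    ‖blockT g.1 g.2 (cfam u (zd I)) y‖ ≤ (2 : ℝ) ^ ((I ∩ g.1).card / 2) := by
  refine (blockT_bound2 u hu I g hg y hy).trans ?_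
  split_ifs with h
  · exact one_le_pow₀ (by norm_num)
  · calc (2 : ℝ) = 2 ^ 1 := by norm_num
      _ ≤ 2 ^ ((I ∩ g.1).card / 2) := pow_le_pow_right₀ (by norm_num) (by omega)

theorem prod_blockT_bound2 (u : Q → Matrix Bool Bool ℂ) (hu : ∀ i, (u i)ᴴ * u i = 1) (I : Finset Q)
    (y : Q → Matrix Bool Bool ℂ) (hy : ProjFam y) :
    ∀ L : List (Finset Q × (Q → Matrix Bool Bool ℂ)), GoodList L →
      ‖(L.map (fun g => blockT g.1 g.2 (cfam u (zd I)) y)).prod‖
        ≤ (2 : ℝ) ^ ((I ∩ suppU L).card / 2)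
  | [], _ => by simp [suppU_nil]
  | g :: L, h => by
      have hpw := List.pairwise_cons.mp h.2
      have IH := prod_blockT_bound2 u hu I y hy L ⟨fun g' hg' => h.1 g' (by simp [hg']), hpw.2⟩
      have hb := blockT_le_pow u hu I g (h.1 g (by simp)) y hy
      have hdis : Disjoint (I ∩ g.1) (I ∩ suppU L) :=
        Finset.disjoint_of_subset_left Finset.inter_subset_right
          (Finset.disjoint_of_subset_right Finset.inter_subset_right (disjoint_suppU g.1 L hpw.1))
      rw [List.map_cons, List.prod_cons, norm_mul, suppU_cons, Finset.inter_union_distrib_left,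
        Finset.card_union_of_disjoint hdis]
      calc ‖blockT g.1 g.2 (cfam u (zd I)) y‖
            * ‖(L.map (fun g => blockT g.1 g.2 (cfam u (zd I)) y)).prod‖
          ≤ (2 : ℝ) ^ ((I ∩ g.1).card / 2) * (2 : ℝ) ^ ((I ∩ suppU L).card / 2) :=
            mul_le_mul hb IH (norm_nonneg _) (by positivity)
        _ = (2 : ℝ) ^ ((I ∩ g.1).card / 2 + (I ∩ suppU L).card / 2) := (pow_add _ _ _).symm
        _ ≤ (2 : ℝ) ^ (((I ∩ g.1).card + (I ∩ suppU L).card) / 2) :=
            pow_le_pow_right₀ (by norm_num) (by omega)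

/-- Refined bound for one term: `2 ^ floor (|I| / 2)`. -/
theorem single_bound2 (u : Q → Matrix Bool Bool ℂ) (hu : ∀ i, (u i)ᴴ * u i = 1) (I : Finset Q)
    (L : List (Finset Q × (Q → Matrix Bool Bool ℂ))) (hL : GoodList L)
    (y : Q → Matrix Bool Bool ℂ) (hy : ProjFam y) :
    ‖(op y * prodR L * op (cfam u (zd I)) * prodRrev L).trace‖ ≤ (2 : ℝ) ^ (I.card / 2) := by
  rw [factorization _ L (fun g hg => (hL.1 g hg).1) hL.2 y, norm_mul, norm_prod]
  have h1 := prod_blockT_bound2 u hu I y hy L hL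
  have h2 : ∏ i ∈ Finset.univ \ suppU L, ‖(y i * cfam u (zd I) i).trace‖ ≤ 1 :=
    Finset.prod_le_one (fun i _ => norm_nonneg _) (fun i _ => untouched_bound u hu I y hy i)
  calc ‖(L.map (fun g => blockT g.1 g.2 (cfam u (zd I)) y)).prod‖
        * ∏ i ∈ Finset.univ \ suppU L, ‖(y i * cfam u (zd I) i).trace‖
      ≤ (2 : ℝ) ^ ((I ∩ suppU L).card / 2) * 1 :=
        mul_le_mul h1 h2 (Finset.prod_nonneg (fun i _ => norm_nonneg _)) (by positivity)
    _ ≤ (2 : ℝ) ^ (I.card / 2) := by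
        rw [mul_one]
        exact pow_le_pow_right₀ (by norm_num)
          (Nat.div_le_div_right (Finset.card_le_card Finset.inter_subset_left))

theorem prod_blockT_boundB (u : Q → Matrix Bool Bool ℂ) (hu : ∀ i, (u i)ᴴ * u i = 1) (I : Finset Q)
    (y : Q → Matrix Bool Bool ℂ) (hy : ProjFam y) (q : Q) :
    ∀ L : List (Finset Q × (Q → Matrix Bool Bool ℂ)), GoodList L →
      (∀ g ∈ L, q ∉ g.1 → (I ∩ g.1).card < 2) →
      ‖(L.map (fun g => blockT g.1 g.2 (cfam u (zd I)) y)).prod‖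
        ≤ if q ∈ suppU L then 2 else 1
  | [], _, _ => by simp [suppU_nil]
  | g :: L, h, hq => by
      have hpw := List.pairwise_cons.mp h.2
      have IH := prod_blockT_boundB u hu I y hy q L ⟨fun g' hg' => h.1 g' (by simp [hg']), hpw.2⟩
        (fun g' hg' => hq g' (by simp [hg']))
      rw [List.map_cons, List.prod_cons, norm_mul, suppU_cons]
      by_cases hqg : q ∈ g.1
      · have hnot : q ∉ suppU L :=
          fun hqL => Finset.disjoint_left.mp (disjoint_suppU g.1 L hpw.1) hqg hqL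
        rw [if_neg hnot] at IH
        rw [if_pos (Finset.mem_union_left _ hqg)]
        have hb := blockT_le_two u hu I g (h.1 g (by simp)) y hy
        calc ‖blockT g.1 g.2 (cfam u (zd I)) y‖
              * ‖(L.map (fun g => blockT g.1 g.2 (cfam u (zd I)) y)).prod‖
            ≤ 2 * 1 := mul_le_mul hb IH (norm_nonneg _) (by norm_num)
          _ = 2 := by norm_num
      · have hb := blockT_le_one u hu I g (h.1 g (by simp)) y hy (hq g (by simp) hqg)
        have hiff : (q ∈ g.1 ∪ suppU L) ↔ (q ∈ suppU L) := by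
          rw [Finset.mem_union]
          tauto
        simp only [hiff]
        calc ‖blockT g.1 g.2 (cfam u (zd I)) y‖
              * ‖(L.map (fun g => blockT g.1 g.2 (cfam u (zd I)) y)).prod‖
            ≤ 1 * (if q ∈ suppU L then 2 else 1) :=
              mul_le_mul hb IH (norm_nonneg _) (by norm_num)
          _ = (if q ∈ suppU L then 2 else 1) := one_mul _

/-- If every first-layer gate avoiding `q` holds at most one input, each term is at most 2. -/
theorem single_boundB (u : Q → Matrix Bool Bool ℂ) (hu : ∀ i, (u i)ᴴ * u i = 1) (I : Finset Q)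
    (L : List (Finset Q × (Q → Matrix Bool Bool ℂ))) (hL : GoodList L) (q : Q)
    (hq : ∀ g ∈ L, q ∉ g.1 → (I ∩ g.1).card < 2)
    (y : Q → Matrix Bool Bool ℂ) (hy : ProjFam y) :
    ‖(op y * prodR L * op (cfam u (zd I)) * prodRrev L).trace‖ ≤ 2 := by
  rw [factorization _ L (fun g hg => (hL.1 g hg).1) hL.2 y, norm_mul, norm_prod]
  have h1 := prod_blockT_boundB u hu I y hy q L hL hq
  have h1' : ‖(L.map (fun g => blockT g.1 g.2 (cfam u (zd I)) y)).prod‖ ≤ 2 :=
    h1.trans (by split_ifs <;> norm_num)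
  have h2 : ∏ i ∈ Finset.univ \ suppU L, ‖(y i * cfam u (zd I) i).trace‖ ≤ 1 :=
    Finset.prod_le_one (fun i _ => norm_nonneg _) (fun i _ => untouched_bound u hu I y hy i)
  calc ‖(L.map (fun g => blockT g.1 g.2 (cfam u (zd I)) y)).prod‖
        * ∏ i ∈ Finset.univ \ suppU L, ‖(y i * cfam u (zd I) i).trace‖
      ≤ 2 * 1 :=
        mul_le_mul h1' h2 (Finset.prod_nonneg (fun i _ => norm_nonneg _)) (by norm_num)
    _ = 2 := by norm_num

theorem trace_cfam_zd_mem (u : Q → Matrix Bool Bool ℂ) (hu : ∀ i, (u i)ᴴ * u i = 1) (I : Finset Q)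
    {i : Q} (hi : i ∈ I) : (cfam u (zd I) i).trace = 0 := by
  unfold cfam
  rw [conj_trace (hu i), Matrix.trace_diagonal]
  simp [zd, hi]

theorem blockT_one_eq_zero (A : Finset Q) (p x y : Q → Matrix Bool Bool ℂ)
    (hp : ∀ i ∈ A, p i * p i = p i) (hy : ∀ i ∈ A, y i = 1)
    (hx : ∃ i ∈ A, (x i).trace = 0) : blockT A p x y = 0 := by
  unfold blockT
  have e1 : ∏ i ∈ A, (y i * x i).trace = 0 := by
    obtain ⟨i, hi, hxi⟩ := hx
    exact Finset.prod_eq_zero hi (by rw [hy i hi, Matrix.one_mul, hxi])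
  have e2 : ∏ i ∈ A, (p i * y i * x i).trace = ∏ i ∈ A, (p i * x i).trace :=
    Finset.prod_congr rfl (fun i hi => by rw [hy i hi, Matrix.mul_one])
  have e3 : ∏ i ∈ A, (y i * p i * x i).trace = ∏ i ∈ A, (p i * x i).trace :=
    Finset.prod_congr rfl (fun i hi => by rw [hy i hi, Matrix.one_mul])
  have e4 : ∏ i ∈ A, (p i * y i * p i * x i).trace = ∏ i ∈ A, (p i * x i).trace :=
    Finset.prod_congr rfl (fun i hi => by rw [hy i hi, Matrix.mul_one, hp i hi])
  rw [e1, e2, e3, e4]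
  ring

/-- The term of the bare measurement operator vanishes as soon as some input other than `q`
is untouched by the first layer or lies in a first-layer gate avoiding `q`. -/
theorem single_vanish (u : Q → Matrix Bool Bool ℂ) (hu : ∀ i, (u i)ᴴ * u i = 1) (I : Finset Q)
    (L : List (Finset Q × (Q → Matrix Bool Bool ℂ))) (hL : GoodList L) (q : Q)
    (y : Q → Matrix Bool Bool ℂ) (hy : ∀ i, i ≠ q → y i = 1)
    (hA : (∃ i ∈ I, i ≠ q ∧ i ∉ suppU L) ∨ (∃ g ∈ L, q ∉ g.1 ∧ ∃ i ∈ I, i ∈ g.1)) :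
    (op y * prodR L * op (cfam u (zd I)) * prodRrev L).trace = 0 := by
  rw [factorization _ L (fun g hg => (hL.1 g hg).1) hL.2 y]
  rcases hA with ⟨i, hiI, hiq, hiL⟩ | ⟨g, hg, hqg, i, hiI, hig⟩
  · apply mul_eq_zero_of_right
    apply Finset.prod_eq_zero (i := i) (by simp [hiL])
    rw [hy i hiq, Matrix.one_mul, trace_cfam_zd_mem u hu I hiI]
  · apply mul_eq_zero_of_left
    apply List.prod_eq_zero
    rw [List.mem_map]
    refine ⟨g, hg, ?_⟩
    apply blockT_one_eq_zero
    · intro j _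
      exact ((hL.1 g hg).projFam j).1.2
    · intro j hj
      exact hy j (fun e => hqg (e ▸ hj))
    · exact ⟨i, hig, trace_cfam_zd_mem u hu I hiI⟩

end Vale.Agent.H98.QAC
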