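import Mathlib
import Vale.Agent.H98.QAC.Basic
import Vale.Agent.H98.QAC.Abs
import Vale.Agent.H98.QAC.Block
import Vale.Agent.H98.QAC.Factor
import Vale.Agent.H98.QAC.Core

namespace Vale.Agent.H98.QAC

open Matrix

set_option linter.unusedSectionVars false

variable {Q : Type*} [Fintype Q] [DecidableEq Q]

theorem op_comm_refl (z p : Q → Matrix Bool Bool ℂ) (h : ∀ i, z i * p i = p i * z i) :
    op z * refl p = refl p * op z := by
  unfold refl
  rw [Matrix.mul_sub, Matrix.sub_mul, Matrix.mul_one, Matrix.one_mul, Matrix.mul_smul,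
    Matrix.smul_mul, op_mul, op_mul]
  congr 3
  funext i
  exact h i

theorem refl_sq (p : Q → Matrix Bool Bool ℂ) (hp : ∀ i, p i * p i = p i) :
    refl p * refl p = 1 := by
  have h : refl p * refl p = 1 - 4 • op p + 4 • (op p * op p) := by
    unfold refl
    noncomm_ring
  rw [h, op_mul]
  simp only [hp]
  abel

theorem refl_herm (p : Q → Matrix Bool Bool ℂ) (hp : ∀ i, (p i)ᴴ = p i) :
    (refl p)ᴴ = refl p := by
  unfold refl
  rw [Matrix.conjTranspose_sub, Matrix.conjTranspose_one, Matrix.conjTranspose_smul,
    op_conjTranspose]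
  simp only [hp]
  simp

theorem prodR_conjTranspose :
    ∀ L : List (Finset Q × (Q → Matrix Bool Bool ℂ)), (∀ g ∈ L, GateOK g) →
      (prodR L)ᴴ = prodRrev L
  | [], _ => by simp [prodR_nil, prodRrev_nil]
  | g :: L, h => by
      rw [prodR_cons, prodRrev_cons, Matrix.conjTranspose_mul,
        prodR_conjTranspose L (fun g' hg' => h g' (by simp [hg'])),
        refl_herm g.2 (fun i => ((h g (by simp)).projFam i).1.1)]

/-- Gates whose supports avoid `B` commute with operators supported in `B`. -/
theorem comm_through (B : Finset Q) (z : Q → Matrix Bool Bool ℂ) (hz : ∀ i, i ∉ B → z i = 1) :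
    ∀ L : List (Finset Q × (Q → Matrix Bool Bool ℂ)), (∀ g ∈ L, GateOK g) →
      (∀ g ∈ L, Disjoint B g.1) → prodRrev L * op z * prodR L = op z
  | [], _, _ => by simp [prodR_nil, prodRrev_nil]
  | g :: L, h, hd => by
      have hg := h g (by simp)
      have hc : op z * refl g.2 = refl g.2 * op z := by
        apply op_comm_refl
        intro i
        by_cases hi : i ∈ g.1
        · have hiB : i ∉ B := fun hB => Finset.disjoint_left.mp (hd g (by simp)) hB hi
          rw [hz i hiB, Matrix.one_mul, Matrix.mul_one]
        · rw [hg.1 i hi, Matrix.one_mul, Matrix.mul_one]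
      have hsq : refl g.2 * refl g.2 = 1 := refl_sq g.2 (fun i => (hg.projFam i).1.2)
      rw [prodR_cons, prodRrev_cons]
      calc prodRrev L * refl g.2 * op z * (refl g.2 * prodR L)
          = prodRrev L * (refl g.2 * (op z * refl g.2)) * prodR L := by
            simp only [Matrix.mul_assoc]
        _ = prodRrev L * op z * prodR L := by
            rw [hc, ← Matrix.mul_assoc (refl g.2), hsq, Matrix.one_mul]
        _ = op z := comm_through B z hz L (fun g' hg' => h g' (by simp [hg']))
            (fun g' hg' => hd g' (by simp [hg']))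

theorem op_update_nsmul (a : Q → Matrix Bool Bool ℂ) (i : Q) (k : ℕ) (c : Matrix Bool Bool ℂ) :
    op (Function.update a i (k • c)) = k • op (Function.update a i c) := by
  rw [← Nat.cast_smul_eq_nsmul ℂ k c, op_update_smul, Nat.cast_smul_eq_nsmul]

section small

variable {ι : Type*} [Fintype ι] [DecidableEq ι]

theorem refl_small_sq {p : Matrix ι ι ℂ} (hp : IsProj p) :
    (1 - 2 • p) * (1 - 2 • p) = 1 := by
  have h : (1 - 2 • p) * (1 - 2 • p) = 1 - 4 • p + 4 • (p * p) := by noncomm_ring
  rw [h, hp.2]
  abel

theorem refl_small_herm {p : Matrix ι ι ℂ} (hp : IsProj p) :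
    ((1 : Matrix ι ι ℂ) - 2 • p)ᴴ = 1 - 2 • p := by
  rw [Matrix.conjTranspose_sub, Matrix.conjTranspose_one, Matrix.conjTranspose_smul, hp.1]
  simp

theorem refl_small_conj_isProj {p m : Matrix ι ι ℂ} (hp : IsProj p) (hm : IsProj m) :
    IsProj ((1 - 2 • p) * m * (1 - 2 • p)) := by
  constructor
  · rw [Matrix.conjTranspose_mul, Matrix.conjTranspose_mul, refl_small_herm hp, hm.1,
      Matrix.mul_assoc]
  · calc (1 - 2 • p) * m * (1 - 2 • p) * ((1 - 2 • p) * m * (1 - 2 • p))
        = (1 - 2 • p) * m * ((1 - 2 • p) * (1 - 2 • p)) * m * (1 - 2 • p) := by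
          simp only [Matrix.mul_assoc]
      _ = (1 - 2 • p) * m * (1 - 2 • p) := by
          rw [refl_small_sq hp, Matrix.mul_one, Matrix.mul_assoc (1 - 2 • p) m m, hm.2]

theorem refl_small_conj_trace {p : Matrix ι ι ℂ} (hp : IsProj p) (m : Matrix ι ι ℂ) :
    ((1 - 2 • p) * m * (1 - 2 • p)).trace = m.trace := by
  rw [Matrix.trace_mul_cycle, refl_small_sq hp, Matrix.one_mul]

end small

theorem refl_conj_meas (p : Q → Matrix Bool Bool ℂ) (hp : ∀ i, p i * p i = p i) (q : Q)
    (m0 : Matrix Bool Bool ℂ) :
    refl p * op (Function.update (fun _ => (1 : Matrix Bool Bool ℂ)) q m0) * refl p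
      = op (Function.update (fun _ => (1 : Matrix Bool Bool ℂ)) q m0)
        + op (Function.update p q ((1 - 2 • p q) * m0 * (1 - 2 • p q)))
        - op (Function.update p q m0) := by
  rw [refl_conj]
  have e1 : (fun i => p i * Function.update (fun _ => (1 : Matrix Bool Bool ℂ)) q m0 i)
      = Function.update p q (p q * m0) := by
    funext i
    by_cases h : i = q
    · subst h
      simp
    · simp [Function.update_of_ne h]
  have e2 : (fun i => Function.update (fun _ => (1 : Matrix Bool Bool ℂ)) q m0 i * p i)
      = Function.update p q (m0 * p q) := by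
    funext i
    by_cases h : i = q
    · subst h
      simp
    · simp [Function.update_of_ne h]
  have e3 : (fun i => p i * Function.update (fun _ => (1 : Matrix Bool Bool ℂ)) q m0 i * p i)
      = Function.update p q (p q * m0 * p q) := by
    funext i
    by_cases h : i = q
    · subst h
      simp
    · simp [Function.update_of_ne h, hp i]
  have e4 : (1 - 2 • p q) * m0 * (1 - 2 • p q)
      = m0 - 2 • (p q * m0) - 2 • (m0 * p q) + 4 • (p q * m0 * p q) := by
    noncomm_ring
  rw [e1, e2, e3, e4, op_update_add, op_update_sub, op_update_sub, op_update_nsmul,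
    op_update_nsmul, op_update_nsmul]
  abel

theorem projFam_update_one (q : Q) (m0 : Matrix Bool Bool ℂ) (hm : IsProj m0) (hm1 : m0.trace = 1) :
    ProjFam (Function.update (fun _ : Q => (1 : Matrix Bool Bool ℂ)) q m0) := by
  intro i
  by_cases h : i = q
  · subst h
    rw [Function.update_self]
    exact ⟨hm, Or.inr hm1⟩
  · rw [Function.update_of_ne h]
    exact ⟨isProj_one, Or.inl rfl⟩

theorem projFam_update (p : Q → Matrix Bool Bool ℂ) (hp : ProjFam p) (q : Q)
    (m0 : Matrix Bool Bool ℂ) (hm : IsProj m0) (hm1 : m0.trace = 1) :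
    ProjFam (Function.update p q m0) := by
  intro i
  by_cases h : i = q
  · subst h
    rw [Function.update_self]
    exact ⟨hm, Or.inr hm1⟩
  · rw [Function.update_of_ne h]
    exact hp i

theorem top_layer (q : Q) (m0 : Matrix Bool Bool ℂ) (hm : IsProj m0) (hm1 : m0.trace = 1) :
    ∀ L : List (Finset Q × (Q → Matrix Bool Bool ℂ)), GoodList L →
      ∃ y1 y2 : Q → Matrix Bool Bool ℂ, ProjFam y1 ∧ ProjFam y2 ∧
        prodRrev L * op (Function.update (fun _ => (1 : Matrix Bool Bool ℂ)) q m0) * prodR L
          = op (Function.update (fun _ => (1 : Matrix Bool Bool ℂ)) q m0) + op y1 - op y2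
  | [], _ => ⟨_, _, projFam_update_one q m0 hm hm1, projFam_update_one q m0 hm hm1, by
      simp [prodR_nil, prodRrev_nil]⟩
  | g :: L, h => by
      have hpw := List.pairwise_cons.mp h.2
      have hg := h.1 g (by simp)
      have hL : GoodList L := ⟨fun g' hg' => h.1 g' (by simp [hg']), hpw.2⟩
      rw [prodR_cons, prodRrev_cons]
      have hassoc : prodRrev L * refl g.2
            * op (Function.update (fun _ => (1 : Matrix Bool Bool ℂ)) q m0) * (refl g.2 * prodR L)
          = prodRrev L * (refl g.2 * op (Function.update (fun _ => (1 : Matrix Bool Bool ℂ)) q m0)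
            * refl g.2) * prodR L := by
        simp only [Matrix.mul_assoc]
      rw [hassoc]
      by_cases hq : q ∈ g.1
      · rw [refl_conj_meas g.2 (fun i => (hg.projFam i).1.2) q m0]
        have hpq : IsProj (g.2 q) := (hg.projFam q).1
        refine ⟨Function.update g.2 q ((1 - 2 • g.2 q) * m0 * (1 - 2 • g.2 q)),
          Function.update g.2 q m0, ?_, ?_, ?_⟩
        · exact projFam_update g.2 hg.projFam q _ (refl_small_conj_isProj hpq hm)
            (by rw [refl_small_conj_trace hpq, hm1])
        · exact projFam_update g.2 hg.projFam q _ hm hm1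
        · have s0 : ∀ i, i ∉ g.1 →
              Function.update (fun _ => (1 : Matrix Bool Bool ℂ)) q m0 i = 1 := by
            intro i hi
            have hne : i ≠ q := fun e => hi (e ▸ hq)
            rw [Function.update_of_ne hne]
          have s1 : ∀ (c : Matrix Bool Bool ℂ) (i : Q), i ∉ g.1 →
              Function.update g.2 q c i = 1 := by
            intro c i hi
            have hne : i ≠ q := fun e => hi (e ▸ hq)
            rw [Function.update_of_ne hne, hg.1 i hi]
          rw [Matrix.mul_sub, Matrix.mul_add, Matrix.sub_mul, Matrix.add_mul,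
            comm_through g.1 _ s0 L hL.1 hpw.1, comm_through g.1 _ (s1 _) L hL.1 hpw.1,
            comm_through g.1 _ (s1 _) L hL.1 hpw.1]
      · have hc : op (Function.update (fun _ => (1 : Matrix Bool Bool ℂ)) q m0) * refl g.2
            = refl g.2 * op (Function.update (fun _ => (1 : Matrix Bool Bool ℂ)) q m0) := by
          apply op_comm_refl
          intro i
          by_cases hi : i = q
          · subst hi
            rw [hg.1 i hq, Matrix.one_mul, Matrix.mul_one]
          · rw [Function.update_of_ne hi, Matrix.one_mul, Matrix.mul_one]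
        rw [Matrix.mul_assoc (refl g.2), hc, ← Matrix.mul_assoc (refl g.2),
          refl_sq g.2 (fun i => (hg.projFam i).1.2), Matrix.one_mul]
        exact top_layer q m0 hm hm1 L hL

end Vale.Agent.H98.QAC
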