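import Mathlib
import Vale.Agent.H98.QAC.Basic
import Vale.Agent.H98.QAC.Abs
import Vale.Agent.H98.QAC.Block
import Vale.Agent.H98.QAC.Factor
import Vale.Agent.H98.QAC.Core
import Vale.Agent.H98.QAC.Top

namespace Vale.Agent.H98.QAC

open Matrix

set_option linter.unusedSectionVars false

variable {Q : Type*} [Fintype Q] [DecidableEq Q]

theorem isProj_conj_small (v m : Matrix Bool Bool ℂ) (hv : vᴴ * v = 1) (hm : IsProj m) :
    IsProj (vᴴ * m * v) := by
  have hv' : v * vᴴ = 1 := mul_eq_one_comm.mp hv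
  have h := conj_isProj (U := vᴴ) (by rw [Matrix.conjTranspose_conjTranspose]; exact hv') hm
  rwa [Matrix.conjTranspose_conjTranspose] at h

theorem trace_conj_small (v m : Matrix Bool Bool ℂ) (hv : vᴴ * v = 1) :
    (vᴴ * m * v).trace = m.trace := by
  have hv' : v * vᴴ = 1 := mul_eq_one_comm.mp hv
  rw [Matrix.trace_mul_cycle, hv', Matrix.one_mul]

theorem projFam_conj (v : Q → Matrix Bool Bool ℂ) (hv : ∀ i, (v i)ᴴ * v i = 1)
    (y : Q → Matrix Bool Bool ℂ) (hy : ProjFam y) :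
    ProjFam (fun i => (v i)ᴴ * y i * v i) := by
  intro i
  refine ⟨isProj_conj_small (v i) (y i) (hv i) (hy i).1, ?_⟩
  rcases (hy i).2 with h | h
  · left
    show (v i)ᴴ * y i * v i = 1
    rw [h, Matrix.mul_one, hv i]
  · right
    show ((v i)ᴴ * y i * v i).trace = 1
    rw [trace_conj_small (v i) (y i) (hv i), h]

/-- Core estimate: for a circuit in the normal form
`U2 T2 U1 T1 U0` (two layers of reflections about product states with pairwise disjoint
supports, interleaved with layers of one-qubit unitaries), the signed sum over inputs of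
the probability of a one-qubit measurement outcome is at most `3 * sqrt 2 ^ |I|`. -/
theorem core (v0 v1 v2 : Q → Matrix Bool Bool ℂ) (h0 : ∀ i, (v0 i)ᴴ * v0 i = 1)
    (h1 : ∀ i, (v1 i)ᴴ * v1 i = 1) (h2 : ∀ i, (v2 i)ᴴ * v2 i = 1)
    (L1 L2 : List (Finset Q × (Q → Matrix Bool Bool ℂ))) (hL1 : GoodList L1) (hL2 : GoodList L2)
    (I : Finset Q) (q : Q) (m : Matrix Bool Bool ℂ) (hm : IsProj m) (hm1 : m.trace = 1) :
    ‖(op (Function.update (fun _ => (1 : Matrix Bool Bool ℂ)) q m)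
        * (op v2 * prodR L2 * op v1 * prodR L1 * op v0)
        * Matrix.diagonal (fun s : Q → Bool => ((rz I s : ℝ) : ℂ))
        * (op v2 * prodR L2 * op v1 * prodR L1 * op v0)ᴴ).trace‖ ≤ 3 * Real.sqrt 2 ^ I.card := by
  set M := op (Function.update (fun _ => (1 : Matrix Bool Bool ℂ)) q m) with hM
  set D := Matrix.diagonal (fun s : Q → Bool => ((rz I s : ℝ) : ℂ)) with hD
  have hCH : (op v2 * prodR L2 * op v1 * prodR L1 * op v0)ᴴ
      = (op v0)ᴴ * prodRrev L1 * (op v1)ᴴ * prodRrev L2 * (op v2)ᴴ := by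
    simp only [Matrix.conjTranspose_mul, prodR_conjTranspose L1 hL1.1,
      prodR_conjTranspose L2 hL2.1, Matrix.mul_assoc]
  have hX : op (cfam v0 (zd I)) = op v0 * D * (op v0)ᴴ := by
    rw [op_cfam]
    rfl
  have hre : M * (op v2 * prodR L2 * op v1 * prodR L1 * op v0) * D
        * ((op v0)ᴴ * prodRrev L1 * (op v1)ᴴ * prodRrev L2 * (op v2)ᴴ)
      = (M * op v2 * prodR L2 * op v1) * (prodR L1 * op (cfam v0 (zd I)) * prodRrev L1)
        * ((op v1)ᴴ * prodRrev L2 * (op v2)ᴴ) := by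
    rw [hX]
    simp only [Matrix.mul_assoc]
  rw [hCH, hre, Matrix.trace_mul_cycle]
  set m0 := (v2 q)ᴴ * m * v2 q with hm0
  have hM2 : (op v2)ᴴ * M * op v2 = op (Function.update (fun _ => (1 : Matrix Bool Bool ℂ)) q m0) := by
    rw [hM, op_conjTranspose, op_mul, op_mul]
    congr 1
    funext i
    by_cases h : i = q
    · subst h
      simp [hm0]
    · simp [Function.update_of_ne h, h2 i]
  have hm0p : IsProj m0 := isProj_conj_small (v2 q) m (h2 q) hm
  have hm0t : m0.trace = 1 := by rw [hm0, trace_conj_small (v2 q) m (h2 q), hm1]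
  obtain ⟨y1, y2, hy1, hy2, htop⟩ := top_layer q m0 hm0p hm0t L2 hL2
  have hmid : ((op v1)ᴴ * prodRrev L2 * (op v2)ᴴ) * (M * op v2 * prodR L2 * op v1)
      = op (fun i => (v1 i)ᴴ * (Function.update (fun _ => (1 : Matrix Bool Bool ℂ)) q m0) i * v1 i)
        + op (fun i => (v1 i)ᴴ * y1 i * v1 i) - op (fun i => (v1 i)ᴴ * y2 i * v1 i) := by
    calc ((op v1)ᴴ * prodRrev L2 * (op v2)ᴴ) * (M * op v2 * prodR L2 * op v1)
        = (op v1)ᴴ * (prodRrev L2 * ((op v2)ᴴ * M * op v2) * prodR L2) * op v1 := by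
          simp only [Matrix.mul_assoc]
      _ = (op v1)ᴴ * (op (Function.update (fun _ => (1 : Matrix Bool Bool ℂ)) q m0)
            + op y1 - op y2) * op v1 := by rw [hM2, htop]
      _ = op (fun i => (v1 i)ᴴ * (Function.update (fun _ => (1 : Matrix Bool Bool ℂ)) q m0) i * v1 i)
          + op (fun i => (v1 i)ᴴ * y1 i * v1 i) - op (fun i => (v1 i)ᴴ * y2 i * v1 i) := by
          rw [Matrix.mul_sub, Matrix.mul_add, Matrix.sub_mul, Matrix.add_mul, op_conjTranspose]
          simp only [op_mul]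
  rw [hmid, Matrix.sub_mul, Matrix.add_mul, Matrix.trace_sub, Matrix.trace_add]
  have hb : ∀ y : Q → Matrix Bool Bool ℂ, ProjFam y →
      ‖(op (fun i => (v1 i)ᴴ * y i * v1 i)
          * (prodR L1 * op (cfam v0 (zd I)) * prodRrev L1)).trace‖ ≤ Real.sqrt 2 ^ I.card := by
    intro y hy
    have h := single_bound v0 h0 I L1 hL1 _ (projFam_conj v1 h1 y hy)
    simpa only [Matrix.mul_assoc] using h
  have b0 := hb _ (projFam_update_one q m0 hm0p hm0t)
  have b1 := hb y1 hy1
  have b2 := hb y2 hy2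
  refine (norm_sub_le _ _).trans ?_
  refine (add_le_add (norm_add_le _ _) le_rfl).trans ?_
  linarith

end Vale.Agent.H98.QAC
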