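import Mathlib
import Vale.Agent.H98.QAC.Basic
import Vale.Agent.H98.QAC.Abs
import Vale.Agent.H98.QAC.Block
import Vale.Agent.H98.QAC.Factor
import Vale.Agent.H98.QAC.Core
import Vale.Agent.H98.QAC.Top
import Vale.Agent.H98.QAC.Main
import Vale.Agent.H98.QAC.Circuit

namespace Vale.Agent.H98.QAC

open Matrix

set_option linter.unusedSectionVars false

variable {Q : Type} [Fintype Q] [DecidableEq Q]

theorem oneQubit_matrix_eq (i : Q) (u : Matrix Bool Bool ℂ) :
    (Gate.oneQubit i u).matrix = op (Function.update (fun _ => (1 : Matrix Bool Bool ℂ)) i u) := by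
  ext s t
  rw [op_update_apply]
  simp only [Gate.matrix, Matrix.of_apply, Matrix.one_apply]
  rw [Finset.prod_boole]
  by_cases h : ∀ j, j ≠ i → s j = t j
  · have h' : ∀ j ∈ Finset.univ.erase i, s j = t j := fun j hj => h j (Finset.ne_of_mem_erase hj)
    rw [if_pos h, if_pos h', mul_one]
  · have h' : ¬ ∀ j ∈ Finset.univ.erase i, s j = t j := by
      intro h'
      exact h (fun j hj => h' j (Finset.mem_erase.mpr ⟨hj, Finset.mem_univ j⟩))
    rw [if_neg h, if_neg h', mul_zero]

/-- the vector `|1>` -/
def e1v : Bool → ℂ := fun c => if c then 1 else 0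

/-- the vector `|->` -/
noncomputable def mv : Bool → ℂ :=
  fun c => if c then -((Real.sqrt 2 : ℝ) : ℂ)⁻¹ else ((Real.sqrt 2 : ℝ) : ℂ)⁻¹

theorem e1v_unit : star e1v ⬝ᵥ e1v = 1 := by
  simp [dotProduct, e1v]

theorem sqrt2_inv_sq : ((Real.sqrt 2 : ℝ) : ℂ)⁻¹ * ((Real.sqrt 2 : ℝ) : ℂ)⁻¹ = 1 / 2 := by
  rw [← mul_inv, ← Complex.ofReal_mul, Real.mul_self_sqrt (by norm_num)]
  norm_num

theorem mv_unit : star mv ⬝ᵥ mv = 1 := by
  simp only [dotProduct, mv, Fintype.sum_bool, Pi.star_apply]
  simp only [if_true, Bool.false_eq_true, if_false, star_neg, star_inv₀, Complex.star_def,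
    Complex.conj_ofReal, neg_mul_neg, sqrt2_inv_sq]
  norm_num

theorem e1v_entry (x y : Bool) :
    Matrix.vecMulVec e1v (star e1v) x y = if x = true ∧ y = true then 1 else 0 := by
  cases x <;> cases y <;> simp [Matrix.vecMulVec_apply, e1v]

theorem mv_entry (x y : Bool) :
    Matrix.vecMulVec mv (star mv) x y = if x = y then 1 / 2 else -(1 / 2) := by
  cases x <;> cases y <;>
    simp only [Matrix.vecMulVec_apply, mv, Pi.star_apply, if_true, Bool.false_eq_true, if_false,
      star_neg, star_inv₀, Complex.star_def, Complex.conj_ofReal, sqrt2_inv_sq,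
      neg_mul, mul_neg, reduceCtorEq] <;> simp

/-- One-qubit factors of the projector `|1..1><1..1| (x) |-><-|` of a generalized Toffoli. -/
noncomputable def tofP (S : Finset Q) (b : Q) (i : Q) : Matrix Bool Bool ℂ :=
  if i ∈ S then Matrix.vecMulVec e1v (star e1v)
  else if i = b then Matrix.vecMulVec mv (star mv) else 1

theorem op_tofP_apply (S : Finset Q) (b : Q) (hb : b ∉ S) (s t : Q → Bool) :
    op (tofP S b) s t =
      if (∀ i ∈ S, s i = true ∧ t i = true) ∧ (∀ j, j ∉ S → j ≠ b → s j = t j)
      then (if s b = t b then 1 / 2 else -(1 / 2)) else 0 := by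
  rw [op_apply]
  by_cases h1 : (∀ i ∈ S, s i = true ∧ t i = true) ∧ (∀ j, j ∉ S → j ≠ b → s j = t j)
  · rw [if_pos h1, Finset.prod_eq_single b]
    · simp only [tofP, if_neg hb, if_true, mv_entry]
    · intro j _ hj
      by_cases hjS : j ∈ S
      · simp only [tofP, if_pos hjS, e1v_entry, if_pos (h1.1 j hjS)]
      · simp only [tofP, if_neg hjS, if_neg hj, Matrix.one_apply, if_pos (h1.2 j hjS hj)]
    · intro h
      exact absurd (Finset.mem_univ b) h
  · rw [if_neg h1]
    rw [not_and_or] at h1
    rcases h1 with h | h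
    · simp only [not_forall] at h
      obtain ⟨i, hiS, hi⟩ := h
      apply Finset.prod_eq_zero (Finset.mem_univ i)
      simp only [tofP, if_pos hiS, e1v_entry, if_neg hi]
    · simp only [not_forall] at h
      obtain ⟨j, hjS, hjb, hj⟩ := h
      apply Finset.prod_eq_zero (Finset.mem_univ j)
      simp only [tofP, if_neg hjS, if_neg hjb, Matrix.one_apply, if_neg hj]

theorem toffoli_matrix_eq (S : Finset Q) (b : Q) (hb : b ∉ S) :
    (Gate.toffoli S b).matrix = refl (tofP S b) := by
  ext s t
  simp only [Gate.matrix, Matrix.of_apply, refl, Matrix.sub_apply, Matrix.smul_apply,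
    Matrix.one_apply, op_tofP_apply S b hb]
  by_cases hc : ∀ i ∈ S, t i = true
  · have hdec : decide (∀ i ∈ S, t i = true) = true := decide_eq_true hc
    rw [hdec, Bool.xor_true]
    by_cases hcond : (∀ i ∈ S, s i = true ∧ t i = true) ∧ (∀ j, j ∉ S → j ≠ b → s j = t j)
    · rw [if_pos hcond]
      have hoff : ∀ j, j ≠ b → s j = t j := by
        intro j hj
        by_cases hjS : j ∈ S
        · rw [(hcond.1 j hjS).1, (hcond.1 j hjS).2]
        · exact hcond.2 j hjS hj
      by_cases hsb : s b = t b
      · have hst : s = t := by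
          funext j
          by_cases hj : j = b
          · rw [hj]
            exact hsb
          · exact hoff j hj
        have hne : s ≠ Function.update t b (!t b) := by
          intro h
          have h' := congrFun h b
          rw [Function.update_self, hsb] at h'
          cases h'' : t b <;> simp [h''] at h'
        rw [if_neg hne, if_pos hst, if_pos hsb]
        norm_num
      · have hst : s ≠ t := fun h => hsb (by rw [h])
        have heq : s = Function.update t b (!t b) := by
          funext j
          by_cases hj : j = b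
          · subst hj
            rw [Function.update_self]
            cases h1 : s j <;> cases h2 : t j <;> simp_all
          · rw [Function.update_of_ne hj]
            exact hoff j hj
        rw [if_pos heq, if_neg hst, if_neg hsb]
        norm_num
    · rw [if_neg hcond]
      have h1 : s ≠ t := by
        intro h
        subst h
        exact hcond ⟨fun i hi => ⟨hc i hi, hc i hi⟩, fun j _ _ => rfl⟩
      have h2 : s ≠ Function.update t b (!t b) := by
        intro h
        apply hcond
        refine ⟨fun i hi => ?_, fun j hjS hjb => ?_⟩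
        · have hib : i ≠ b := fun e => hb (e ▸ hi)
          have hsi : s i = t i := by rw [h, Function.update_of_ne hib]
          exact ⟨hsi ▸ hc i hi, hc i hi⟩
        · rw [h, Function.update_of_ne hjb]
      rw [if_neg h1, if_neg h2]
      simp
  · have hdec : decide (∀ i ∈ S, t i = true) = false := decide_eq_false hc
    rw [hdec, Bool.xor_false, Function.update_eq_self]
    have hcond : ¬((∀ i ∈ S, s i = true ∧ t i = true) ∧ (∀ j, j ∉ S → j ≠ b → s j = t j)) := by
      intro h
      exact hc (fun i hi => (h.1 i hi).2)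
    rw [if_neg hcond]
    simp

theorem tofP_gateOK (S : Finset Q) (b : Q) (hb : b ∉ S) :
    GateOK ((insert b S, tofP S b) : Finset Q × (Q → Matrix Bool Bool ℂ)) := by
  constructor
  · intro i hi
    rw [Finset.mem_insert, not_or] at hi
    simp only [tofP, if_neg hi.2, if_neg hi.1]
  · intro i hi
    by_cases hiS : i ∈ S
    · exact ⟨e1v, e1v_unit, by simp only [tofP, if_pos hiS]⟩
    · have hib : i = b := by
        rcases Finset.mem_insert.mp hi with h | h
        · exact h
        · exact absurd h hiS
      exact ⟨mv, mv_unit, by simp only [tofP, if_neg hiS, if_pos hib]⟩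

theorem unitary_update (i : Q) (u : Matrix Bool Bool ℂ) (hu : u ∈ Matrix.unitaryGroup Bool ℂ) (j : Q) :
    (Function.update (fun _ => (1 : Matrix Bool Bool ℂ)) i u j)ᴴ
      * Function.update (fun _ => (1 : Matrix Bool Bool ℂ)) i u j = 1 := by
  by_cases h : j = i
  · subst h
    rw [Function.update_self]
    exact Matrix.mem_unitaryGroup_iff'.mp hu
  · rw [Function.update_of_ne h]
    simp

theorem op_comm_prodR (B : Finset Q) (z : Q → Matrix Bool Bool ℂ) (hz : ∀ i, i ∉ B → z i = 1) :
    ∀ L : List (Finset Q × (Q → Matrix Bool Bool ℂ)), (∀ g ∈ L, GateOK g) →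
      (∀ g ∈ L, Disjoint B g.1) → op z * prodR L = prodR L * op z
  | [], _, _ => by simp [prodR_nil]
  | g :: L, h, hd => by
      have hg := h g (by simp)
      have hc : op z * refl g.2 = refl g.2 * op z := by
        apply op_comm_refl
        intro i
        by_cases hi : i ∈ g.1
        · have hiB : i ∉ B := fun hB => Finset.disjoint_left.mp (hd g (by simp)) hB hi
          rw [hz i hiB, Matrix.one_mul, Matrix.mul_one]
        · rw [hg.1 i hi, Matrix.one_mul, Matrix.mul_one]
      rw [prodR_cons, ← Matrix.mul_assoc, hc, Matrix.mul_assoc,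
        op_comm_prodR B z hz L (fun g' hg' => h g' (by simp [hg']))
          (fun g' hg' => hd g' (by simp [hg'])), Matrix.mul_assoc]

theorem layer_nf : ∀ l : List (Gate Q), IsLayer l →
    ∃ (v : Q → Matrix Bool Bool ℂ) (L : List (Finset Q × (Q → Matrix Bool Bool ℂ))),
      (∀ j, (v j)ᴴ * v j = 1) ∧ GoodList L ∧ (∀ g' ∈ L, ∃ g0 ∈ l, g'.1 = g0.support) ∧
      (l.any Gate.isMultiQubit = false → L = []) ∧ layerMatrix l = prodR L * op v
  | [], _ => ⟨fun _ => 1, [], by simp, ⟨by simp, List.Pairwise.nil⟩, by simp, fun _ => rfl, by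
      simp [layerMatrix, prodR_nil, op_one]⟩
  | g :: l, h => by
      have hpw := List.pairwise_cons.mp h.2
      obtain ⟨v, L, hv, hL, hsup, hany, hmat⟩ :=
        layer_nf l ⟨fun g' hg' => h.1 g' (by simp [hg']), hpw.2⟩
      have hlm : layerMatrix (g :: l) = g.matrix * layerMatrix l := by simp [layerMatrix]
      cases g with
      | oneQubit i u =>
          have hu : u ∈ Matrix.unitaryGroup Bool ℂ := h.1 (Gate.oneQubit i u) (by simp)
          refine ⟨fun j => Function.update (fun _ => (1 : Matrix Bool Bool ℂ)) i u j * v j, L,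
            ?_, hL, ?_, ?_, ?_⟩
          · intro j
            rw [Matrix.conjTranspose_mul, Matrix.mul_assoc, ← Matrix.mul_assoc _ _ (v j),
              unitary_update i u hu j, Matrix.one_mul, hv j]
          · intro g' hg'
            obtain ⟨g0, hg0, e⟩ := hsup g' hg'
            exact ⟨g0, by simp [hg0], e⟩
          · intro hh
            apply hany
            simpa [Gate.isMultiQubit] using hh
          · have hz : ∀ j, j ∉ ({i} : Finset Q) →
                Function.update (fun _ => (1 : Matrix Bool Bool ℂ)) i u j = 1 := by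
              intro j hj
              rw [Function.update_of_ne (by simpa using hj)]
            have hdj : ∀ g' ∈ L, Disjoint ({i} : Finset Q) g'.1 := by
              intro g' hg'
              obtain ⟨g0, hg0, e⟩ := hsup g' hg'
              rw [e]
              exact hpw.1 g0 hg0
            rw [hlm, hmat, oneQubit_matrix_eq, ← Matrix.mul_assoc,
              op_comm_prodR {i} _ hz L hL.1 hdj, Matrix.mul_assoc, op_mul]
      | toffoli S b =>
          have hval : S.Nonempty ∧ b ∉ S := h.1 (Gate.toffoli S b) (by simp)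
          refine ⟨v, (insert b S, tofP S b) :: L, hv, ?_, ?_, ?_, ?_⟩
          · refine ⟨?_, List.pairwise_cons.mpr ⟨?_, hL.2⟩⟩
            · intro g' hg'
              rcases List.mem_cons.mp hg' with e | e
              · rw [e]
                exact tofP_gateOK S b hval.2
              · exact hL.1 g' e
            · intro g' hg'
              obtain ⟨g0, hg0, e⟩ := hsup g' hg'
              rw [e]
              exact hpw.1 g0 hg0
          · intro g' hg'
            rcases List.mem_cons.mp hg' with e | e
            · exact ⟨Gate.toffoli S b, by simp, by rw [e]; rfl⟩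
            · obtain ⟨g0, hg0, e'⟩ := hsup g' e
              exact ⟨g0, by simp [hg0], e'⟩
          · intro hh
            simp [Gate.isMultiQubit] at hh
          · rw [hlm, hmat, toffoli_matrix_eq S b hval.2, prodR_cons, Matrix.mul_assoc]

/-- Normal forms: `d` layers of reflections about product states interleaved with layers of
one-qubit unitaries. -/
def IsNF : ℕ → Matrix (Q → Bool) (Q → Bool) ℂ → Prop
  | 0, M => ∃ v : Q → Matrix Bool Bool ℂ, (∀ j, (v j)ᴴ * v j = 1) ∧ M = op v
  | d + 1, M => ∃ (M' : Matrix (Q → Bool) (Q → Bool) ℂ)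
      (L : List (Finset Q × (Q → Matrix Bool Bool ℂ))) (v : Q → Matrix Bool Bool ℂ),
      IsNF d M' ∧ GoodList L ∧ (∀ j, (v j)ᴴ * v j = 1) ∧ M = M' * prodR L * op v

theorem unitary_mul_small (a b : Matrix Bool Bool ℂ) (ha : aᴴ * a = 1) (hb : bᴴ * b = 1) :
    (a * b)ᴴ * (a * b) = 1 := by
  rw [Matrix.conjTranspose_mul, Matrix.mul_assoc, ← Matrix.mul_assoc aᴴ, ha, Matrix.one_mul, hb]

theorem IsNF.mul_op : ∀ (d : ℕ) (M : Matrix (Q → Bool) (Q → Bool) ℂ), IsNF d M →
    ∀ v : Q → Matrix Bool Bool ℂ, (∀ j, (v j)ᴴ * v j = 1) → IsNF d (M * op v)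
  | 0, M, ⟨v0, hv0, e⟩, v, hv =>
      ⟨fun j => v0 j * v j, fun j => unitary_mul_small _ _ (hv0 j) (hv j), by rw [e, op_mul]⟩
  | d + 1, M, ⟨M', L, v0, hM', hL, hv0, e⟩, v, hv =>
      ⟨M', L, fun j => v0 j * v j, hM', hL, fun j => unitary_mul_small _ _ (hv0 j) (hv j), by
        rw [e, Matrix.mul_assoc, op_mul]⟩

theorem IsNF.succ (d : ℕ) (M : Matrix (Q → Bool) (Q → Bool) ℂ) (h : IsNF d M) : IsNF (d + 1) M :=
  ⟨M, [], fun _ => 1, h, ⟨by simp, List.Pairwise.nil⟩, by simp, by simp [prodR_nil, op_one]⟩

theorem IsNF.mono {d d' : ℕ} (hdd : d ≤ d') (M : Matrix (Q → Bool) (Q → Bool) ℂ) (h : IsNF d M) :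
    IsNF d' M := by
  induction hdd with
  | refl => exact h
  | step _ ih => exact IsNF.succ _ M ih

theorem circuit_nf : ∀ c : List (List (Gate Q)), (∀ l ∈ c, IsLayer l) →
    IsNF (entanglingDepth c) (circuitMatrix c)
  | [], _ => ⟨fun _ => 1, by simp, by simp [circuitMatrix, op_one]⟩
  | l :: c, h => by
      have IH := circuit_nf c (fun l' hl' => h l' (by simp [hl']))
      obtain ⟨v, L, hv, hL, _, hany, hmat⟩ := layer_nf l (h l (by simp))
      have hcm : circuitMatrix (l :: c) = circuitMatrix c * layerMatrix l := by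
        simp [circuitMatrix]
      by_cases ha : l.any Gate.isMultiQubit = true
      · have hd : entanglingDepth (l :: c) = entanglingDepth c + 1 := by
          simp [entanglingDepth, ha]
        rw [hd, hcm, hmat, ← Matrix.mul_assoc]
        exact ⟨circuitMatrix c, L, v, IH, hL, hv, rfl⟩
      · have ha' : l.any Gate.isMultiQubit = false := by simpa using ha
        have hd : entanglingDepth (l :: c) = entanglingDepth c := by
          simp [entanglingDepth, ha']
        rw [hd, hcm, hmat, hany ha', prodR_nil, Matrix.one_mul]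
        exact IsNF.mul_op _ _ IH v hv

theorem nf_two (M : Matrix (Q → Bool) (Q → Bool) ℂ) (h : IsNF 2 M) :
    ∃ (v0 v1 v2 : Q → Matrix Bool Bool ℂ) (L1 L2 : List (Finset Q × (Q → Matrix Bool Bool ℂ))),
      (∀ j, (v0 j)ᴴ * v0 j = 1) ∧ (∀ j, (v1 j)ᴴ * v1 j = 1) ∧ (∀ j, (v2 j)ᴴ * v2 j = 1) ∧
      GoodList L1 ∧ GoodList L2 ∧ M = op v2 * prodR L2 * op v1 * prodR L1 * op v0 := by
  obtain ⟨M1, L1, v0, hM1, hL1, hv0, e1⟩ := h
  obtain ⟨M2, L2, v1, hM2, hL2, hv1, e2⟩ := hM1
  obtain ⟨v2, hv2, e3⟩ := hM2
  exact ⟨v0, v1, v2, L1, L2, hv0, hv1, hv2, hL1, hL2, by rw [e1, e2, e3]⟩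

end Vale.Agent.H98.QAC
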