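import Mathlib
import Vale.Agent.H98.QAC.Basic
import Vale.Agent.H98.QAC.Abs
import Vale.Agent.H98.QAC.Block
import Vale.Agent.H98.QAC.Factor
import Vale.Agent.H98.QAC.Core
import Vale.Agent.H98.QAC.Top
import Vale.Agent.H98.QAC.Main
import Vale.Agent.H98.QAC.Circuit
import Vale.Agent.H98.QAC.NF

namespace Vale.Agent.H98.QAC

open Matrix

set_option linter.unusedSectionVars false

section general

variable {Q : Type} [Fintype Q] [DecidableEq Q]

/-- the projector onto outcome `b` of one qubit -/
def measP (b : Bool) : Matrix Bool Bool ℂ := Matrix.diagonal (fun c => if c = b then 1 else 0)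

theorem measP_isProj (b : Bool) : IsProj (measP b) := by
  unfold measP
  constructor
  · rw [Matrix.diagonal_conjTranspose]
    congr 1
    funext c
    by_cases h : c = b <;> simp [h]
  · rw [Matrix.diagonal_mul_diagonal]
    congr 1
    funext c
    by_cases h : c = b <;> simp [h]

theorem measP_trace (b : Bool) : (measP b).trace = 1 := by
  unfold measP
  rw [Matrix.trace_diagonal, Fintype.sum_bool]
  cases b <;> simp

theorem op_measP (q : Q) (b : Bool) :
    op (Function.update (fun _ => (1 : Matrix Bool Bool ℂ)) q (measP b))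
      = Matrix.diagonal (fun s : Q → Bool => if s q = b then (1 : ℂ) else 0) := by
  have h : Function.update (fun _ => (1 : Matrix Bool Bool ℂ)) q (measP b)
      = fun i => Matrix.diagonal (fun c => if i = q then (if c = b then (1 : ℂ) else 0) else 1) := by
    funext i
    by_cases hi : i = q
    · subst hi
      simp [measP]
    · rw [Function.update_of_ne hi]
      simp [hi]
  rw [h, op_diagonal]
  congr 1
  funext s
  rw [Finset.prod_eq_single q]
  · simp
  · intro j _ hj
    simp [hj]
  · intro hq
    exact absurd (Finset.mem_univ q) hq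

theorem trace_prob (C : Matrix (Q → Bool) (Q → Bool) ℂ) (q : Q) (b : Bool)
    (ρ : (Q → Bool) → ℝ) :
    (op (Function.update (fun _ => (1 : Matrix Bool Bool ℂ)) q (measP b)) * C
        * Matrix.diagonal (fun s : Q → Bool => ((ρ s : ℝ) : ℂ)) * Cᴴ).trace
      = ((∑ t : Q → Bool, ρ t * outProb C q t b : ℝ) : ℂ) := by
  rw [op_measP]
  have e : ∀ s t : Q → Bool,
      (Matrix.diagonal (fun s : Q → Bool => if s q = b then (1 : ℂ) else 0) * C
        * Matrix.diagonal (fun s : Q → Bool => ((ρ s : ℝ) : ℂ))) s t
        = (if s q = b then (1 : ℂ) else 0) * C s t * ((ρ t : ℝ) : ℂ) := by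
    intro s t
    rw [Matrix.mul_diagonal, Matrix.diagonal_mul]
  have e2 : ∀ s : Q → Bool,
      (Matrix.diagonal (fun s : Q → Bool => if s q = b then (1 : ℂ) else 0) * C
        * Matrix.diagonal (fun s : Q → Bool => ((ρ s : ℝ) : ℂ)) * Cᴴ) s s
        = ∑ t : Q → Bool, (if s q = b then (1 : ℂ) else 0) * C s t * ((ρ t : ℝ) : ℂ) * star (C s t) := by
    intro s
    rw [Matrix.mul_apply]
    refine Finset.sum_congr rfl (fun t _ => ?_)
    rw [e, Matrix.conjTranspose_apply]
  simp only [Matrix.trace, Matrix.diag_apply, e2]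
  rw [Finset.sum_comm]
  push_cast
  refine Finset.sum_congr rfl (fun t _ => ?_)
  unfold outProb
  push_cast
  rw [Finset.mul_sum]
  refine Finset.sum_congr rfl (fun s _ => ?_)
  have hn : C s t * star (C s t) = ((‖C s t‖ ^ 2 : ℝ) : ℂ) := by
    rw [Complex.star_def, Complex.mul_conj, Complex.normSq_eq_norm_sq]
  by_cases h : s q = b
  · simp only [if_pos h, one_mul]
    rw [mul_comm (C s t) _, mul_assoc, hn]
  · simp [h]

end general

section parity

variable {n : ℕ} {A : Type} [Fintype A] [DecidableEq A]

/-- the set of input qubits -/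
def inputSet (n : ℕ) (A : Type) [Fintype A] [DecidableEq A] : Finset (Fin n ⊕ A) :=
  Finset.univ.map ⟨Sum.inl, Sum.inl_injective⟩

theorem card_inputSet : (inputSet n A).card = n := by
  simp [inputSet]

/-- the parity character -/
def chi (x : Fin n → Bool) : ℝ := ∏ i, (if x i = true then (-1 : ℝ) else 1)

theorem chi_eq (x : Fin n → Bool) : chi x = if parity x = true then -1 else 1 := by
  unfold chi parity
  rw [Finset.prod_ite, Finset.prod_const, Finset.prod_const_one, mul_one]
  by_cases h : Odd (Finset.univ.filter (fun i => x i = true)).card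
  · simp [h, Odd.neg_one_pow h]
  · simp [h, Even.neg_one_pow (Nat.not_odd_iff_even.mp h)]

theorem rz_inputSet (t : Fin n ⊕ A → Bool) :
    rz (inputSet n A) t
      = chi (fun i => t (Sum.inl i)) * (if (∀ a, t (Sum.inr a) = false) then 1 else 0) := by
  unfold rz chi
  rw [Fintype.prod_sum_type]
  congr 1
  · refine Finset.prod_congr rfl (fun i _ => ?_)
    simp [zd, inputSet]
  · have hb : (if ∀ a : A, t (Sum.inr a) = false then (1 : ℝ) else 0)
        = ∏ a : A, (if t (Sum.inr a) = false then (1 : ℝ) else 0) := by
      rw [Finset.prod_boole]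
      simp
    rw [hb]
    refine Finset.prod_congr rfl (fun a _ => ?_)
    cases h : t (Sum.inr a) <;> simp [zd, inputSet]

theorem sum_rz_inputSet (f : (Fin n ⊕ A → Bool) → ℝ) :
    ∑ t : Fin n ⊕ A → Bool, rz (inputSet n A) t * f t
      = ∑ x : Fin n → Bool, chi x * f (inputState x) := by
  rw [← Fintype.sum_equiv (Equiv.sumArrowEquivProdArrow (Fin n) A Bool).symm
    (fun p => rz (inputSet n A) (Sum.elim p.1 p.2) * f (Sum.elim p.1 p.2))
    (fun t => rz (inputSet n A) t * f t) (fun p => rfl)]
  rw [Fintype.sum_prod_type]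
  refine Finset.sum_congr rfl (fun x _ => ?_)
  rw [Finset.sum_eq_single (fun _ : A => false)]
  · rw [rz_inputSet]
    simp [inputState]
  · intro a _ ha
    rw [rz_inputSet]
    have h : ¬ ∀ a' : A, Sum.elim x a (Sum.inr a') = false := by
      intro h
      apply ha
      funext a'
      simpa using h a'
    rw [if_neg h]
    simp
  · intro h
    exact absurd (Finset.mem_univ _) h

end parity

end Vale.Agent.H98.QAC
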