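import Mathlib
import Vale.Agent.H98.QAC.Basic
import Vale.Agent.H98.QAC.Abs
import Vale.Agent.H98.QAC.Block
import Vale.Agent.H98.QAC.Factor
import Vale.Agent.H98.QAC.Core
import Vale.Agent.H98.QAC.Top
import Vale.Agent.H98.QAC.Main
import Vale.Agent.H98.QAC.Circuit
import Vale.Agent.H98.QAC.NF
import Vale.Agent.H98.QAC.Prob

namespace Vale.Agent.H98.QAC

open Matrix

set_option linter.unusedSectionVars false

variable {n : ℕ} {A : Type} [Fintype A] [DecidableEq A]

theorem signed_sum_bound (c : List (List (Gate (Fin n ⊕ A)))) (hc : ∀ l ∈ c, IsLayer l)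
    (hd : entanglingDepth c ≤ 2) (q : Fin n ⊕ A) (b : Bool) :
    |∑ x : Fin n → Bool, chi x * outProb (circuitMatrix c) q (inputState x) b|
      ≤ 3 * Real.sqrt 2 ^ n := by
  obtain ⟨v0, v1, v2, L1, L2, h0, h1, h2, hL1, hL2, hC⟩ :=
    nf_two _ (IsNF.mono hd _ (circuit_nf c hc))
  have hcore := core v0 v1 v2 h0 h1 h2 L1 L2 hL1 hL2 (inputSet n A) q (measP b)
    (measP_isProj b) (measP_trace b)
  rw [← hC, trace_prob, card_inputSet, sum_rz_inputSet, Complex.norm_real,
    Real.norm_eq_abs] at hcore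
  exact hcore

theorem correlation_split (C : Matrix (Fin n ⊕ A → Bool) (Fin n ⊕ A → Bool) ℂ) (q : Fin n ⊕ A) :
    ∑ x : Fin n → Bool,
        (outProb C q (inputState x) (parity x) - outProb C q (inputState x) (!(parity x)))
      = (∑ x : Fin n → Bool, chi x * outProb C q (inputState x) false)
        - ∑ x : Fin n → Bool, chi x * outProb C q (inputState x) true := by
  rw [← Finset.sum_sub_distrib]
  refine Finset.sum_congr rfl (fun x _ => ?_)
  rw [chi_eq]
  cases h : parity x
  · simp
  · simp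
    ring

/-- Parity correlation of entangling-depth-two circuits is at most `6 * 2 ^ (-n/2)`. -/
theorem depth2_parity_correlation (c : List (List (Gate (Fin n ⊕ A))))
    (hc : ∀ l ∈ c, IsLayer l) (hd : entanglingDepth c ≤ 2) (q : Fin n ⊕ A) :
    |parityCorrelation (circuitMatrix c) q| ≤ 6 / Real.sqrt 2 ^ n := by
  have hf := signed_sum_bound c hc hd q false
  have ht := signed_sum_bound c hc hd q true
  unfold parityCorrelation
  rw [correlation_split, abs_div, abs_of_pos (by positivity : (0 : ℝ) < 2 ^ n)]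
  have hs : (0 : ℝ) < Real.sqrt 2 ^ n := by positivity
  have h2n : (2 : ℝ) ^ n = Real.sqrt 2 ^ n * Real.sqrt 2 ^ n := by
    rw [← mul_pow, Real.mul_self_sqrt (by norm_num)]
  rw [div_le_div_iff₀ (by positivity) hs]
  have habs := abs_sub (∑ x : Fin n → Bool, chi x * outProb (circuitMatrix c) q (inputState x) false)
    (∑ x : Fin n → Bool, chi x * outProb (circuitMatrix c) q (inputState x) true)
  rw [h2n]
  nlinarith [abs_nonneg ((∑ x : Fin n → Bool, chi x * outProb (circuitMatrix c) q (inputState x) false)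
    - ∑ x : Fin n → Bool, chi x * outProb (circuitMatrix c) q (inputState x) true)]

theorem prodR_unitary {Q : Type} [Fintype Q] [DecidableEq Q]
    (L : List (Finset Q × (Q → Matrix Bool Bool ℂ))) (hL : GoodList L) :
    (prodR L)ᴴ * prodR L = 1 := by
  rw [prodR_conjTranspose L hL.1]
  have h := comm_through (∅ : Finset Q) (fun _ => (1 : Matrix Bool Bool ℂ)) (fun _ _ => rfl) L hL.1
    (fun g _ => Finset.disjoint_empty_left _)
  rw [op_one, Matrix.mul_one] at h
  exact h

theorem unitary_mul_big {ι : Type} [Fintype ι] [DecidableEq ι] (M N : Matrix ι ι ℂ)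
    (hM : Mᴴ * M = 1) (hN : Nᴴ * N = 1) : (M * N)ᴴ * (M * N) = 1 := by
  rw [Matrix.conjTranspose_mul, Matrix.mul_assoc, ← Matrix.mul_assoc Mᴴ, hM, Matrix.one_mul, hN]

theorem circuit_unitary (c : List (List (Gate (Fin n ⊕ A)))) (hc : ∀ l ∈ c, IsLayer l)
    (hd : entanglingDepth c ≤ 2) : (circuitMatrix c)ᴴ * circuitMatrix c = 1 := by
  obtain ⟨v0, v1, v2, L1, L2, h0, h1, h2, hL1, hL2, hC⟩ :=
    nf_two _ (IsNF.mono hd _ (circuit_nf c hc))
  rw [hC]
  exact unitary_mul_big _ _ (unitary_mul_big _ _ (unitary_mul_big _ _ (unitary_mul_big _ _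
    (op_unitary_left v2 h2) (prodR_unitary L2 hL2)) (op_unitary_left v1 h1))
    (prodR_unitary L1 hL1)) (op_unitary_left v0 h0)

theorem outProb_add {Q : Type} [Fintype Q] [DecidableEq Q] (C : Matrix (Q → Bool) (Q → Bool) ℂ)
    (hC : Cᴴ * C = 1) (q : Q) (s0 : Q → Bool) (b : Bool) :
    outProb C q s0 b + outProb C q s0 (!b) = 1 := by
  have h1 : (Cᴴ * C) s0 s0 = 1 := by rw [hC]; simp
  rw [Matrix.mul_apply] at h1
  have h2 : ∑ s : Q → Bool, ‖C s s0‖ ^ 2 = 1 := by
    have h3 : ((∑ s : Q → Bool, ‖C s s0‖ ^ 2 : ℝ) : ℂ) = 1 := by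
      rw [← h1]
      push_cast
      refine Finset.sum_congr rfl (fun s _ => ?_)
      rw [Matrix.conjTranspose_apply, Complex.star_def, mul_comm, Complex.mul_conj,
        Complex.normSq_eq_norm_sq]
      push_cast
      rfl
    exact_mod_cast h3
  unfold outProb
  rw [← Finset.sum_add_distrib, ← h2]
  refine Finset.sum_congr rfl (fun s _ => ?_)
  cases hb : b <;> cases hs : s q <;> simp

/-- No entangling-depth-two circuit computes parity with worst-case advantage above
`3 * 2 ^ (-n/2)`. -/
theorem depth2_parity_advantage (c : List (List (Gate (Fin n ⊕ A))))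
    (hc : ∀ l ∈ c, IsLayer l) (hd : entanglingDepth c ≤ 2) (q : Fin n ⊕ A) (ε : ℝ)
    (hε : ∀ x : Fin n → Bool, 1 / 2 + ε ≤ outProb (circuitMatrix c) q (inputState x) (parity x)) :
    ε ≤ 3 / Real.sqrt 2 ^ n := by
  have hcorr := depth2_parity_correlation c hc hd q
  have hU := circuit_unitary c hc hd
  have hlow : 2 * ε ≤ parityCorrelation (circuitMatrix c) q := by
    unfold parityCorrelation
    rw [le_div_iff₀ (by positivity)]
    have hx : ∀ x : Fin n → Bool, 2 * ε ≤ outProb (circuitMatrix c) q (inputState x) (parity x)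
        - outProb (circuitMatrix c) q (inputState x) (!(parity x)) := by
      intro x
      have h1 := outProb_add (circuitMatrix c) hU q (inputState x) (parity x)
      have h2 := hε x
      linarith
    calc 2 * ε * 2 ^ n = ∑ _x : Fin n → Bool, 2 * ε := by
          rw [Finset.sum_const, Finset.card_univ, Fintype.card_fun, Fintype.card_bool,
            Fintype.card_fin, nsmul_eq_mul]
          push_cast
          ring
      _ ≤ _ := Finset.sum_le_sum (fun x _ => hx x)
  have h3 := (le_abs_self _).trans hcorr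
  have h4 : 2 * ε ≤ 6 / Real.sqrt 2 ^ n := hlow.trans h3
  have h5 : (6 : ℝ) / Real.sqrt 2 ^ n = 2 * (3 / Real.sqrt 2 ^ n) := by ring
  linarith

end Vale.Agent.H98.QAC
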