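import Mathlib
import Vale.Agent.H98.QAC.Basic
import Vale.Agent.H98.QAC.Abs
import Vale.Agent.H98.QAC.Block
import Vale.Agent.H98.QAC.Factor
import Vale.Agent.H98.QAC.Core
import Vale.Agent.H98.QAC.Top
import Vale.Agent.H98.QAC.Polar
import Vale.Agent.H98.QAC.Atom

namespace Vale.Agent.H98.QAC

open Matrix

set_option linter.unusedSectionVars false

variable {Q : Type*} [Fintype Q] [DecidableEq Q]

/-- Pushing a product of atoms through one layer of reflections: each gate that meets the
support of the product costs a factor nine. -/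
theorem mid_bound (K : Matrix (Q → Bool) (Q → Bool) ℂ) (c : ℝ) (hc : 0 ≤ c)
    (hK : ∀ x : Q → Matrix Bool Bool ℂ, AtomFam x → ‖(op x * K).trace‖ ≤ c) :
    ∀ L : List (Finset Q × (Q → Matrix Bool Bool ℂ)), GoodList L →
      ∀ (y : Q → Matrix Bool Bool ℂ), AtomFam y → ∀ T : Finset Q, (∀ i, i ∉ T → y i = 1) →
        ‖(prodRrev L * op y * prodR L * K).trace‖ ≤ 9 ^ (T ∩ suppU L).card * c
  | [], _, y, hy, T, _ => by
      simpa [prodR_nil, prodRrev_nil, suppU_nil] using hK y hy
  | g :: L, h, y, hy, T, hT => by
      have hpw := List.pairwise_cons.mp h.2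
      have hg := h.1 g (by simp)
      have hL : GoodList L := ⟨fun g' hg' => h.1 g' (by simp [hg']), hpw.2⟩
      have IH := mid_bound K c hc hK L hL
      rw [prodR_cons, prodRrev_cons]
      have hassoc : prodRrev L * refl g.2 * op y * (refl g.2 * prodR L)
          = prodRrev L * (refl g.2 * op y * refl g.2) * prodR L := by
        simp only [Matrix.mul_assoc]
      rw [hassoc]
      have hdisj : Disjoint g.1 (suppU L) := disjoint_suppU g.1 L hpw.1
      by_cases htouch : ∀ i ∈ g.1, y i = 1
      · have hc' : op y * refl g.2 = refl g.2 * op y := by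
          apply op_comm_refl
          intro i
          by_cases hi : i ∈ g.1
          · rw [htouch i hi, Matrix.one_mul, Matrix.mul_one]
          · rw [hg.1 i hi, Matrix.one_mul, Matrix.mul_one]
        rw [Matrix.mul_assoc (refl g.2), hc', ← Matrix.mul_assoc (refl g.2),
          refl_sq g.2 (fun i => (hg.projFam i).1.2), Matrix.one_mul]
        refine (IH y hy T hT).trans ?_
        apply mul_le_mul_of_nonneg_right _ hc
        apply pow_le_pow_right₀ (by norm_num)
        apply Finset.card_le_card
        rw [suppU_cons]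
        exact Finset.inter_subset_inter_left Finset.subset_union_right
      · simp only [not_forall] at htouch
        obtain ⟨i0, hi0, hyi0⟩ := htouch
        have hi0T : i0 ∈ T := by
          by_contra h'
          exact hyi0 (hT i0 h')
        rw [refl_conj]
        obtain ⟨z1, hz1, x1, hx1, hx1', e1⟩ := atomFam_mul_left g hg y hy
        obtain ⟨z2, hz2, x2, hx2, hx2', e2⟩ := atomFam_mul_right g hg y hy
        obtain ⟨z3, hz3, x3, hx3, hx3', e3⟩ := atomFam_mul_both g hg y hy
        rw [e1, e2, e3]
        have hT' : ∀ x' : Q → Matrix Bool Bool ℂ, (∀ i, i ∉ g.1 → x' i = y i) →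
            ∀ i, i ∉ T ∪ g.1 → x' i = 1 := by
          intro x' hx' i hi
          rw [Finset.mem_union, not_or] at hi
          rw [hx' i hi.2, hT i hi.1]
        have hsame : (T ∪ g.1) ∩ suppU L = T ∩ suppU L := by
          rw [Finset.union_inter_distrib_right, Finset.disjoint_iff_inter_eq_empty.mp hdisj,
            Finset.union_empty]
        have hcard : (T ∩ suppU L).card + 1 ≤ (T ∩ suppU (g :: L)).card := by
          have hnot : i0 ∉ T ∩ suppU L := by
            intro hmem
            exact Finset.disjoint_left.mp hdisj hi0 (Finset.mem_inter.mp hmem).2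
          rw [← Finset.card_insert_of_notMem hnot]
          apply Finset.card_le_card
          intro j hj
          rw [Finset.mem_insert] at hj
          rw [suppU_cons, Finset.mem_inter, Finset.mem_union]
          rcases hj with rfl | hj
          · exact ⟨hi0T, Or.inl hi0⟩
          · exact ⟨(Finset.mem_inter.mp hj).1, Or.inr (Finset.mem_inter.mp hj).2⟩
        have b0 := IH y hy (T ∪ g.1)
          (fun i hi => hT i (fun h => hi (Finset.mem_union_left _ h)))
        have b1 := IH x1 hx1 (T ∪ g.1) (hT' x1 hx1')
        have b2 := IH x2 hx2 (T ∪ g.1) (hT' x2 hx2')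
        have b3 := IH x3 hx3 (T ∪ g.1) (hT' x3 hx3')
        rw [hsame] at b0 b1 b2 b3
        have lin : (prodRrev L * (op y - 2 • (z1 • op x1) - 2 • (z2 • op x2) + 4 • (z3 • op x3))
              * prodR L * K).trace
            = (prodRrev L * op y * prodR L * K).trace
              - 2 * z1 * (prodRrev L * op x1 * prodR L * K).trace
              - 2 * z2 * (prodRrev L * op x2 * prodR L * K).trace
              + 4 * z3 * (prodRrev L * op x3 * prodR L * K).trace := by
          have e2 : ∀ (z : ℂ) (M : Matrix (Q → Bool) (Q → Bool) ℂ),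
              (2 : ℕ) • (z • M) = ((2 : ℂ) * z) • M := by
            intro z M
            rw [← Nat.cast_smul_eq_nsmul ℂ, smul_smul]
            norm_num
          have e4 : ∀ (z : ℂ) (M : Matrix (Q → Bool) (Q → Bool) ℂ),
              (4 : ℕ) • (z • M) = ((4 : ℂ) * z) • M := by
            intro z M
            rw [← Nat.cast_smul_eq_nsmul ℂ, smul_smul]
            norm_num
          rw [e2, e2, e4]
          simp only [Matrix.mul_sub, Matrix.mul_add, Matrix.sub_mul, Matrix.add_mul, Matrix.mul_smul,
            Matrix.smul_mul, Matrix.trace_sub, Matrix.trace_add, Matrix.trace_smul, smul_eq_mul]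
        rw [lin]
        set t0 := (prodRrev L * op y * prodR L * K).trace
        set t1 := (prodRrev L * op x1 * prodR L * K).trace
        set t2 := (prodRrev L * op x2 * prodR L * K).trace
        set t3 := (prodRrev L * op x3 * prodR L * K).trace
        have n1 : ‖2 * z1 * t1‖ ≤ 2 * (9 ^ (T ∩ suppU L).card * c) := by
          rw [norm_mul, norm_mul]
          have h2 : ‖(2 : ℂ)‖ = 2 := by simp
          rw [h2]
          have := mul_le_mul hz1 b1 (norm_nonneg _) (by norm_num : (0:ℝ) ≤ 1)
          nlinarith [norm_nonneg z1, norm_nonneg t1]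
        have n2 : ‖2 * z2 * t2‖ ≤ 2 * (9 ^ (T ∩ suppU L).card * c) := by
          rw [norm_mul, norm_mul]
          have h2 : ‖(2 : ℂ)‖ = 2 := by simp
          rw [h2]
          have := mul_le_mul hz2 b2 (norm_nonneg _) (by norm_num : (0:ℝ) ≤ 1)
          nlinarith [norm_nonneg z2, norm_nonneg t2]
        have n3 : ‖4 * z3 * t3‖ ≤ 4 * (9 ^ (T ∩ suppU L).card * c) := by
          rw [norm_mul, norm_mul]
          have h4 : ‖(4 : ℂ)‖ = 4 := by simp
          rw [h4]
          have := mul_le_mul hz3 b3 (norm_nonneg _) (by norm_num : (0:ℝ) ≤ 1)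
          nlinarith [norm_nonneg z3, norm_nonneg t3]
        have tri : ‖t0 - 2 * z1 * t1 - 2 * z2 * t2 + 4 * z3 * t3‖
            ≤ ‖t0‖ + ‖2 * z1 * t1‖ + ‖2 * z2 * t2‖ + ‖4 * z3 * t3‖ := by
          refine (norm_add_le _ _).trans (add_le_add ?_ le_rfl)
          refine (norm_sub_le _ _).trans (add_le_add ?_ le_rfl)
          exact norm_sub_le _ _
        have hpow : (9 : ℝ) ^ ((T ∩ suppU L).card + 1) * c ≤ 9 ^ (T ∩ suppU (g :: L)).card * c := by
          apply mul_le_mul_of_nonneg_right _ hc
          exact pow_le_pow_right₀ (by norm_num) hcard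
        have hexp : (9 : ℝ) ^ ((T ∩ suppU L).card + 1) * c = 9 * (9 ^ (T ∩ suppU L).card * c) := by
          ring
        linarith

end Vale.Agent.H98.QAC
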