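import Mathlib
import Vale.Agent.H98.QAC.Basic
import Vale.Agent.H98.QAC.Abs
import Vale.Agent.H98.QAC.Block
import Vale.Agent.H98.QAC.Factor
import Vale.Agent.H98.QAC.Core
import Vale.Agent.H98.QAC.Top
import Vale.Agent.H98.QAC.Main
import Vale.Agent.H98.QAC.Circuit
import Vale.Agent.H98.QAC.NF
import Vale.Agent.H98.QAC.Prob
import Vale.Agent.H98.QAC.Final
import Vale.Agent.H98.QAC.Polar
import Vale.Agent.H98.QAC.Atom
import Vale.Agent.H98.QAC.AtomBlock
import Vale.Agent.H98.QAC.Mid
import Vale.Agent.H98.QAC.Approx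
import Vale.Agent.H98.QAC.Cheb

namespace Vale.Agent.H98.QAC

open Matrix

set_option linter.unusedSectionVars false

variable {Q : Type} [Fintype Q] [DecidableEq Q]

theorem rank_conj {R : Matrix Bool Bool ℂ} (hR : R * Rᴴ = 1) {a : Bool → ℂ}
    (ha : star a ⬝ᵥ a = 1) :
    star (Rᴴ *ᵥ a) ⬝ᵥ (Rᴴ *ᵥ a) = 1 ∧
      Rᴴ * vecMulVec a (star a) * R = vecMulVec (Rᴴ *ᵥ a) (star (Rᴴ *ᵥ a)) := by
  constructor
  · rw [Matrix.star_mulVec, ← Matrix.dotProduct_mulVec, Matrix.mulVec_mulVec,
      Matrix.conjTranspose_conjTranspose, hR, Matrix.one_mulVec, ha]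
  · rw [Matrix.mul_vecMulVec, Matrix.vecMulVec_mul, Matrix.star_mulVec,
      Matrix.conjTranspose_conjTranspose]

theorem rankFam_update_one (q : Q) (a : Bool → ℂ) (ha : star a ⬝ᵥ a = 1) :
    RankFam (Function.update (fun _ : Q => (1 : Matrix Bool Bool ℂ)) q (vecMulVec a (star a))) := by
  intro i
  by_cases h : i = q
  · rw [h, Function.update_self]
    exact Or.inr ⟨a, ha, rfl⟩
  · rw [Function.update_of_ne h]
    exact Or.inl rfl

theorem rankFam_update (p : Q → Matrix Bool Bool ℂ) (hp : RankFam p) (q : Q) (a : Bool → ℂ)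
    (ha : star a ⬝ᵥ a = 1) : RankFam (Function.update p q (vecMulVec a (star a))) := by
  intro i
  by_cases h : i = q
  · rw [h, Function.update_self]
    exact Or.inr ⟨a, ha, rfl⟩
  · rw [Function.update_of_ne h]
    exact hp i

theorem GateOK.rankFam {g : Finset Q × (Q → Matrix Bool Bool ℂ)} (hg : GateOK g) :
    RankFam g.2 := by
  intro i
  by_cases hi : i ∈ g.1
  · exact Or.inr (hg.2 i hi)
  · exact Or.inl (hg.1 i hi)

/-- Conjugating a one-qubit rank-one projector by a layer of reflections about product states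
with pairwise disjoint supports gives the projector itself plus a difference of two product
projectors with rank-one factors. -/
theorem top_layer_rank (q : Q) (a : Bool → ℂ) (ha : star a ⬝ᵥ a = 1) :
    ∀ L : List (Finset Q × (Q → Matrix Bool Bool ℂ)), GoodList L →
      ∃ (y1 y2 : Q → Matrix Bool Bool ℂ) (S : Finset Q), RankFam y1 ∧ RankFam y2 ∧
        (S = {q} ∨ ∃ g ∈ L, S = g.1) ∧ (∀ i, i ∉ S → y1 i = 1 ∧ y2 i = 1) ∧
        prodRrev L * op (Function.update (fun _ => (1 : Matrix Bool Bool ℂ)) q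
            (vecMulVec a (star a))) * prodR L
          = op (Function.update (fun _ => (1 : Matrix Bool Bool ℂ)) q (vecMulVec a (star a)))
            + op y1 - op y2
  | [], _ => ⟨_, _, {q}, rankFam_update_one q a ha, rankFam_update_one q a ha, Or.inl rfl, by
      intro i hi
      have hne : i ≠ q := by simpa using hi
      rw [Function.update_of_ne hne]
      exact ⟨rfl, rfl⟩, by
      simp [prodR_nil, prodRrev_nil]⟩
  | g :: L, h => by
      have hpw := List.pairwise_cons.mp h.2
      have hg := h.1 g (by simp)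
      have hL : GoodList L := ⟨fun g' hg' => h.1 g' (by simp [hg']), hpw.2⟩
      rw [prodR_cons, prodRrev_cons]
      have hassoc : prodRrev L * refl g.2
            * op (Function.update (fun _ => (1 : Matrix Bool Bool ℂ)) q (vecMulVec a (star a)))
            * (refl g.2 * prodR L)
          = prodRrev L * (refl g.2
            * op (Function.update (fun _ => (1 : Matrix Bool Bool ℂ)) q (vecMulVec a (star a)))
            * refl g.2) * prodR L := by
        simp only [Matrix.mul_assoc]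
      rw [hassoc]
      by_cases hq : q ∈ g.1
      · rw [refl_conj_meas g.2 (fun i => (hg.projFam i).1.2) q (vecMulVec a (star a))]
        have hpq : IsProj (g.2 q) := (hg.projFam q).1
        obtain ⟨hu, he⟩ := rank_conj (R := 1 - 2 • g.2 q)
          (by rw [refl_small_herm hpq]; exact refl_small_sq hpq) ha
        rw [refl_small_herm hpq] at hu he
        have s1' : ∀ (c : Matrix Bool Bool ℂ) (i : Q), i ∉ g.1 →
            Function.update g.2 q c i = 1 := by
          intro c i hi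
          have hne : i ≠ q := fun e => hi (e ▸ hq)
          rw [Function.update_of_ne hne, hg.1 i hi]
        refine ⟨Function.update g.2 q ((1 - 2 • g.2 q) * vecMulVec a (star a) * (1 - 2 • g.2 q)),
          Function.update g.2 q (vecMulVec a (star a)), g.1, ?_, ?_,
          Or.inr ⟨g, by simp, rfl⟩, fun i hi => ⟨s1' _ i hi, s1' _ i hi⟩, ?_⟩
        · rw [he]
          exact rankFam_update g.2 hg.rankFam q _ hu
        · exact rankFam_update g.2 hg.rankFam q _ ha
        · have s0 : ∀ i, i ∉ g.1 →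
              Function.update (fun _ => (1 : Matrix Bool Bool ℂ)) q (vecMulVec a (star a)) i
                = 1 := by
            intro i hi
            have hne : i ≠ q := fun e => hi (e ▸ hq)
            rw [Function.update_of_ne hne]
          have s1 : ∀ (c : Matrix Bool Bool ℂ) (i : Q), i ∉ g.1 →
              Function.update g.2 q c i = 1 := by
            intro c i hi
            have hne : i ≠ q := fun e => hi (e ▸ hq)
            rw [Function.update_of_ne hne, hg.1 i hi]
          rw [Matrix.mul_sub, Matrix.mul_add, Matrix.sub_mul, Matrix.add_mul,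
            comm_through g.1 _ s0 L hL.1 hpw.1, comm_through g.1 _ (s1 _) L hL.1 hpw.1,
            comm_through g.1 _ (s1 _) L hL.1 hpw.1]
      · have hc : op (Function.update (fun _ => (1 : Matrix Bool Bool ℂ)) q
              (vecMulVec a (star a))) * refl g.2
            = refl g.2 * op (Function.update (fun _ => (1 : Matrix Bool Bool ℂ)) q
              (vecMulVec a (star a))) := by
          apply op_comm_refl
          intro i
          by_cases hi : i = q
          · subst hi
            rw [hg.1 i hq, Matrix.one_mul, Matrix.mul_one]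
          · rw [Function.update_of_ne hi, Matrix.one_mul, Matrix.mul_one]
        rw [Matrix.mul_assoc (refl g.2), hc, ← Matrix.mul_assoc (refl g.2),
          refl_sq g.2 (fun i => (hg.projFam i).1.2), Matrix.one_mul]
        obtain ⟨y1, y2, S, hy1, hy2, hS, hS', e⟩ := top_layer_rank q a ha L hL
        refine ⟨y1, y2, S, hy1, hy2, ?_, hS', e⟩
        rcases hS with h | ⟨g', hg', h⟩
        · exact Or.inl h
        · exact Or.inr ⟨g', by simp [hg'], h⟩

theorem IsNF.unitary : ∀ (d : ℕ) (M : Matrix (Q → Bool) (Q → Bool) ℂ), IsNF d M → Mᴴ * M = 1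
  | 0, M, ⟨v, hv, e⟩ => by
      rw [e]
      exact op_unitary_left v hv
  | d + 1, M, ⟨M', L, v, hM', hL, hv, e⟩ => by
      rw [e]
      exact unitary_mul_big _ _ (unitary_mul_big _ _ (IsNF.unitary d M' hM') (prodR_unitary L hL))
        (op_unitary_left v hv)

theorem nf_three (M : Matrix (Q → Bool) (Q → Bool) ℂ) (h : IsNF 3 M) :
    ∃ (v0 v1 v2 v3 : Q → Matrix Bool Bool ℂ)
      (L1 L2 L3 : List (Finset Q × (Q → Matrix Bool Bool ℂ))),
      (∀ j, (v0 j)ᴴ * v0 j = 1) ∧ (∀ j, (v1 j)ᴴ * v1 j = 1) ∧ (∀ j, (v2 j)ᴴ * v2 j = 1) ∧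
      (∀ j, (v3 j)ᴴ * v3 j = 1) ∧ GoodList L1 ∧ GoodList L2 ∧ GoodList L3 ∧
      M = op v3 * prodR L3 * op v2 * prodR L2 * op v1 * prodR L1 * op v0 := by
  obtain ⟨M1, L1, v0, hM1, hL1, hv0, e1⟩ := h
  obtain ⟨M2, L2, v1, hM2, hL2, hv1, e2⟩ := hM1
  obtain ⟨M3, L3, v2, hM3, hL3, hv2, e3⟩ := hM2
  obtain ⟨v3, hv3, e4⟩ := hM3
  exact ⟨v0, v1, v2, v3, L1, L2, L3, hv0, hv1, hv2, hv3, hL1, hL2, hL3, by rw [e1, e2, e3, e4]⟩

/-- Core estimate at entangling depth three; `W` bounds the number of qubits of each gate of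
the last layer. -/
theorem core3 (v0 v1 v2 v3 : Q → Matrix Bool Bool ℂ) (h0 : ∀ i, (v0 i)ᴴ * v0 i = 1)
    (h1 : ∀ i, (v1 i)ᴴ * v1 i = 1) (h2 : ∀ i, (v2 i)ᴴ * v2 i = 1)
    (h3 : ∀ i, (v3 i)ᴴ * v3 i = 1)
    (L1 L2 L3 : List (Finset Q × (Q → Matrix Bool Bool ℂ))) (hL1 : GoodList L1)
    (hL2 : GoodList L2) (hL3 : GoodList L3) (I : Finset Q) (q : Q) (a : Bool → ℂ)
    (ha : star a ⬝ᵥ a = 1) (k W : ℕ) (hW1 : 1 ≤ W) (hW : ∀ g ∈ L3, g.1.card ≤ W) :
    ‖(op (Function.update (fun _ => (1 : Matrix Bool Bool ℂ)) q (vecMulVec a (star a)))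
        * (op v3 * prodR L3 * op v2 * prodR L2 * op v1 * prodR L1 * op v0)
        * Matrix.diagonal (fun s : Q → Bool => ((rz I s : ℝ) : ℂ))
        * (op v3 * prodR L3 * op v2 * prodR L2 * op v1 * prodR L1 * op v0)ᴴ).trace‖
      ≤ 3 * Real.sqrt 2 ^ I.card
        + 2 * (2 * Real.exp (-((k : ℝ) / Real.sqrt W)) * 2 ^ I.card
            + (18 * (W : ℝ) + 1) ^ k * r4 ^ (3 * I.card)) := by
  set M := op (Function.update (fun _ => (1 : Matrix Bool Bool ℂ)) q (vecMulVec a (star a)))
    with hM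
  set D := Matrix.diagonal (fun s : Q → Bool => ((rz I s : ℝ) : ℂ)) with hD
  set C2 := op v2 * prodR L2 * op v1 * prodR L1 * op v0 with hC2
  set K := C2 * D * C2ᴴ with hK
  set K1 := op v1 * prodR L1 * op (cfam v0 (zd I)) * prodRrev L1 * (op v1)ᴴ with hK1
  have hC3 : op v3 * prodR L3 * op v2 * prodR L2 * op v1 * prodR L1 * op v0
      = op v3 * prodR L3 * C2 := by
    rw [hC2]
    simp only [Matrix.mul_assoc]
  rw [hC3]
  have hCH : (op v3 * prodR L3 * C2)ᴴ = C2ᴴ * prodRrev L3 * (op v3)ᴴ := by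
    simp only [Matrix.conjTranspose_mul, prodR_conjTranspose L3 hL3.1, Matrix.mul_assoc]
  have hre : M * (op v3 * prodR L3 * C2) * D * (C2ᴴ * prodRrev L3 * (op v3)ᴴ)
      = (M * op v3 * prodR L3) * K * (prodRrev L3 * (op v3)ᴴ) := by
    rw [hK]
    simp only [Matrix.mul_assoc]
  rw [hCH, hre, Matrix.trace_mul_cycle]
  obtain ⟨ha0, hm0⟩ := rank_conj (R := v3 q) (mul_eq_one_comm.mp (h3 q)) ha
  set a0 := (v3 q)ᴴ *ᵥ a with ha0def
  have hM2 : (op v3)ᴴ * M * op v3
      = op (Function.update (fun _ => (1 : Matrix Bool Bool ℂ)) q (vecMulVec a0 (star a0))) := by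
    rw [hM, op_conjTranspose, op_mul, op_mul]
    congr 1
    funext i
    by_cases h : i = q
    · rw [h, Function.update_self, Function.update_self]
      exact hm0
    · simp [Function.update_of_ne h, h3 i]
  obtain ⟨y1, y2, S, hy1, hy2, hSdef, hS, htop⟩ := top_layer_rank q a0 ha0 L3 hL3
  have hSW : S.card ≤ W := by
    rcases hSdef with h | ⟨g, hg, h⟩
    · rw [h, Finset.card_singleton]
      exact hW1
    · rw [h]
      exact hW g hg
  have hmid : (prodRrev L3 * (op v3)ᴴ) * (M * op v3 * prodR L3)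
      = op (Function.update (fun _ => (1 : Matrix Bool Bool ℂ)) q (vecMulVec a0 (star a0)))
        + op y1 - op y2 := by
    calc (prodRrev L3 * (op v3)ᴴ) * (M * op v3 * prodR L3)
        = prodRrev L3 * ((op v3)ᴴ * M * op v3) * prodR L3 := by
          simp only [Matrix.mul_assoc]
      _ = _ := by rw [hM2, htop]
  rw [hmid, Matrix.sub_mul, Matrix.add_mul, Matrix.trace_sub, Matrix.trace_add]
  have b0 : ‖(op (Function.update (fun _ => (1 : Matrix Bool Bool ℂ)) q
      (vecMulVec a0 (star a0))) * K).trace‖ ≤ 3 * Real.sqrt 2 ^ I.card := by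
    have h := core v0 v1 v2 h0 h1 h2 L1 L2 hL1 hL2 I q (vecMulVec a0 (star a0))
      (rankOne_isProj ha0) (rankOne_trace ha0)
    have e : op (Function.update (fun _ => (1 : Matrix Bool Bool ℂ)) q
        (vecMulVec a0 (star a0))) * K
        = op (Function.update (fun _ => (1 : Matrix Bool Bool ℂ)) q
          (vecMulVec a0 (star a0))) * C2 * D * C2ᴴ := by
      rw [hK]
      simp only [Matrix.mul_assoc]
    rw [e]
    exact h
  obtain ⟨β, hβ1, hβ2⟩ := cheb_exists W k
  set ε := 2 * Real.exp (-((k : ℝ) / Real.sqrt W)) with hε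
  set c := r4 ^ (3 * I.card) with hc
  have hc0 : 0 ≤ c := pow_nonneg r4_pos.le _
  have hC2u : C2ᴴ * C2 = 1 := by
    rw [hC2]
    exact unitary_mul_big _ _ (unitary_mul_big _ _ (unitary_mul_big _ _ (unitary_mul_big _ _
      (op_unitary_left v2 h2) (prodR_unitary L2 hL2)) (op_unitary_left v1 h1))
      (prodR_unitary L1 hL1)) (op_unitary_left v0 h0)
  have hDb : ∀ v : Q → Matrix Bool Bool ℂ, (∀ i, (v i)ᴴ * v i = 1) →
      ∑ s, ‖((op v)ᴴ * K * op v) s s‖ ≤ 2 ^ I.card := by
    intro v hv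
    have hC' : ((op v)ᴴ * C2)ᴴ * ((op v)ᴴ * C2) = 1 := by
      rw [Matrix.conjTranspose_mul, Matrix.conjTranspose_conjTranspose, Matrix.mul_assoc,
        ← Matrix.mul_assoc (op v), op_unitary_right v hv, Matrix.one_mul, hC2u]
    have h := diag_conj_abs_sum ((op v)ᴴ * C2) hC' (rz I)
    have e : (op v)ᴴ * K * op v
        = (op v)ᴴ * C2 * Matrix.diagonal (fun t => ((rz I t : ℝ) : ℂ)) * ((op v)ᴴ * C2)ᴴ := by
      have e3 : ((op v)ᴴ * C2)ᴴ = C2ᴴ * op v := by
        rw [Matrix.conjTranspose_mul ((op v)ᴴ) C2, Matrix.conjTranspose_conjTranspose]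
      rw [e3, hK, hD]
      simp only [Matrix.mul_assoc]
    rw [e]
    refine h.trans (le_of_eq ?_)
    simp only [rz_abs]
    exact sum_rzAbs I
  have hKatom : ∀ x : Q → Matrix Bool Bool ℂ, AtomFam x → ‖(op x * K1).trace‖ ≤ c := by
    intro x hx
    have h := single_bound_atom v0 h0 I L1 hL1 _ (atomFam_conj v1 h1 x hx)
    have e : (op x * K1).trace
        = (op (fun i => (v1 i)ᴴ * x i * v1 i) * prodR L1 * op (cfam v0 (zd I))
            * prodRrev L1).trace := by
      have e1 : op (fun i => (v1 i)ᴴ * x i * v1 i) = (op v1)ᴴ * op x * op v1 := by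
        rw [op_conjTranspose, op_mul, op_mul]
      rw [e1, hK1]
      have e2 : op x * (op v1 * prodR L1 * op (cfam v0 (zd I)) * prodRrev L1 * (op v1)ᴴ)
          = (op x * op v1 * prodR L1 * op (cfam v0 (zd I)) * prodRrev L1) * (op v1)ᴴ := by
        simp only [Matrix.mul_assoc]
      rw [e2, Matrix.trace_mul_comm]
      simp only [Matrix.mul_assoc]
    rw [e]
    exact h
  have hterm : ∀ (T : Finset Q) (y' : Q → Matrix Bool Bool ℂ), AtomFam y' →
      (∀ i, i ∉ T → y' i = 1) → ‖(op y' * K).trace‖ ≤ 9 ^ T.card * c := by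
    intro T y' hy' hT
    have hX : op (cfam v0 (zd I)) = op v0 * D * (op v0)ᴴ := by
      rw [op_cfam]
      rfl
    have hCH2 : C2ᴴ = (op v0)ᴴ * prodRrev L1 * (op v1)ᴴ * prodRrev L2 * (op v2)ᴴ := by
      rw [hC2]
      simp only [Matrix.conjTranspose_mul, prodR_conjTranspose L1 hL1.1,
        prodR_conjTranspose L2 hL2.1, Matrix.mul_assoc]
    have e : (op y' * K).trace
        = (prodRrev L2 * op (fun i => (v2 i)ᴴ * y' i * v2 i) * prodR L2 * K1).trace := by
      have e1 : op (fun i => (v2 i)ᴴ * y' i * v2 i) = (op v2)ᴴ * op y' * op v2 := by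
        rw [op_conjTranspose, op_mul, op_mul]
      rw [e1, hK, hCH2, hC2, hK1, hX]
      have e2 : op y' * ((op v2 * prodR L2 * op v1 * prodR L1 * op v0) * D
            * ((op v0)ᴴ * prodRrev L1 * (op v1)ᴴ * prodRrev L2 * (op v2)ᴴ))
          = (op y' * op v2 * prodR L2
              * (op v1 * prodR L1 * (op v0 * D * (op v0)ᴴ) * prodRrev L1 * (op v1)ᴴ))
            * (prodRrev L2 * (op v2)ᴴ) := by
        simp only [Matrix.mul_assoc]
      rw [e2, Matrix.trace_mul_comm]
      simp only [Matrix.mul_assoc]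
    rw [e]
    have hy'' : AtomFam (fun i => (v2 i)ᴴ * y' i * v2 i) := atomFam_conj v2 h2 y' hy'
    have hT'' : ∀ i, i ∉ T → (fun i => (v2 i)ᴴ * y' i * v2 i) i = 1 := by
      intro i hi
      show (v2 i)ᴴ * y' i * v2 i = 1
      rw [hT i hi, Matrix.mul_one, h2 i]
    have hb := mid_bound K1 c hc0 hKatom L2 hL2 _ hy'' T hT''
    refine hb.trans ?_
    apply mul_le_mul_of_nonneg_right _ hc0
    exact pow_le_pow_right₀ (by norm_num) (Finset.card_le_card Finset.inter_subset_left)
  have A1 := and_approx K (2 ^ I.card) c ε k W β hβ1 hDb hterm y1 hy1 S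
    (fun i hi => (hS i hi).1) hSW
  have A2 := and_approx K (2 ^ I.card) c ε k W β hβ1 hDb hterm y2 hy2 S
    (fun i hi => (hS i hi).2) hSW
  have hSum : (∑ j ∈ Finset.range (k + 1), |β j| * (W.choose j : ℝ) * 9 ^ j) * c
      ≤ (18 * (W : ℝ) + 1) ^ k * c := mul_le_mul_of_nonneg_right hβ2 hc0
  refine (norm_sub_le _ _).trans ?_
  refine (add_le_add (norm_add_le _ _) le_rfl).trans ?_
  linarith

end Vale.Agent.H98.QAC
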