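import Mathlib
import Vale.Agent.H98.QAC.Basic
import Vale.Agent.H98.QAC.Abs
import Vale.Agent.H98.QAC.Block
import Vale.Agent.H98.QAC.Factor
import Vale.Agent.H98.QAC.Core
import Vale.Agent.H98.QAC.Top
import Vale.Agent.H98.QAC.Main
import Vale.Agent.H98.QAC.Circuit
import Vale.Agent.H98.QAC.NF

namespace Vale.Agent.H98.QAC

open Matrix

set_option linter.unusedSectionVars false

variable {Q : Type} [Fintype Q] [DecidableEq Q]

/-- Normal forms in which every reflection acts on at most `w` qubits. -/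
def IsNFw (w : ℕ) : ℕ → Matrix (Q → Bool) (Q → Bool) ℂ → Prop
  | 0, M => ∃ v : Q → Matrix Bool Bool ℂ, (∀ j, (v j)ᴴ * v j = 1) ∧ M = op v
  | d + 1, M => ∃ (M' : Matrix (Q → Bool) (Q → Bool) ℂ)
      (L : List (Finset Q × (Q → Matrix Bool Bool ℂ))) (v : Q → Matrix Bool Bool ℂ),
      IsNFw w d M' ∧ GoodList L ∧ (∀ g ∈ L, g.1.card ≤ w) ∧ (∀ j, (v j)ᴴ * v j = 1) ∧
        M = M' * prodR L * op v

theorem IsNFw.mul_op (w : ℕ) : ∀ (d : ℕ) (M : Matrix (Q → Bool) (Q → Bool) ℂ), IsNFw w d M →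
    ∀ v : Q → Matrix Bool Bool ℂ, (∀ j, (v j)ᴴ * v j = 1) → IsNFw w d (M * op v)
  | 0, M, ⟨v0, hv0, e⟩, v, hv =>
      ⟨fun j => v0 j * v j, fun j => unitary_mul_small _ _ (hv0 j) (hv j), by rw [e, op_mul]⟩
  | d + 1, M, ⟨M', L, v0, hM', hL, hLw, hv0, e⟩, v, hv =>
      ⟨M', L, fun j => v0 j * v j, hM', hL, hLw,
        fun j => unitary_mul_small _ _ (hv0 j) (hv j), by
        rw [e, Matrix.mul_assoc, op_mul]⟩

theorem IsNFw.succ (w d : ℕ) (M : Matrix (Q → Bool) (Q → Bool) ℂ) (h : IsNFw w d M) :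
    IsNFw w (d + 1) M :=
  ⟨M, [], fun _ => 1, h, ⟨by simp, List.Pairwise.nil⟩, by simp, by simp, by
    simp [prodR_nil, op_one]⟩

theorem IsNFw.mono (w : ℕ) {d d' : ℕ} (hdd : d ≤ d') (M : Matrix (Q → Bool) (Q → Bool) ℂ)
    (h : IsNFw w d M) : IsNFw w d' M := by
  induction hdd with
  | refl => exact h
  | step _ ih => exact IsNFw.succ w _ M ih

theorem circuit_nfw (w : ℕ) : ∀ c : List (List (Gate Q)), (∀ l ∈ c, IsLayer l) →
    (∀ l ∈ c, ∀ g ∈ l, g.support.card ≤ w) → IsNFw w (entanglingDepth c) (circuitMatrix c)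
  | [], _, _ => ⟨fun _ => 1, by simp, by simp [circuitMatrix, op_one]⟩
  | l :: c, h, hw => by
      have IH := circuit_nfw w c (fun l' hl' => h l' (by simp [hl']))
        (fun l' hl' => hw l' (by simp [hl']))
      obtain ⟨v, L, hv, hL, hsup, hany, hmat⟩ := layer_nf l (h l (by simp))
      have hLw : ∀ g' ∈ L, g'.1.card ≤ w := by
        intro g' hg'
        obtain ⟨g0, hg0, e⟩ := hsup g' hg'
        rw [e]
        exact hw l (by simp) g0 hg0
      have hcm : circuitMatrix (l :: c) = circuitMatrix c * layerMatrix l := by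
        simp [circuitMatrix]
      by_cases ha : l.any Gate.isMultiQubit = true
      · have hd : entanglingDepth (l :: c) = entanglingDepth c + 1 := by
          simp [entanglingDepth, ha]
        rw [hd, hcm, hmat, ← Matrix.mul_assoc]
        exact ⟨circuitMatrix c, L, v, IH, hL, hLw, hv, rfl⟩
      · have ha' : l.any Gate.isMultiQubit = false := by simpa using ha
        have hd : entanglingDepth (l :: c) = entanglingDepth c := by
          simp [entanglingDepth, ha']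
        rw [hd, hcm, hmat, hany ha', prodR_nil, Matrix.one_mul]
        exact IsNFw.mul_op w _ _ IH v hv

theorem nf_three_w (w : ℕ) (M : Matrix (Q → Bool) (Q → Bool) ℂ) (h : IsNFw w 3 M) :
    ∃ (v0 v1 v2 v3 : Q → Matrix Bool Bool ℂ)
      (L1 L2 L3 : List (Finset Q × (Q → Matrix Bool Bool ℂ))),
      (∀ j, (v0 j)ᴴ * v0 j = 1) ∧ (∀ j, (v1 j)ᴴ * v1 j = 1) ∧ (∀ j, (v2 j)ᴴ * v2 j = 1) ∧
      (∀ j, (v3 j)ᴴ * v3 j = 1) ∧ GoodList L1 ∧ GoodList L2 ∧ GoodList L3 ∧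
      (∀ g ∈ L3, g.1.card ≤ w) ∧
      M = op v3 * prodR L3 * op v2 * prodR L2 * op v1 * prodR L1 * op v0 := by
  obtain ⟨M1, L1, v0, hM1, hL1, _, hv0, e1⟩ := h
  obtain ⟨M2, L2, v1, hM2, hL2, _, hv1, e2⟩ := hM1
  obtain ⟨M3, L3, v2, hM3, hL3, hw3, hv2, e3⟩ := hM2
  obtain ⟨v3, hv3, e4⟩ := hM3
  exact ⟨v0, v1, v2, v3, L1, L2, L3, hv0, hv1, hv2, hv3, hL1, hL2, hL3, hw3, by
    rw [e1, e2, e3, e4]⟩

end Vale.Agent.H98.QAC
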