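import Mathlib
import Vale.Agent.H98.QAC.Basic
import Vale.Agent.H98.QAC.Abs
import Vale.Agent.H98.QAC.Block
import Vale.Agent.H98.QAC.Factor
import Vale.Agent.H98.QAC.Core
import Vale.Agent.H98.QAC.Top
import Vale.Agent.H98.QAC.Main
import Vale.Agent.H98.QAC.Circuit
import Vale.Agent.H98.QAC.NF
import Vale.Agent.H98.QAC.NFw
import Vale.Agent.H98.QAC.Prob
import Vale.Agent.H98.QAC.Final
import Vale.Agent.H98.QAC.Polar
import Vale.Agent.H98.QAC.Atom
import Vale.Agent.H98.QAC.AtomBlock
import Vale.Agent.H98.QAC.Mid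
import Vale.Agent.H98.QAC.Approx
import Vale.Agent.H98.QAC.Cheb
import Vale.Agent.H98.QAC.Core3
import Vale.Agent.H98.QAC.Cheb2
import Vale.Agent.H98.QAC.Approx2

namespace Vale.Agent.H98.QAC

open Matrix

set_option linter.unusedSectionVars false

variable {Q : Type} [Fintype Q] [DecidableEq Q]

/-- `AtomBd K b c`: every product of one-qubit atoms that is the identity outside a set `T`
of qubits pairs with `K` by at most `b ^ |T| * c`. -/
def AtomBd (K : Matrix (Q → Bool) (Q → Bool) ℂ) (b c : ℝ) : Prop :=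
  ∀ x : Q → Matrix Bool Bool ℂ, AtomFam x → ∀ T : Finset Q, (∀ i, i ∉ T → x i = 1) →
    ‖(op x * K).trace‖ ≤ b ^ T.card * c

theorem AtomBd.mono {K : Matrix (Q → Bool) (Q → Bool) ℂ} {b b' c : ℝ} (h : AtomBd K b c)
    (hb : 0 ≤ b) (hbb : b ≤ b') (hc : 0 ≤ c) : AtomBd K b' c := by
  intro x hx T hT
  exact (h x hx T hT).trans (mul_le_mul_of_nonneg_right (pow_le_pow_left₀ hb hbb _) hc)

theorem AtomBd.conj {K : Matrix (Q → Bool) (Q → Bool) ℂ} {b c : ℝ} (h : AtomBd K b c)
    (v : Q → Matrix Bool Bool ℂ) (hv : ∀ i, (v i)ᴴ * v i = 1) :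
    AtomBd (op v * K * (op v)ᴴ) b c := by
  intro x hx T hT
  have e : (op x * (op v * K * (op v)ᴴ)).trace
      = (op (fun i => (v i)ᴴ * x i * v i) * K).trace := by
    have e1 : op (fun i => (v i)ᴴ * x i * v i) = (op v)ᴴ * op x * op v := by
      rw [op_conjTranspose, op_mul, op_mul]
    rw [e1]
    have e2 : op x * (op v * K * (op v)ᴴ) = (op x * op v * K) * (op v)ᴴ := by
      simp only [Matrix.mul_assoc]
    rw [e2, Matrix.trace_mul_comm]
    simp only [Matrix.mul_assoc]
  rw [e]
  refine h _ (atomFam_conj v hv x hx) T ?_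
  intro i hi
  show (v i)ᴴ * x i * v i = 1
  rw [hT i hi, Matrix.mul_one, hv i]

/-- Pushing a product of atoms through one layer of reflections on at most `w` qubits each,
keeping track of the support: each gate that meets the support costs a factor nine and
enlarges the support by at most `w` qubits. -/
theorem mid_track (K : Matrix (Q → Bool) (Q → Bool) ℂ) (b c : ℝ) (hb : 1 ≤ b) (hc : 0 ≤ c)
    (hK : AtomBd K b c) (w : ℕ) :
    ∀ L : List (Finset Q × (Q → Matrix Bool Bool ℂ)), GoodList L → (∀ g ∈ L, g.1.card ≤ w) →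
      ∀ (y : Q → Matrix Bool Bool ℂ), AtomFam y → ∀ T : Finset Q, (∀ i, i ∉ T → y i = 1) →
        ‖(prodRrev L * op y * prodR L * K).trace‖
          ≤ 9 ^ (T ∩ suppU L).card * (b ^ (T.card + w * (T ∩ suppU L).card) * c)
  | [], _, _, y, hy, T, hT => by
      have h := hK y hy T hT
      simpa [prodR_nil, prodRrev_nil, suppU_nil] using h
  | g :: L, h, hw, y, hy, T, hT => by
      have hpw := List.pairwise_cons.mp h.2
      have hg := h.1 g (by simp)
      have hL : GoodList L := ⟨fun g' hg' => h.1 g' (by simp [hg']), hpw.2⟩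
      have IH := mid_track K b c hb hc hK w L hL (fun g' hg' => hw g' (by simp [hg']))
      have hb0 : (0 : ℝ) ≤ b := by linarith
      rw [prodR_cons, prodRrev_cons]
      have hassoc : prodRrev L * refl g.2 * op y * (refl g.2 * prodR L)
          = prodRrev L * (refl g.2 * op y * refl g.2) * prodR L := by
        simp only [Matrix.mul_assoc]
      rw [hassoc]
      have hdisj : Disjoint g.1 (suppU L) := disjoint_suppU g.1 L hpw.1
      have hmono : ∀ t t' : ℕ, t ≤ t' →
          (9 : ℝ) ^ t * (b ^ (T.card + w * t) * c) ≤ 9 ^ t' * (b ^ (T.card + w * t') * c) := by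
        intro t t' htt
        have h1 : (9 : ℝ) ^ t ≤ 9 ^ t' := pow_le_pow_right₀ (by norm_num) htt
        have h2 : b ^ (T.card + w * t) ≤ b ^ (T.card + w * t') :=
          pow_le_pow_right₀ hb (Nat.add_le_add_left (Nat.mul_le_mul_left w htt) _)
        have h3 : 0 ≤ b ^ (T.card + w * t) * c := mul_nonneg (pow_nonneg hb0 _) hc
        calc (9 : ℝ) ^ t * (b ^ (T.card + w * t) * c)
            ≤ 9 ^ t' * (b ^ (T.card + w * t) * c) := mul_le_mul_of_nonneg_right h1 h3
          _ ≤ 9 ^ t' * (b ^ (T.card + w * t') * c) :=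
              mul_le_mul_of_nonneg_left (mul_le_mul_of_nonneg_right h2 hc) (by positivity)
      by_cases htouch : ∀ i ∈ g.1, y i = 1
      · have hc' : op y * refl g.2 = refl g.2 * op y := by
          apply op_comm_refl
          intro i
          by_cases hi : i ∈ g.1
          · rw [htouch i hi, Matrix.one_mul, Matrix.mul_one]
          · rw [hg.1 i hi, Matrix.one_mul, Matrix.mul_one]
        rw [Matrix.mul_assoc (refl g.2), hc', ← Matrix.mul_assoc (refl g.2),
          refl_sq g.2 (fun i => (hg.projFam i).1.2), Matrix.one_mul]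
        refine (IH y hy T hT).trans (hmono _ _ ?_)
        apply Finset.card_le_card
        rw [suppU_cons]
        exact Finset.inter_subset_inter_left Finset.subset_union_right
      · simp only [not_forall] at htouch
        obtain ⟨i0, hi0, hyi0⟩ := htouch
        have hi0T : i0 ∈ T := by
          by_contra h'
          exact hyi0 (hT i0 h')
        rw [refl_conj]
        obtain ⟨z1, hz1, x1, hx1, hx1', e1⟩ := atomFam_mul_left g hg y hy
        obtain ⟨z2, hz2, x2, hx2, hx2', e2⟩ := atomFam_mul_right g hg y hy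
        obtain ⟨z3, hz3, x3, hx3, hx3', e3⟩ := atomFam_mul_both g hg y hy
        rw [e1, e2, e3]
        have hT' : ∀ x' : Q → Matrix Bool Bool ℂ, (∀ i, i ∉ g.1 → x' i = y i) →
            ∀ i, i ∉ T ∪ g.1 → x' i = 1 := by
          intro x' hx' i hi
          rw [Finset.mem_union, not_or] at hi
          rw [hx' i hi.2, hT i hi.1]
        have hsame : (T ∪ g.1) ∩ suppU L = T ∩ suppU L := by
          rw [Finset.union_inter_distrib_right, Finset.disjoint_iff_inter_eq_empty.mp hdisj,
            Finset.union_empty]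
        have hcard : (T ∩ suppU L).card + 1 ≤ (T ∩ suppU (g :: L)).card := by
          have hnot : i0 ∉ T ∩ suppU L := by
            intro hmem
            exact Finset.disjoint_left.mp hdisj hi0 (Finset.mem_inter.mp hmem).2
          rw [← Finset.card_insert_of_notMem hnot]
          apply Finset.card_le_card
          intro j hj
          rw [Finset.mem_insert] at hj
          rw [suppU_cons, Finset.mem_inter, Finset.mem_union]
          rcases hj with rfl | hj
          · exact ⟨hi0T, Or.inl hi0⟩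
          · exact ⟨(Finset.mem_inter.mp hj).1, Or.inr (Finset.mem_inter.mp hj).2⟩
        have hcardT : (T ∪ g.1).card ≤ T.card + w :=
          (Finset.card_union_le _ _).trans (Nat.add_le_add_left (hw g (by simp)) _)
        have hX : (9 : ℝ) ^ (T ∩ suppU L).card
              * (b ^ ((T ∪ g.1).card + w * (T ∩ suppU L).card) * c)
            ≤ 9 ^ (T ∩ suppU L).card
              * (b ^ (T.card + w * ((T ∩ suppU L).card + 1)) * c) := by
          apply mul_le_mul_of_nonneg_left _ (by positivity)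
          apply mul_le_mul_of_nonneg_right _ hc
          apply pow_le_pow_right₀ hb
          rw [Nat.mul_succ]
          omega
        have b0 := (IH y hy (T ∪ g.1)
          (fun i hi => hT i (fun h => hi (Finset.mem_union_left _ h))))
        have b1 := IH x1 hx1 (T ∪ g.1) (hT' x1 hx1')
        have b2 := IH x2 hx2 (T ∪ g.1) (hT' x2 hx2')
        have b3 := IH x3 hx3 (T ∪ g.1) (hT' x3 hx3')
        rw [hsame] at b0 b1 b2 b3
        have b0' := b0.trans hX
        have b1' := b1.trans hX
        have b2' := b2.trans hX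
        have b3' := b3.trans hX
        have lin : (prodRrev L * (op y - 2 • (z1 • op x1) - 2 • (z2 • op x2) + 4 • (z3 • op x3))
              * prodR L * K).trace
            = (prodRrev L * op y * prodR L * K).trace
              - 2 * z1 * (prodRrev L * op x1 * prodR L * K).trace
              - 2 * z2 * (prodRrev L * op x2 * prodR L * K).trace
              + 4 * z3 * (prodRrev L * op x3 * prodR L * K).trace := by
          have e2 : ∀ (z : ℂ) (M : Matrix (Q → Bool) (Q → Bool) ℂ),
              (2 : ℕ) • (z • M) = ((2 : ℂ) * z) • M := by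
            intro z M
            rw [← Nat.cast_smul_eq_nsmul ℂ, smul_smul]
            norm_num
          have e4 : ∀ (z : ℂ) (M : Matrix (Q → Bool) (Q → Bool) ℂ),
              (4 : ℕ) • (z • M) = ((4 : ℂ) * z) • M := by
            intro z M
            rw [← Nat.cast_smul_eq_nsmul ℂ, smul_smul]
            norm_num
          rw [e2, e2, e4]
          simp only [Matrix.mul_sub, Matrix.mul_add, Matrix.sub_mul, Matrix.add_mul, Matrix.mul_smul,
            Matrix.smul_mul, Matrix.trace_sub, Matrix.trace_add, Matrix.trace_smul, smul_eq_mul]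
        rw [lin]
        set t0 := (prodRrev L * op y * prodR L * K).trace
        set t1 := (prodRrev L * op x1 * prodR L * K).trace
        set t2 := (prodRrev L * op x2 * prodR L * K).trace
        set t3 := (prodRrev L * op x3 * prodR L * K).trace
        set X := (9 : ℝ) ^ (T ∩ suppU L).card
              * (b ^ (T.card + w * ((T ∩ suppU L).card + 1)) * c) with hXdef
        have n1 : ‖2 * z1 * t1‖ ≤ 2 * X := by
          rw [norm_mul, norm_mul]
          have h2 : ‖(2 : ℂ)‖ = 2 := by simp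
          rw [h2]
          have := mul_le_mul hz1 b1' (norm_nonneg _) (by norm_num : (0:ℝ) ≤ 1)
          nlinarith [norm_nonneg z1, norm_nonneg t1]
        have n2 : ‖2 * z2 * t2‖ ≤ 2 * X := by
          rw [norm_mul, norm_mul]
          have h2 : ‖(2 : ℂ)‖ = 2 := by simp
          rw [h2]
          have := mul_le_mul hz2 b2' (norm_nonneg _) (by norm_num : (0:ℝ) ≤ 1)
          nlinarith [norm_nonneg z2, norm_nonneg t2]
        have n3 : ‖4 * z3 * t3‖ ≤ 4 * X := by
          rw [norm_mul, norm_mul]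
          have h4 : ‖(4 : ℂ)‖ = 4 := by simp
          rw [h4]
          have := mul_le_mul hz3 b3' (norm_nonneg _) (by norm_num : (0:ℝ) ≤ 1)
          nlinarith [norm_nonneg z3, norm_nonneg t3]
        have tri : ‖t0 - 2 * z1 * t1 - 2 * z2 * t2 + 4 * z3 * t3‖
            ≤ ‖t0‖ + ‖2 * z1 * t1‖ + ‖2 * z2 * t2‖ + ‖4 * z3 * t3‖ := by
          refine (norm_add_le _ _).trans (add_le_add ?_ le_rfl)
          refine (norm_sub_le _ _).trans (add_le_add ?_ le_rfl)
          exact norm_sub_le _ _
        have hfin : 9 * X = (9 : ℝ) ^ ((T ∩ suppU L).card + 1)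
              * (b ^ (T.card + w * ((T ∩ suppU L).card + 1)) * c) := by
          rw [hXdef]
          ring
        have hlast := hmono ((T ∩ suppU L).card + 1) _ hcard
        linarith

theorem AtomBd.layer {K : Matrix (Q → Bool) (Q → Bool) ℂ} {b c : ℝ} (hK : AtomBd K b c)
    (hb : 1 ≤ b) (hc : 0 ≤ c) (w : ℕ) (L : List (Finset Q × (Q → Matrix Bool Bool ℂ)))
    (hL : GoodList L) (hw : ∀ g ∈ L, g.1.card ≤ w) :
    AtomBd (prodR L * K * prodRrev L) (9 * b ^ (w + 1)) c := by
  intro x hx T hT
  have e : (op x * (prodR L * K * prodRrev L)).trace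
      = (prodRrev L * op x * prodR L * K).trace := by
    have e2 : op x * (prodR L * K * prodRrev L) = (op x * prodR L * K) * prodRrev L := by
      simp only [Matrix.mul_assoc]
    rw [e2, Matrix.trace_mul_comm]
    simp only [Matrix.mul_assoc]
  rw [e]
  refine (mid_track K b c hb hc hK w L hL hw x hx T hT).trans ?_
  have hb0 : (0 : ℝ) ≤ b := by linarith
  have ht : (T ∩ suppU L).card ≤ T.card := Finset.card_le_card Finset.inter_subset_left
  have h1 : (9 : ℝ) ^ (T ∩ suppU L).card ≤ 9 ^ T.card := pow_le_pow_right₀ (by norm_num) ht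
  have hexp : T.card + w * (T ∩ suppU L).card ≤ (w + 1) * T.card := by
    have := Nat.mul_le_mul_left w ht
    nlinarith
  have h2 : b ^ (T.card + w * (T ∩ suppU L).card) ≤ b ^ ((w + 1) * T.card) :=
    pow_le_pow_right₀ hb hexp
  have e3 : (9 * b ^ (w + 1)) ^ T.card * c = 9 ^ T.card * (b ^ ((w + 1) * T.card) * c) := by
    rw [mul_pow, ← pow_mul]
    ring
  rw [e3]
  calc (9 : ℝ) ^ (T ∩ suppU L).card * (b ^ (T.card + w * (T ∩ suppU L).card) * c)
      ≤ 9 ^ T.card * (b ^ (T.card + w * (T ∩ suppU L).card) * c) :=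
        mul_le_mul_of_nonneg_right h1 (mul_nonneg (pow_nonneg hb0 _) hc)
    _ ≤ 9 ^ T.card * (b ^ ((w + 1) * T.card) * c) :=
        mul_le_mul_of_nonneg_left (mul_le_mul_of_nonneg_right h2 hc) (by positivity)

/-- Conjugating by a normal form of `j` layers of reflections on at most `w` qubits each
multiplies the exponent of the base by `(w + 2) ^ j`. -/
theorem AtomBd.nfw (w : ℕ) (c : ℝ) (hc : 0 ≤ c) :
    ∀ (j : ℕ) (M : Matrix (Q → Bool) (Q → Bool) ℂ), IsNFw w j M →
      ∀ (K : Matrix (Q → Bool) (Q → Bool) ℂ) (E : ℕ), 1 ≤ E → AtomBd K (9 ^ E) c →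
        AtomBd (M * K * Mᴴ) (9 ^ (E * (w + 2) ^ j)) c
  | 0, M, ⟨v, hv, e⟩, K, E, _, hK => by
      rw [e]
      have h := hK.conj v hv
      simpa using h
  | j + 1, M, ⟨M', L, v, hM', hL, hLw, hv, e⟩, K, E, hE, hK => by
      have h1 : AtomBd (op v * K * (op v)ᴴ) (9 ^ E) c := hK.conj v hv
      have h2 : AtomBd (prodR L * (op v * K * (op v)ᴴ) * prodRrev L) (9 * (9 ^ E) ^ (w + 1)) c :=
        h1.layer (one_le_pow₀ (by norm_num)) hc w L hL hLw
      have h3 : AtomBd (prodR L * (op v * K * (op v)ᴴ) * prodRrev L) (9 ^ (E * (w + 2))) c := by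
        refine h2.mono (by positivity) ?_ hc
        rw [← pow_mul, ← pow_succ']
        apply pow_le_pow_right₀ (by norm_num)
        nlinarith
      have h4 := AtomBd.nfw w c hc j M' hM' _ (E * (w + 2))
        (Nat.succ_le_of_lt (Nat.mul_pos hE (by omega))) h3
      have e2 : M * K * Mᴴ = M' * (prodR L * (op v * K * (op v)ᴴ) * prodRrev L) * M'ᴴ := by
        rw [e]
        simp only [Matrix.conjTranspose_mul, prodR_conjTranspose L hL.1, Matrix.mul_assoc]
      rw [e2]
      have e3 : E * (w + 2) ^ (j + 1) = E * (w + 2) * (w + 2) ^ j := by ring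
      rw [e3]
      exact h4

/-- Peeling the last layer off a normal form. -/
theorem IsNFw.top (w : ℕ) : ∀ (j : ℕ) (M : Matrix (Q → Bool) (Q → Bool) ℂ), IsNFw w (j + 1) M →
    ∃ (v : Q → Matrix Bool Bool ℂ) (L : List (Finset Q × (Q → Matrix Bool Bool ℂ)))
      (M₀ : Matrix (Q → Bool) (Q → Bool) ℂ), (∀ i, (v i)ᴴ * v i = 1) ∧ GoodList L ∧
      (∀ g ∈ L, g.1.card ≤ w) ∧ IsNFw w j M₀ ∧ M = op v * prodR L * M₀
  | 0, M, ⟨M', L, v0, hM', hL, hLw, hv0, e⟩ => by
      obtain ⟨v', hv', e'⟩ := hM'
      exact ⟨v', L, op v0, hv', hL, hLw, ⟨v0, hv0, rfl⟩, by rw [e, e']⟩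
  | j + 1, M, ⟨M', L, v0, hM', hL, hLw, hv0, e⟩ => by
      obtain ⟨v, L', M₀', hv, hL', hLw', hM₀', e'⟩ := IsNFw.top w j M' hM'
      exact ⟨v, L', M₀' * prodR L * op v0, hv, hL', hLw', ⟨M₀', L, v0, hM₀', hL, hLw, hv0, rfl⟩, by
        rw [e, e']
        simp only [Matrix.mul_assoc]⟩

theorem IsNFw.unitary (w : ℕ) : ∀ (d : ℕ) (M : Matrix (Q → Bool) (Q → Bool) ℂ), IsNFw w d M →
    Mᴴ * M = 1
  | 0, M, ⟨v, hv, e⟩ => by
      rw [e]
      exact op_unitary_left v hv
  | d + 1, M, ⟨M', L, v, hM', hL, _, hv, e⟩ => by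
      rw [e]
      exact unitary_mul_big _ _ (unitary_mul_big _ _ (IsNFw.unitary w d M' hM')
        (prodR_unitary L hL)) (op_unitary_left v hv)

theorem diag_mass_bound (C : Matrix (Q → Bool) (Q → Bool) ℂ) (hC : Cᴴ * C = 1) (I : Finset Q)
    (v : Q → Matrix Bool Bool ℂ) (hv : ∀ i, (v i)ᴴ * v i = 1) :
    ∑ s, ‖((op v)ᴴ * (C * Matrix.diagonal (fun s : Q → Bool => ((rz I s : ℝ) : ℂ)) * Cᴴ)
        * op v) s s‖ ≤ 2 ^ I.card := by
  have hC' : ((op v)ᴴ * C)ᴴ * ((op v)ᴴ * C) = 1 := by
    rw [Matrix.conjTranspose_mul, Matrix.conjTranspose_conjTranspose, Matrix.mul_assoc,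
      ← Matrix.mul_assoc (op v), op_unitary_right v hv, Matrix.one_mul, hC]
  have h := diag_conj_abs_sum ((op v)ᴴ * C) hC' (rz I)
  have e : (op v)ᴴ * (C * Matrix.diagonal (fun t : Q → Bool => ((rz I t : ℝ) : ℂ)) * Cᴴ) * op v
      = (op v)ᴴ * C * Matrix.diagonal (fun t => ((rz I t : ℝ) : ℂ)) * ((op v)ᴴ * C)ᴴ := by
    have e3 : ((op v)ᴴ * C)ᴴ = Cᴴ * op v := by
      rw [Matrix.conjTranspose_mul ((op v)ᴴ) C, Matrix.conjTranspose_conjTranspose]
    rw [e3]
    simp only [Matrix.mul_assoc]
  rw [e]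
  refine h.trans (le_of_eq ?_)
  simp only [rz_abs]
  exact sum_rzAbs I

end Vale.Agent.H98.QAC
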