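import Mathlib
import Vale.Agent.H98.QAC.Basic
import Vale.Agent.H98.QAC.Abs
import Vale.Agent.H98.QAC.Block
import Vale.Agent.H98.QAC.Factor
import Vale.Agent.H98.QAC.Core
import Vale.Agent.H98.QAC.Top
import Vale.Agent.H98.QAC.Main
import Vale.Agent.H98.QAC.Circuit
import Vale.Agent.H98.QAC.NF
import Vale.Agent.H98.QAC.NFw
import Vale.Agent.H98.QAC.Prob
import Vale.Agent.H98.QAC.Final
import Vale.Agent.H98.QAC.Polar
import Vale.Agent.H98.QAC.Atom
import Vale.Agent.H98.QAC.AtomBlock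
import Vale.Agent.H98.QAC.Mid
import Vale.Agent.H98.QAC.Approx
import Vale.Agent.H98.QAC.Cheb
import Vale.Agent.H98.QAC.Core3
import Vale.Agent.H98.QAC.Cheb2
import Vale.Agent.H98.QAC.Approx2
import Vale.Agent.H98.QAC.Deep

namespace Vale.Agent.H98.QAC

open Matrix

set_option linter.unusedSectionVars false

variable {Q : Type} [Fintype Q] [DecidableEq Q]

/-- The last layer: if the kernel `K` pairs with products of atoms on `T` by at most
`b ^ |T| * c`, then one more layer of one-qubit unitaries and reflections on at most `W`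
qubits each adds at most the error of the approximate inclusion-exclusion of degree `k`. -/
theorem top_step (K : Matrix (Q → Bool) (Q → Bool) ℂ) (Dm c b P0 : ℝ) (hb : 0 ≤ b) (k W : ℕ)
    (hW1 : 1 ≤ W)
    (hDb : ∀ v : Q → Matrix Bool Bool ℂ, (∀ i, (v i)ᴴ * v i = 1) →
      ∑ s, ‖((op v)ᴴ * K * op v) s s‖ ≤ Dm)
    (hK : AtomBd K b c) (q : Q)
    (hP : ∀ a' : Bool → ℂ, star a' ⬝ᵥ a' = 1 →
      ‖(op (Function.update (fun _ => (1 : Matrix Bool Bool ℂ)) q (vecMulVec a' (star a')))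
          * K).trace‖ ≤ P0)
    (v : Q → Matrix Bool Bool ℂ) (hv : ∀ i, (v i)ᴴ * v i = 1)
    (L : List (Finset Q × (Q → Matrix Bool Bool ℂ))) (hL : GoodList L)
    (hLW : ∀ g ∈ L, g.1.card ≤ W) (a : Bool → ℂ) (ha : star a ⬝ᵥ a = 1) :
    ‖(op (Function.update (fun _ => (1 : Matrix Bool Bool ℂ)) q (vecMulVec a (star a)))
        * (op v * prodR L) * K * (op v * prodR L)ᴴ).trace‖
      ≤ P0 + 2 * (2 * Real.exp (-((k : ℝ) / Real.sqrt W)) * Dm
          + (2 * b * (W : ℝ) + 1) ^ k * c) := by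
  set M := op (Function.update (fun _ => (1 : Matrix Bool Bool ℂ)) q (vecMulVec a (star a)))
    with hM
  have hCH : (op v * prodR L)ᴴ = prodRrev L * (op v)ᴴ := by
    rw [Matrix.conjTranspose_mul, prodR_conjTranspose L hL.1]
  have hre : M * (op v * prodR L) * K * (prodRrev L * (op v)ᴴ)
      = (M * op v * prodR L) * K * (prodRrev L * (op v)ᴴ) := by
    simp only [Matrix.mul_assoc]
  rw [hCH, hre, Matrix.trace_mul_cycle]
  obtain ⟨ha0, hm0⟩ := rank_conj (R := v q) (mul_eq_one_comm.mp (hv q)) ha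
  set a0 := (v q)ᴴ *ᵥ a with ha0def
  have hM2 : (op v)ᴴ * M * op v
      = op (Function.update (fun _ => (1 : Matrix Bool Bool ℂ)) q (vecMulVec a0 (star a0))) := by
    rw [hM, op_conjTranspose, op_mul, op_mul]
    congr 1
    funext i
    by_cases h : i = q
    · rw [h, Function.update_self, Function.update_self]
      exact hm0
    · simp [Function.update_of_ne h, hv i]
  obtain ⟨y1, y2, S, hy1, hy2, hSdef, hS, htop⟩ := top_layer_rank q a0 ha0 L hL
  have hSW : S.card ≤ W := by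
    rcases hSdef with h | ⟨g, hg, h⟩
    · rw [h, Finset.card_singleton]
      exact hW1
    · rw [h]
      exact hLW g hg
  have hmid : (prodRrev L * (op v)ᴴ) * (M * op v * prodR L)
      = op (Function.update (fun _ => (1 : Matrix Bool Bool ℂ)) q (vecMulVec a0 (star a0)))
        + op y1 - op y2 := by
    calc (prodRrev L * (op v)ᴴ) * (M * op v * prodR L)
        = prodRrev L * ((op v)ᴴ * M * op v) * prodR L := by
          simp only [Matrix.mul_assoc]
      _ = _ := by rw [hM2, htop]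
  rw [hmid, Matrix.sub_mul, Matrix.add_mul, Matrix.trace_sub, Matrix.trace_add]
  have b0 := hP a0 ha0
  obtain ⟨β, hβ1, hβ2⟩ := cheb_exists_gen W k b hb
  have hterm : ∀ (T : Finset Q) (y' : Q → Matrix Bool Bool ℂ), AtomFam y' →
      (∀ i, i ∉ T → y' i = 1) → ‖(op y' * K).trace‖ ≤ b ^ T.card * c :=
    fun T y' hy' hT => hK y' hy' T hT
  have hc0 : 0 ≤ c := by
    have h := hK (fun _ => 1) (fun _ => atom1_one) ∅ (fun _ _ => rfl)
    have h2 := (norm_nonneg _).trans h
    simpa using h2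
  have A1 := and_approx_gen K Dm c (2 * Real.exp (-((k : ℝ) / Real.sqrt W))) b hb k W β hβ1
    hDb hterm y1 hy1 S (fun i hi => (hS i hi).1) hSW
  have A2 := and_approx_gen K Dm c (2 * Real.exp (-((k : ℝ) / Real.sqrt W))) b hb k W β hβ1
    hDb hterm y2 hy2 S (fun i hi => (hS i hi).2) hSW
  have hSum : (∑ j ∈ Finset.range (k + 1), |β j| * (W.choose j : ℝ) * b ^ j) * c
      ≤ (2 * b * (W : ℝ) + 1) ^ k * c := mul_le_mul_of_nonneg_right hβ2 hc0
  refine (norm_sub_le _ _).trans ?_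
  refine (add_le_add (norm_add_le _ _) le_rfl).trans ?_
  linarith

/-- The kernel of a normal form with `m + 2` layers, the upper `m` on at most `w` qubits per
reflection: products of atoms on `T` pair with it by at most
`9 ^ ((w + 2) ^ m * |T|) * 2 ^ (3 n / 4)`. -/
theorem kernel_atomBd (w : ℕ) (I : Finset Q) (m : ℕ) (M : Matrix (Q → Bool) (Q → Bool) ℂ)
    (hM : IsNFw w (m + 2) M) :
    AtomBd (M * Matrix.diagonal (fun s : Q → Bool => ((rz I s : ℝ) : ℂ)) * Mᴴ)
      (9 ^ ((w + 2) ^ m)) (r4 ^ (3 * I.card)) := by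
  obtain ⟨M1, L1, v0, hM1, hL1, _, hv0, e1⟩ := hM
  obtain ⟨M2, L2, v1, hM2, hL2, hL2w, hv1, e2⟩ := hM1
  have hc0 : (0 : ℝ) ≤ r4 ^ (3 * I.card) := pow_nonneg r4_pos.le _
  set K1 := prodR L1 * op (cfam v0 (zd I)) * prodRrev L1 with hK1
  have hA1 : AtomBd K1 1 (r4 ^ (3 * I.card)) := by
    intro x hx T _
    have h := single_bound_atom v0 hv0 I L1 hL1 x hx
    rw [one_pow, one_mul]
    have e : op x * K1 = op x * prodR L1 * op (cfam v0 (zd I)) * prodRrev L1 := by
      rw [hK1]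
      simp only [Matrix.mul_assoc]
    rw [e]
    exact h
  have hA2 : AtomBd (prodR L2 * (op v1 * K1 * (op v1)ᴴ) * prodRrev L2) (9 * 1 ^ (w + 1))
      (r4 ^ (3 * I.card)) :=
    (hA1.conj v1 hv1).layer le_rfl hc0 w L2 hL2 hL2w
  have hA2' : AtomBd (prodR L2 * (op v1 * K1 * (op v1)ᴴ) * prodRrev L2) (9 ^ 1)
      (r4 ^ (3 * I.card)) := by
    simpa using hA2
  have hA3 := AtomBd.nfw w _ hc0 m M2 hM2 _ 1 le_rfl hA2'
  have e : M * Matrix.diagonal (fun s : Q → Bool => ((rz I s : ℝ) : ℂ)) * Mᴴ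
      = M2 * (prodR L2 * (op v1 * K1 * (op v1)ᴴ) * prodRrev L2) * M2ᴴ := by
    have hX : op (cfam v0 (zd I))
        = op v0 * Matrix.diagonal (fun s : Q → Bool => ((rz I s : ℝ) : ℂ)) * (op v0)ᴴ := by
      rw [op_cfam]
      rfl
    rw [e1, e2, hK1, hX]
    simp only [Matrix.conjTranspose_mul, prodR_conjTranspose L1 hL1.1,
      prodR_conjTranspose L2 hL2.1, Matrix.mul_assoc]
  rw [e]
  simpa using hA3

/-- Core estimate at every entangling depth `m + 2`: every reflection acts on at most `w`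
qubits, and `E` is at least `(w + 2) ^ (m - 1)`. -/
theorem deep (w : ℕ) (hw1 : 1 ≤ w) (I : Finset Q) (k E : ℕ) :
    ∀ (m : ℕ), (w + 2) ^ (m - 1) ≤ E → ∀ (M : Matrix (Q → Bool) (Q → Bool) ℂ),
      IsNFw w (m + 2) M → ∀ (q : Q) (a : Bool → ℂ), star a ⬝ᵥ a = 1 →
      ‖(op (Function.update (fun _ => (1 : Matrix Bool Bool ℂ)) q (vecMulVec a (star a))) * M
          * Matrix.diagonal (fun s : Q → Bool => ((rz I s : ℝ) : ℂ)) * Mᴴ).trace‖
        ≤ 3 * Real.sqrt 2 ^ I.card
          + (m : ℝ) * (2 * (2 * Real.exp (-((k : ℝ) / Real.sqrt w)) * 2 ^ I.card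
            + (2 * 9 ^ E * (w : ℝ) + 1) ^ k * r4 ^ (3 * I.card)))
  | 0, _, M, hM, q, a, ha => by
      obtain ⟨M1, L1, v0, hM1, hL1, _, hv0, e1⟩ := hM
      obtain ⟨M2, L2, v1, hM2, hL2, _, hv1, e2⟩ := hM1
      obtain ⟨v2, hv2, e3⟩ := hM2
      have h := core v0 v1 v2 hv0 hv1 hv2 L1 L2 hL1 hL2 I q (vecMulVec a (star a))
        (rankOne_isProj ha) (rankOne_trace ha)
      have eM : M = op v2 * prodR L2 * op v1 * prodR L1 * op v0 := by rw [e1, e2, e3]
      rw [eM]
      simpa using h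
  | m + 1, hE, M, hM, q, a, ha => by
      obtain ⟨v, L, M₀, hv, hL, hLw, hM₀, e⟩ := IsNFw.top w (m + 2) M hM
      have hE' : (w + 2) ^ m ≤ E := by simpa using hE
      have hE0 : (w + 2) ^ (m - 1) ≤ E :=
        (Nat.pow_le_pow_right (by omega) (Nat.sub_le m 1)).trans hE'
      have IH := deep w hw1 I k E m hE0 M₀ hM₀ q
      have hc0 : (0 : ℝ) ≤ r4 ^ (3 * I.card) := pow_nonneg r4_pos.le _
      have hKb : AtomBd (M₀ * Matrix.diagonal (fun s : Q → Bool => ((rz I s : ℝ) : ℂ)) * M₀ᴴ)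
          (9 ^ E) (r4 ^ (3 * I.card)) :=
        (kernel_atomBd w I m M₀ hM₀).mono (by positivity)
          (pow_le_pow_right₀ (by norm_num) hE') hc0
      have hU := IsNFw.unitary w (m + 2) M₀ hM₀
      have hDb := diag_mass_bound M₀ hU I
      have hP : ∀ a' : Bool → ℂ, star a' ⬝ᵥ a' = 1 →
          ‖(op (Function.update (fun _ => (1 : Matrix Bool Bool ℂ)) q (vecMulVec a' (star a')))
            * (M₀ * Matrix.diagonal (fun s : Q → Bool => ((rz I s : ℝ) : ℂ)) * M₀ᴴ)).trace‖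
          ≤ 3 * Real.sqrt 2 ^ I.card
            + (m : ℝ) * (2 * (2 * Real.exp (-((k : ℝ) / Real.sqrt w)) * 2 ^ I.card
              + (2 * 9 ^ E * (w : ℝ) + 1) ^ k * r4 ^ (3 * I.card))) := by
        intro a' ha'
        have h := IH a' ha'
        have e' : op (Function.update (fun _ => (1 : Matrix Bool Bool ℂ)) q
              (vecMulVec a' (star a')))
            * (M₀ * Matrix.diagonal (fun s : Q → Bool => ((rz I s : ℝ) : ℂ)) * M₀ᴴ)
            = op (Function.update (fun _ => (1 : Matrix Bool Bool ℂ)) q (vecMulVec a' (star a')))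
              * M₀ * Matrix.diagonal (fun s : Q → Bool => ((rz I s : ℝ) : ℂ)) * M₀ᴴ := by
          simp only [Matrix.mul_assoc]
        rw [e']
        exact h
      have hts := top_step _ (2 ^ I.card) (r4 ^ (3 * I.card)) (9 ^ E) _ (by positivity) k w hw1
        hDb hKb q hP v hv L hL hLw a ha
      have eM : op (Function.update (fun _ => (1 : Matrix Bool Bool ℂ)) q (vecMulVec a (star a)))
            * M * Matrix.diagonal (fun s : Q → Bool => ((rz I s : ℝ) : ℂ)) * Mᴴ
          = op (Function.update (fun _ => (1 : Matrix Bool Bool ℂ)) q (vecMulVec a (star a)))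
            * (op v * prodR L)
            * (M₀ * Matrix.diagonal (fun s : Q → Bool => ((rz I s : ℝ) : ℂ)) * M₀ᴴ)
            * (op v * prodR L)ᴴ := by
        rw [e]
        simp only [Matrix.conjTranspose_mul, Matrix.mul_assoc]
      rw [eM]
      refine hts.trans (le_of_eq ?_)
      push_cast
      ring

end Vale.Agent.H98.QAC
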