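import Mathlib
import Vale.Agent.H98.QAC.Basic
import Vale.Agent.H98.QAC.Abs
import Vale.Agent.H98.QAC.Block
import Vale.Agent.H98.QAC.Factor
import Vale.Agent.H98.QAC.Core
import Vale.Agent.H98.QAC.Top
import Vale.Agent.H98.QAC.Main
import Vale.Agent.H98.QAC.Circuit
import Vale.Agent.H98.QAC.NF
import Vale.Agent.H98.QAC.NFw
import Vale.Agent.H98.QAC.Prob
import Vale.Agent.H98.QAC.Final
import Vale.Agent.H98.QAC.AtomBlock
import Vale.Agent.H98.QAC.Core3

namespace Vale.Agent.H98.QAC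

open Matrix

set_option linter.unusedSectionVars false

theorem measP_rank (b : Bool) :
    ∃ a : Bool → ℂ, star a ⬝ᵥ a = 1 ∧ measP b = vecMulVec a (star a) := by
  refine ⟨fun c => if c = b then 1 else 0, ?_, ?_⟩
  · cases b <;> simp [dotProduct]
  · ext x y
    cases b <;> cases x <;> cases y <;>
      simp [measP, Matrix.vecMulVec_apply]

variable {n : ℕ} {A : Type} [Fintype A] [DecidableEq A]

theorem signed_sum_bound3 (c : List (List (Gate (Fin n ⊕ A)))) (hc : ∀ l ∈ c, IsLayer l)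
    (hd : entanglingDepth c ≤ 3) (w : ℕ) (hw1 : 1 ≤ w)
    (hw : ∀ l ∈ c, ∀ g ∈ l, g.support.card ≤ w) (q : Fin n ⊕ A) (b : Bool) (k : ℕ) :
    |∑ x : Fin n → Bool, chi x * outProb (circuitMatrix c) q (inputState x) b|
      ≤ 3 * Real.sqrt 2 ^ n
        + 2 * (2 * Real.exp (-((k : ℝ) / Real.sqrt w)) * 2 ^ n
            + (18 * (w : ℝ) + 1) ^ k * r4 ^ (3 * n)) := by
  obtain ⟨v0, v1, v2, v3, L1, L2, L3, h0, h1, h2, h3, hL1, hL2, hL3, hw3, hC⟩ :=
    nf_three_w w _ (IsNFw.mono w hd _ (circuit_nfw w c hc hw))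
  obtain ⟨a, ha, hma⟩ := measP_rank b
  have hcore := core3 v0 v1 v2 v3 h0 h1 h2 h3 L1 L2 L3 hL1 hL2 hL3 (inputSet n A) q a ha k w
    hw1 hw3
  rw [← hma, ← hC, trace_prob, card_inputSet, sum_rz_inputSet, Complex.norm_real,
    Real.norm_eq_abs] at hcore
  exact hcore

/-- Parity correlation at entangling depth three, with a free degree parameter `k`; every gate
acts on at most `w` qubits. -/
theorem depth3_correlation_k (c : List (List (Gate (Fin n ⊕ A))))
    (hc : ∀ l ∈ c, IsLayer l) (hd : entanglingDepth c ≤ 3) (w : ℕ) (hw1 : 1 ≤ w)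
    (hw : ∀ l ∈ c, ∀ g ∈ l, g.support.card ≤ w) (q : Fin n ⊕ A) (k : ℕ) :
    |parityCorrelation (circuitMatrix c) q| ≤ 6 / Real.sqrt 2 ^ n
      + 8 * Real.exp (-((k : ℝ) / Real.sqrt w))
      + 4 * (18 * (w : ℝ) + 1) ^ k / r4 ^ n := by
  have hf := signed_sum_bound3 c hc hd w hw1 hw q false k
  have ht := signed_sum_bound3 c hc hd w hw1 hw q true k
  unfold parityCorrelation
  rw [correlation_split, abs_div, abs_of_pos (by positivity : (0 : ℝ) < 2 ^ n)]
  have hs : (0 : ℝ) < Real.sqrt 2 ^ n := by positivity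
  have hr : (0 : ℝ) < r4 ^ n := pow_pos r4_pos n
  have h2n : (2 : ℝ) ^ n = Real.sqrt 2 ^ n * Real.sqrt 2 ^ n := by
    rw [← mul_pow, Real.mul_self_sqrt (by norm_num)]
  have h2r : (2 : ℝ) ^ n = r4 ^ (3 * n) * r4 ^ n := by
    rw [← pow_add, show 3 * n + n = 4 * n by ring, pow_mul, r4_pow_four]
  rw [div_le_iff₀ (by positivity)]
  have e1 : 6 / Real.sqrt 2 ^ n * 2 ^ n = 6 * Real.sqrt 2 ^ n := by
    rw [h2n]
    field_simp
  have e2 : 4 * (18 * (w : ℝ) + 1) ^ k / r4 ^ n * 2 ^ n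
      = 4 * (18 * (w : ℝ) + 1) ^ k * r4 ^ (3 * n) := by
    rw [h2r]
    field_simp
  have habs := abs_sub (∑ x : Fin n → Bool, chi x * outProb (circuitMatrix c) q (inputState x) false)
    (∑ x : Fin n → Bool, chi x * outProb (circuitMatrix c) q (inputState x) true)
  rw [add_mul, add_mul, e1, e2]
  linarith

theorem outProb_nonneg {Q : Type} [Fintype Q] [DecidableEq Q]
    (C : Matrix (Q → Bool) (Q → Bool) ℂ) (q : Q) (s0 : Q → Bool) (b : Bool) :
    0 ≤ outProb C q s0 b := by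
  unfold outProb
  refine Finset.sum_nonneg (fun s _ => ?_)
  split_ifs
  · positivity
  · exact le_refl _

theorem correlation_le_one (C : Matrix (Fin n ⊕ A → Bool) (Fin n ⊕ A → Bool) ℂ)
    (hC : Cᴴ * C = 1) (q : Fin n ⊕ A) : |parityCorrelation C q| ≤ 1 := by
  unfold parityCorrelation
  rw [abs_div, abs_of_pos (by positivity : (0 : ℝ) < 2 ^ n), div_le_one (by positivity)]
  refine (Finset.abs_sum_le_sum_abs _ _).trans ?_
  have h : ∀ x ∈ (Finset.univ : Finset (Fin n → Bool)),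
      |outProb C q (inputState x) (parity x) - outProb C q (inputState x) (!(parity x))| ≤ 1 := by
    intro x _
    have h1 := outProb_add C hC q (inputState x) (parity x)
    have h2 := outProb_nonneg C q (inputState x) (parity x)
    have h3 := outProb_nonneg C q (inputState x) (!(parity x))
    rw [abs_le]
    constructor <;> linarith
  refine (Finset.sum_le_sum h).trans ?_
  simp

theorem circuit_unitary_any (c : List (List (Gate (Fin n ⊕ A)))) (hc : ∀ l ∈ c, IsLayer l) :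
    (circuitMatrix c)ᴴ * circuitMatrix c = 1 :=
  IsNF.unitary _ _ (circuit_nf c hc)

theorem r4_pow_eq (n : ℕ) : r4 ^ n = (2 : ℝ) ^ ((n : ℝ) / 8) * (2 : ℝ) ^ ((n : ℝ) / 8) := by
  have h1 : r4 = (2 : ℝ) ^ ((1 : ℝ) / 4) := by
    unfold r4
    rw [Real.sqrt_eq_rpow, Real.sqrt_eq_rpow, ← Real.rpow_mul (by norm_num)]
    norm_num
  rw [h1, ← Real.rpow_natCast, ← Real.rpow_mul (by norm_num), ← Real.rpow_add (by norm_num)]
  congr 1
  ring

/-- Parity correlation at entangling depth three: an explicit bound in terms of the number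
of inputs `n` and a bound `w` on the number of qubits of each gate; the number of ancillas
is arbitrary. -/
theorem depth3_correlation (c : List (List (Gate (Fin n ⊕ A))))
    (hc : ∀ l ∈ c, IsLayer l) (hd : entanglingDepth c ≤ 3) (w : ℕ) (hw1 : 1 ≤ w)
    (hw : ∀ l ∈ c, ∀ g ∈ l, g.support.card ≤ w) (q : Fin n ⊕ A) :
    |parityCorrelation (circuitMatrix c) q| ≤ 6 / Real.sqrt 2 ^ n + 4 / (2 : ℝ) ^ ((n : ℝ) / 8)
      + 8 * Real.exp (-((n : ℝ) * Real.log 2
          / (16 * Real.sqrt (w : ℝ) * Real.log (19 * (w : ℝ))))) := by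
  set t : ℝ := (n : ℝ) * Real.log 2 / (16 * Real.sqrt (w : ℝ) * Real.log (19 * (w : ℝ))) with ht
  have hu : (0 : ℝ) < (2 : ℝ) ^ ((n : ℝ) / 8) := Real.rpow_pos_of_pos (by norm_num) _
  have hs : (0 : ℝ) < Real.sqrt 2 ^ n := by positivity
  by_cases ht1 : t < 1
  · have h1 := correlation_le_one (circuitMatrix c) (circuit_unitary_any c hc) q
    have h2 : (1 : ℝ) ≤ 8 * Real.exp (-t) := by
      have h3 : Real.exp (-1) ≤ Real.exp (-t) := Real.exp_le_exp.mpr (by linarith)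
      have h4 : Real.exp 1 * Real.exp (-1) = 1 := by
        rw [← Real.exp_add]
        simp
      have h5 := Real.exp_one_lt_d9
      have h6 : 0 < Real.exp (-1) := Real.exp_pos _
      nlinarith
    have h7 : (0 : ℝ) ≤ 6 / Real.sqrt 2 ^ n := by positivity
    have h8 : (0 : ℝ) ≤ 4 / (2 : ℝ) ^ ((n : ℝ) / 8) := by positivity
    linarith
  · have ht1' : 1 ≤ t := not_lt.mp ht1
    have hNr : (1 : ℝ) ≤ (w : ℝ) := by exact_mod_cast hw1
    have hsN : 1 ≤ Real.sqrt (w : ℝ) := by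
      rw [show (1 : ℝ) = Real.sqrt 1 by simp]
      exact Real.sqrt_le_sqrt hNr
    have hℓ : 0 < Real.log (19 * (w : ℝ)) := Real.log_pos (by linarith)
    set s := Real.sqrt (w : ℝ) with hsdef
    set ℓ := Real.log (19 * (w : ℝ)) with hℓdef
    have hts : 1 ≤ t * s := by nlinarith
    set k : ℕ := ⌈t * s⌉₊ with hk
    have hk1 : t * s ≤ (k : ℝ) := Nat.le_ceil _
    have hk2 : (k : ℝ) < t * s + 1 := Nat.ceil_lt_add_one (by linarith)
    have hmain := depth3_correlation_k c hc hd w hw1 hw q k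
    have ha : Real.exp (-((k : ℝ) / s)) ≤ Real.exp (-t) := by
      apply Real.exp_le_exp.mpr
      have : t ≤ (k : ℝ) / s := by
        rw [le_div_iff₀ (by linarith)]
        exact hk1
      linarith
    have hW : (18 * (w : ℝ) + 1) ^ k ≤ (2 : ℝ) ^ ((n : ℝ) / 8) := by
      have h1 : (18 * (w : ℝ) + 1) ^ k ≤ (19 * (w : ℝ)) ^ k :=
        pow_le_pow_left₀ (by linarith) (by linarith) k
      have h2 : (19 * (w : ℝ)) ^ k = Real.exp ((k : ℝ) * ℓ) := by
        rw [Real.exp_nat_mul, hℓdef, Real.exp_log (by linarith)]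
      have h3 : (2 : ℝ) ^ ((n : ℝ) / 8) = Real.exp (Real.log 2 * ((n : ℝ) / 8)) := by
        rw [Real.rpow_def_of_pos (by norm_num)]
      have h4 : (k : ℝ) * ℓ ≤ Real.log 2 * ((n : ℝ) / 8) := by
        have h5 : t * (16 * s * ℓ) = (n : ℝ) * Real.log 2 := by
          rw [ht]
          field_simp
        have h6 : (k : ℝ) ≤ 2 * (t * s) := by linarith
        have h7 : (k : ℝ) * ℓ ≤ 2 * (t * s) * ℓ := mul_le_mul_of_nonneg_right h6 hℓ.le
        nlinarith
      rw [h3]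
      exact h1.trans (h2 ▸ Real.exp_le_exp.mpr h4)
    have hr : r4 ^ n = (2 : ℝ) ^ ((n : ℝ) / 8) * (2 : ℝ) ^ ((n : ℝ) / 8) := r4_pow_eq n
    have hb : 4 * (18 * (w : ℝ) + 1) ^ k / r4 ^ n ≤ 4 / (2 : ℝ) ^ ((n : ℝ) / 8) := by
      rw [hr, div_le_div_iff₀ (by positivity) hu]
      nlinarith
    have hc8 : 8 * Real.exp (-((k : ℝ) / s)) ≤ 8 * Real.exp (-t) := by linarith
    linarith

/-- A worst-case advantage `ε` forces parity correlation at least `2 ε`. -/
theorem depth3_advantage (c : List (List (Gate (Fin n ⊕ A))))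
    (hc : ∀ l ∈ c, IsLayer l) (q : Fin n ⊕ A) (ε : ℝ)
    (hε : ∀ x : Fin n → Bool, 1 / 2 + ε ≤ outProb (circuitMatrix c) q (inputState x) (parity x)) :
    2 * ε ≤ |parityCorrelation (circuitMatrix c) q| := by
  have hU := circuit_unitary_any c hc
  have hlow : 2 * ε ≤ parityCorrelation (circuitMatrix c) q := by
    unfold parityCorrelation
    rw [le_div_iff₀ (by positivity)]
    have hx : ∀ x : Fin n → Bool, 2 * ε ≤ outProb (circuitMatrix c) q (inputState x) (parity x)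
        - outProb (circuitMatrix c) q (inputState x) (!(parity x)) := by
      intro x
      have h1 := outProb_add (circuitMatrix c) hU q (inputState x) (parity x)
      have h2 := hε x
      linarith
    calc 2 * ε * 2 ^ n = ∑ _x : Fin n → Bool, 2 * ε := by
          rw [Finset.sum_const, Finset.card_univ, Fintype.card_fun, Fintype.card_bool,
            Fintype.card_fin, nsmul_eq_mul]
          push_cast
          ring
      _ ≤ _ := Finset.sum_le_sum (fun x _ => hx x)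
  exact hlow.trans (le_abs_self _)

theorem support_card_le (g : Gate (Fin n ⊕ A)) : g.support.card ≤ n + Fintype.card A := by
  have h := Finset.card_le_univ g.support
  simpa using h

theorem three_terms (δ : ℝ) (hδ : 0 < δ) (n : ℕ) (t : ℝ)
    (hn : 8 * Real.log (18 / δ) / Real.log 2 ≤ (n : ℝ)) (ht : Real.log (24 / δ) ≤ t) :
    6 / Real.sqrt 2 ^ n + 4 / (2 : ℝ) ^ ((n : ℝ) / 8) + 8 * Real.exp (-t) ≤ δ := by
  have hlog2 : 0 < Real.log 2 := Real.log_pos (by norm_num)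
  have hT3 : 8 * Real.exp (-t) ≤ δ / 3 := by
    have h1 : Real.exp (-t) ≤ Real.exp (-Real.log (24 / δ)) :=
      Real.exp_le_exp.mpr (by linarith)
    have h2 : Real.exp (-Real.log (24 / δ)) = δ / 24 := by
      rw [Real.exp_neg, Real.exp_log (by positivity)]
      field_simp
    rw [h2] at h1
    linarith
  have hu : 18 / δ ≤ (2 : ℝ) ^ ((n : ℝ) / 8) := by
    rw [Real.rpow_def_of_pos (by norm_num), ← Real.exp_log (by positivity : (0 : ℝ) < 18 / δ)]
    apply Real.exp_le_exp.mpr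
    rw [div_le_iff₀ hlog2] at hn
    linarith
  have hupos : (0 : ℝ) < (2 : ℝ) ^ ((n : ℝ) / 8) := Real.rpow_pos_of_pos (by norm_num) _
  rw [div_le_iff₀ hδ] at hu
  have hT2 : 4 / (2 : ℝ) ^ ((n : ℝ) / 8) ≤ δ / 3 := by
    rw [div_le_iff₀ hupos]
    nlinarith
  have hsq : (2 : ℝ) ^ ((n : ℝ) / 8) ≤ Real.sqrt 2 ^ n := by
    have h1 : Real.sqrt 2 ^ n = (2 : ℝ) ^ ((n : ℝ) / 2) := by
      rw [Real.sqrt_eq_rpow, ← Real.rpow_natCast, ← Real.rpow_mul (by norm_num)]
      congr 1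
      ring
    rw [h1]
    apply Real.rpow_le_rpow_of_exponent_le (by norm_num)
    have h0 : (0 : ℝ) ≤ (n : ℝ) := Nat.cast_nonneg n
    linarith
  have hT1 : 6 / Real.sqrt 2 ^ n ≤ δ / 3 := by
    have hs : (0 : ℝ) < Real.sqrt 2 ^ n := by positivity
    rw [div_le_iff₀ hs]
    nlinarith
  linarith

theorem t_lower (τ : ℝ) (hτ1 : 1 ≤ τ) (n w : ℕ) (hn : (19 : ℝ) ≤ (n : ℝ)) (hw1 : 1 ≤ w)
    (hwle : (w : ℝ) ≤ (Real.log 2 / (48 * τ) * (n : ℝ) / Real.log (n : ℝ)) ^ 2) :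
    τ ≤ (n : ℝ) * Real.log 2 / (16 * Real.sqrt (w : ℝ) * Real.log (19 * (w : ℝ))) := by
  have hlog2 : 0 < Real.log 2 := Real.log_pos (by norm_num)
  have hlog2' : Real.log 2 < 1 := by
    have h := Real.log_two_lt_d9
    linarith
  set w₀ : ℝ := Real.log 2 / (48 * τ) with hw₀
  have hw0 : 0 < w₀ := by positivity
  have hw1' : w₀ ≤ 1 := by
    rw [hw₀, div_le_one (by positivity)]
    nlinarith
  have hΛ : 1 ≤ Real.log (n : ℝ) := by
    rw [Real.le_log_iff_exp_le (by linarith)]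
    have h := Real.exp_one_lt_d9
    linarith
  set Λ : ℝ := Real.log (n : ℝ) with hΛdef
  have hwr : (1 : ℝ) ≤ (w : ℝ) := by exact_mod_cast hw1
  have hsN : Real.sqrt (w : ℝ) ≤ w₀ * (n : ℝ) / Λ := by
    have h := Real.sqrt_le_sqrt hwle
    rwa [Real.sqrt_sq (by positivity)] at h
  have hN2 : (w : ℝ) ≤ (n : ℝ) ^ 2 := by
    refine hwle.trans ?_
    have h1 : w₀ * (n : ℝ) / Λ ≤ (n : ℝ) := by
      rw [div_le_iff₀ (by linarith)]
      nlinarith
    exact pow_le_pow_left₀ (by positivity) h1 2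
  have hlog19 : Real.log (19 * (w : ℝ)) ≤ 3 * Λ := by
    have h1 : 19 * (w : ℝ) ≤ (n : ℝ) ^ 3 := by nlinarith
    have h2 := Real.log_le_log (by linarith) h1
    rw [Real.log_pow] at h2
    exact_mod_cast h2
  have hsNpos : 0 < Real.sqrt (w : ℝ) := Real.sqrt_pos.mpr (by linarith)
  have hℓpos : 0 < Real.log (19 * (w : ℝ)) := Real.log_pos (by linarith)
  have hden : 16 * Real.sqrt (w : ℝ) * Real.log (19 * (w : ℝ)) ≤ (n : ℝ) * Real.log 2 / τ := by
    have h1 : Real.sqrt (w : ℝ) * Real.log (19 * (w : ℝ)) ≤ (w₀ * (n : ℝ) / Λ) * (3 * Λ) :=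
      mul_le_mul hsN hlog19 hℓpos.le (by positivity)
    have h2 : (w₀ * (n : ℝ) / Λ) * (3 * Λ) = 3 * w₀ * (n : ℝ) := by
      field_simp
    have h3 : 16 * (3 * w₀ * (n : ℝ)) = (n : ℝ) * Real.log 2 / τ := by
      rw [hw₀]
      field_simp
      ring
    linarith
  rw [le_div_iff₀ (by positivity)]
  have h1 : τ * (16 * Real.sqrt (w : ℝ) * Real.log (19 * (w : ℝ)))
      ≤ τ * ((n : ℝ) * Real.log 2 / τ) := mul_le_mul_of_nonneg_left hden (by linarith)
  have h2 : τ * ((n : ℝ) * Real.log 2 / τ) = (n : ℝ) * Real.log 2 := by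
    field_simp
  linarith

theorem bound_ge_one (w₀ : ℝ) (hw0 : 0 < w₀) (n : ℕ) (hn : (19 : ℝ) ≤ (n : ℝ))
    (hn3 : (2 / w₀) ^ 2 ≤ (n : ℝ)) : 1 ≤ (w₀ * (n : ℝ) / Real.log (n : ℝ)) ^ 2 := by
  have hΛ : 1 ≤ Real.log (n : ℝ) := by
    rw [Real.le_log_iff_exp_le (by linarith)]
    have h := Real.exp_one_lt_d9
    linarith
  have hsqn : 2 / w₀ ≤ Real.sqrt (n : ℝ) := Real.le_sqrt_of_sq_le hn3
  have hΛle : Real.log (n : ℝ) ≤ 2 * Real.sqrt (n : ℝ) := by
    have h1 := Real.log_le_sub_one_of_pos (Real.sqrt_pos.mpr (by linarith : (0 : ℝ) < (n : ℝ)))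
    rw [Real.log_sqrt (by linarith)] at h1
    linarith
  have hW1 : 1 ≤ w₀ * (n : ℝ) / Real.log (n : ℝ) := by
    rw [le_div_iff₀ (by linarith)]
    have h1 : 2 ≤ w₀ * Real.sqrt (n : ℝ) := by
      rw [div_le_iff₀ hw0] at hsqn
      linarith
    have h2 : Real.sqrt (n : ℝ) * Real.sqrt (n : ℝ) = (n : ℝ) := Real.mul_self_sqrt (by linarith)
    have h3 : 0 ≤ Real.sqrt (n : ℝ) := Real.sqrt_nonneg _
    nlinarith
  nlinarith

/-- Asymptotic form: for every `δ > 0` there are `c₀ > 0` and `n₀` such that for `n ≥ n₀`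
no entangling-depth-three circuit has parity correlation above `δ`, provided it has at most
`c₀ n^2 / (log n)^2` qubits in total, or (with any number of ancillas) each of its gates
acts on at most `c₀ n^2 / (log n)^2` qubits. -/
theorem depth3_asymptotic (δ : ℝ) (hδ : 0 < δ) :
    ∃ c₀ : ℝ, 0 < c₀ ∧ ∃ n₀ : ℕ, ∀ n : ℕ, n₀ ≤ n →
      ∀ (A : Type) [Fintype A] [DecidableEq A] (c : List (List (Gate (Fin n ⊕ A)))),
        (∀ l ∈ c, IsLayer l) → entanglingDepth c ≤ 3 →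
        (((n + Fintype.card A : ℕ) : ℝ) ≤ c₀ * (n : ℝ) ^ 2 / Real.log n ^ 2 ∨
          ∀ l ∈ c, ∀ g ∈ l, (g.support.card : ℝ) ≤ c₀ * (n : ℝ) ^ 2 / Real.log n ^ 2) →
        ∀ q : Fin n ⊕ A, |parityCorrelation (circuitMatrix c) q| ≤ δ := by
  set τ : ℝ := max 1 (Real.log (24 / δ)) with hτ
  have hτ1 : 1 ≤ τ := le_max_left _ _
  have hτ2 : Real.log (24 / δ) ≤ τ := le_max_right _ _
  have hlog2 : 0 < Real.log 2 := Real.log_pos (by norm_num)
  have hw0 : 0 < Real.log 2 / (48 * τ) := by positivity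
  refine ⟨(Real.log 2 / (48 * τ)) ^ 2, by positivity,
    max (max 19 ⌈8 * Real.log (18 / δ) / Real.log 2⌉₊) ⌈(2 / (Real.log 2 / (48 * τ))) ^ 2⌉₊, ?_⟩
  intro n hn A _ _ c hc hd hyp q
  have hn19 : 19 ≤ n := ((le_max_left _ _).trans (le_max_left _ _)).trans hn
  have hnceil : ⌈8 * Real.log (18 / δ) / Real.log 2⌉₊ ≤ n :=
    ((le_max_right _ _).trans (le_max_left _ _)).trans hn
  have hnceil2 : ⌈(2 / (Real.log 2 / (48 * τ))) ^ 2⌉₊ ≤ n := (le_max_right _ _).trans hn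
  have hnr : (19 : ℝ) ≤ (n : ℝ) := by exact_mod_cast hn19
  have hnr2 : 8 * Real.log (18 / δ) / Real.log 2 ≤ (n : ℝ) :=
    (Nat.le_ceil _).trans (by exact_mod_cast hnceil)
  have hnr3 : (2 / (Real.log 2 / (48 * τ))) ^ 2 ≤ (n : ℝ) :=
    (Nat.le_ceil _).trans (by exact_mod_cast hnceil2)
  have hΛ : 1 ≤ Real.log (n : ℝ) := by
    rw [Real.le_log_iff_exp_le (by linarith)]
    have h := Real.exp_one_lt_d9
    linarith
  have eW : (Real.log 2 / (48 * τ)) ^ 2 * (n : ℝ) ^ 2 / Real.log (n : ℝ) ^ 2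
      = (Real.log 2 / (48 * τ) * (n : ℝ) / Real.log (n : ℝ)) ^ 2 := by
    field_simp
  have hyp' : ∀ l ∈ c, ∀ g ∈ l,
      (g.support.card : ℝ) ≤ (Real.log 2 / (48 * τ) * (n : ℝ) / Real.log (n : ℝ)) ^ 2 := by
    rw [← eW]
    rcases hyp with h | h
    · intro l _ g _
      have h1 : (g.support.card : ℝ) ≤ ((n + Fintype.card A : ℕ) : ℝ) := by
        exact_mod_cast support_card_le g
      exact h1.trans h
    · exact h
  have hW1' := bound_ge_one (Real.log 2 / (48 * τ)) hw0 n hnr hnr3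
  have hw1' : 1 ≤ ⌊(Real.log 2 / (48 * τ) * (n : ℝ) / Real.log (n : ℝ)) ^ 2⌋₊ :=
    Nat.le_floor (by exact_mod_cast hW1')
  have hwle : ((⌊(Real.log 2 / (48 * τ) * (n : ℝ) / Real.log (n : ℝ)) ^ 2⌋₊ : ℕ) : ℝ)
      ≤ (Real.log 2 / (48 * τ) * (n : ℝ) / Real.log (n : ℝ)) ^ 2 :=
    Nat.floor_le (by positivity)
  have hgates : ∀ l ∈ c, ∀ g ∈ l,
      g.support.card ≤ ⌊(Real.log 2 / (48 * τ) * (n : ℝ) / Real.log (n : ℝ)) ^ 2⌋₊ := by
    intro l hl g hg
    exact Nat.le_floor (hyp' l hl g hg)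
  have ht := t_lower τ hτ1 n _ hnr hw1' hwle
  have hmain := depth3_correlation c hc hd _ hw1' hgates q
  have h3 := three_terms δ hδ n _ hnr2 (hτ2.trans ht)
  exact hmain.trans h3

end Vale.Agent.H98.QAC
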