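import Mathlib
import Vale.Agent.H98.QAC.Basic
import Vale.Agent.H98.QAC.Abs
import Vale.Agent.H98.QAC.Block
import Vale.Agent.H98.QAC.Factor
import Vale.Agent.H98.QAC.Core
import Vale.Agent.H98.QAC.Top
import Vale.Agent.H98.QAC.Main
import Vale.Agent.H98.QAC.Circuit
import Vale.Agent.H98.QAC.NF
import Vale.Agent.H98.QAC.NFw
import Vale.Agent.H98.QAC.Prob
import Vale.Agent.H98.QAC.Final
import Vale.Agent.H98.QAC.AtomBlock
import Vale.Agent.H98.QAC.Core3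
import Vale.Agent.H98.QAC.Final3
import Vale.Agent.H98.QAC.Deep
import Vale.Agent.H98.QAC.Deep2

namespace Vale.Agent.H98.QAC

open Matrix

set_option linter.unusedSectionVars false

variable {n : ℕ} {A : Type} [Fintype A] [DecidableEq A]

theorem signed_sum_bound_deep (c : List (List (Gate (Fin n ⊕ A)))) (hc : ∀ l ∈ c, IsLayer l)
    (m : ℕ) (hd : entanglingDepth c ≤ m + 2) (w : ℕ) (hw1 : 1 ≤ w)
    (hw : ∀ l ∈ c, ∀ g ∈ l, g.support.card ≤ w) (q : Fin n ⊕ A) (b : Bool) (k E : ℕ)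
    (hE : (w + 2) ^ (m - 1) ≤ E) :
    |∑ x : Fin n → Bool, chi x * outProb (circuitMatrix c) q (inputState x) b|
      ≤ 3 * Real.sqrt 2 ^ n
        + (m : ℝ) * (2 * (2 * Real.exp (-((k : ℝ) / Real.sqrt w)) * 2 ^ n
            + (2 * 9 ^ E * (w : ℝ) + 1) ^ k * r4 ^ (3 * n))) := by
  have hnf := IsNFw.mono w hd _ (circuit_nfw w c hc hw)
  obtain ⟨a, ha, hma⟩ := measP_rank b
  have hcore := deep w hw1 (inputSet n A) k E m hE _ hnf q a ha
  rw [← hma, trace_prob, card_inputSet, sum_rz_inputSet, Complex.norm_real,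
    Real.norm_eq_abs] at hcore
  exact hcore

/-- Parity correlation at entangling depth `m + 2`, with free parameters `k` and `E`. -/
theorem deep_correlation_k (c : List (List (Gate (Fin n ⊕ A))))
    (hc : ∀ l ∈ c, IsLayer l) (m : ℕ) (hd : entanglingDepth c ≤ m + 2) (w : ℕ) (hw1 : 1 ≤ w)
    (hw : ∀ l ∈ c, ∀ g ∈ l, g.support.card ≤ w) (q : Fin n ⊕ A) (k E : ℕ)
    (hE : (w + 2) ^ (m - 1) ≤ E) :
    |parityCorrelation (circuitMatrix c) q| ≤ 6 / Real.sqrt 2 ^ n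
      + (m : ℝ) * (8 * Real.exp (-((k : ℝ) / Real.sqrt w))
        + 4 * (2 * 9 ^ E * (w : ℝ) + 1) ^ k / r4 ^ n) := by
  have hf := signed_sum_bound_deep c hc m hd w hw1 hw q false k E hE
  have ht := signed_sum_bound_deep c hc m hd w hw1 hw q true k E hE
  unfold parityCorrelation
  rw [correlation_split, abs_div, abs_of_pos (by positivity : (0 : ℝ) < 2 ^ n)]
  have hs : (0 : ℝ) < Real.sqrt 2 ^ n := by positivity
  have hr : (0 : ℝ) < r4 ^ n := pow_pos r4_pos n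
  have h2n : (2 : ℝ) ^ n = Real.sqrt 2 ^ n * Real.sqrt 2 ^ n := by
    rw [← mul_pow, Real.mul_self_sqrt (by norm_num)]
  have h2r : (2 : ℝ) ^ n = r4 ^ (3 * n) * r4 ^ n := by
    rw [← pow_add, show 3 * n + n = 4 * n by ring, pow_mul, r4_pow_four]
  rw [div_le_iff₀ (by positivity)]
  have e1 : 6 / Real.sqrt 2 ^ n * 2 ^ n = 6 * Real.sqrt 2 ^ n := by
    rw [h2n]
    field_simp
  have e2 : 4 * (2 * 9 ^ E * (w : ℝ) + 1) ^ k / r4 ^ n * 2 ^ n
      = 4 * (2 * 9 ^ E * (w : ℝ) + 1) ^ k * r4 ^ (3 * n) := by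
    rw [h2r]
    field_simp
  have e3 : (m : ℝ) * (8 * Real.exp (-((k : ℝ) / Real.sqrt w))
        + 4 * (2 * 9 ^ E * (w : ℝ) + 1) ^ k / r4 ^ n) * 2 ^ n
      = (m : ℝ) * (8 * Real.exp (-((k : ℝ) / Real.sqrt w)) * 2 ^ n
        + 4 * (2 * 9 ^ E * (w : ℝ) + 1) ^ k * r4 ^ (3 * n)) := by
    rw [mul_assoc, add_mul, e2]
  have habs := abs_sub (∑ x : Fin n → Bool, chi x * outProb (circuitMatrix c) q (inputState x) false)
    (∑ x : Fin n → Bool, chi x * outProb (circuitMatrix c) q (inputState x) true)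
  rw [add_mul, e1, e3]
  linarith

theorem base_le (w : ℕ) (hw1 : 1 ≤ w) (E : ℕ) (hE : 1 ≤ E) :
    2 * (9 : ℝ) ^ E * (w : ℝ) + 1 ≤ (19 * (w : ℝ)) ^ E := by
  obtain ⟨E', rfl⟩ : ∃ E', E = E' + 1 := ⟨E - 1, by omega⟩
  have hwr : (1 : ℝ) ≤ (w : ℝ) := by exact_mod_cast hw1
  have h9 : (9 : ℝ) ^ E' ≤ (19 * (w : ℝ)) ^ E' :=
    pow_le_pow_left₀ (by norm_num) (by linarith) E'
  have h1 : (1 : ℝ) ≤ 9 ^ E' := one_le_pow₀ (by norm_num)
  rw [pow_succ, pow_succ]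
  nlinarith [mul_le_mul h9 (le_refl (19 * (w : ℝ))) (by positivity) (by positivity),
    mul_le_mul h1 hwr (by norm_num) (by positivity)]

/-- Parity correlation at every entangling depth `d ≥ 3`: an explicit bound in terms of the
number of inputs `n` and a bound `w` on the number of qubits of each gate; the number of
ancillas is arbitrary. -/
theorem deep_correlation (c : List (List (Gate (Fin n ⊕ A))))
    (hc : ∀ l ∈ c, IsLayer l) (d : ℕ) (hd3 : 3 ≤ d) (hd : entanglingDepth c ≤ d) (w : ℕ)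
    (hw1 : 1 ≤ w) (hw : ∀ l ∈ c, ∀ g ∈ l, g.support.card ≤ w) (q : Fin n ⊕ A) :
    |parityCorrelation (circuitMatrix c) q| ≤ 6 / Real.sqrt 2 ^ n
      + ((d : ℝ) - 2) * (4 / (2 : ℝ) ^ ((n : ℝ) / 8)
        + 8 * Real.exp (-((n : ℝ) * Real.log 2
          / (16 * ((w : ℝ) + 2) ^ (d - 3) * Real.sqrt (w : ℝ) * Real.log (19 * (w : ℝ)))))) := by
  obtain ⟨m, rfl⟩ : ∃ m, d = m + 3 := ⟨d - 3, by omega⟩
  have hdm : m + 3 - 3 = m := by omega
  rw [hdm]
  have hcast : ((m + 3 : ℕ) : ℝ) - 2 = (m : ℝ) + 1 := by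
    push_cast
    ring
  rw [hcast]
  set Er : ℝ := ((w : ℝ) + 2) ^ m with hEr
  set t : ℝ := (n : ℝ) * Real.log 2 / (16 * Er * Real.sqrt (w : ℝ) * Real.log (19 * (w : ℝ)))
    with ht
  have hu : (0 : ℝ) < (2 : ℝ) ^ ((n : ℝ) / 8) := Real.rpow_pos_of_pos (by norm_num) _
  have hs : (0 : ℝ) < Real.sqrt 2 ^ n := by positivity
  have hm0 : (0 : ℝ) ≤ (m : ℝ) := Nat.cast_nonneg m
  have h7 : (0 : ℝ) ≤ 6 / Real.sqrt 2 ^ n := by positivity
  have h8 : (0 : ℝ) ≤ 4 / (2 : ℝ) ^ ((n : ℝ) / 8) := by positivity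
  by_cases ht1 : t < 1
  · have h1 := correlation_le_one (circuitMatrix c) (circuit_unitary_any c hc) q
    have h2 : (1 : ℝ) ≤ 8 * Real.exp (-t) := by
      have h3 : Real.exp (-1) ≤ Real.exp (-t) := Real.exp_le_exp.mpr (by linarith)
      have h4 : Real.exp 1 * Real.exp (-1) = 1 := by
        rw [← Real.exp_add]
        simp
      have h5 := Real.exp_one_lt_d9
      have h6 : 0 < Real.exp (-1) := Real.exp_pos _
      nlinarith
    have h9 : (1 : ℝ) ≤ ((m : ℝ) + 1) * (4 / (2 : ℝ) ^ ((n : ℝ) / 8) + 8 * Real.exp (-t)) := by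
      nlinarith
    linarith
  · have ht1' : 1 ≤ t := not_lt.mp ht1
    have hNr : (1 : ℝ) ≤ (w : ℝ) := by exact_mod_cast hw1
    have hsN : 1 ≤ Real.sqrt (w : ℝ) := by
      rw [show (1 : ℝ) = Real.sqrt 1 by simp]
      exact Real.sqrt_le_sqrt hNr
    have hℓ : 0 < Real.log (19 * (w : ℝ)) := Real.log_pos (by linarith)
    have hEr1 : (1 : ℝ) ≤ Er := one_le_pow₀ (by linarith)
    set s := Real.sqrt (w : ℝ) with hsdef
    set ℓ := Real.log (19 * (w : ℝ)) with hℓdef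
    have hts : 1 ≤ t * s := by nlinarith
    set k : ℕ := ⌈t * s⌉₊ with hk
    have hk1 : t * s ≤ (k : ℝ) := Nat.le_ceil _
    have hk2 : (k : ℝ) < t * s + 1 := Nat.ceil_lt_add_one (by linarith)
    have hE : (w + 2) ^ (m + 1 - 1) ≤ (w + 2) ^ m := by simp
    have hmain := deep_correlation_k c hc (m + 1) hd w hw1 hw q k ((w + 2) ^ m) hE
    have ha : Real.exp (-((k : ℝ) / s)) ≤ Real.exp (-t) := by
      apply Real.exp_le_exp.mpr
      have : t ≤ (k : ℝ) / s := by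
        rw [le_div_iff₀ (by linarith)]
        exact hk1
      linarith
    have hEcast : (((w + 2) ^ m : ℕ) : ℝ) = Er := by
      rw [hEr]
      push_cast
      ring
    have hW : (2 * 9 ^ ((w + 2) ^ m) * (w : ℝ) + 1) ^ k ≤ (2 : ℝ) ^ ((n : ℝ) / 8) := by
      have h1 : (2 * 9 ^ ((w + 2) ^ m) * (w : ℝ) + 1) ^ k ≤ ((19 * (w : ℝ)) ^ ((w + 2) ^ m)) ^ k :=
        pow_le_pow_left₀ (by positivity)
          (base_le w hw1 _ (Nat.one_le_pow _ _ (by omega))) k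
      have h2 : ((19 * (w : ℝ)) ^ ((w + 2) ^ m)) ^ k
          = Real.exp ((((w + 2) ^ m * k : ℕ) : ℝ) * ℓ) := by
        rw [← pow_mul, Real.exp_nat_mul, hℓdef, Real.exp_log (by linarith)]
      have h3 : (2 : ℝ) ^ ((n : ℝ) / 8) = Real.exp (Real.log 2 * ((n : ℝ) / 8)) := by
        rw [Real.rpow_def_of_pos (by norm_num)]
      have h4 : (((w + 2) ^ m * k : ℕ) : ℝ) * ℓ ≤ Real.log 2 * ((n : ℝ) / 8) := by
        have h5 : t * (16 * Er * s * ℓ) = (n : ℝ) * Real.log 2 := by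
          rw [ht]
          field_simp
        have h6 : (k : ℝ) ≤ 2 * (t * s) := by linarith
        have h7' : Er * (k : ℝ) * ℓ ≤ Er * (2 * (t * s)) * ℓ :=
          mul_le_mul_of_nonneg_right (mul_le_mul_of_nonneg_left h6 (by linarith)) hℓ.le
        have h8' : (((w + 2) ^ m * k : ℕ) : ℝ) = Er * (k : ℝ) := by
          rw [Nat.cast_mul, hEcast]
        rw [h8']
        nlinarith
      rw [h3]
      exact h1.trans (h2 ▸ Real.exp_le_exp.mpr h4)
    have hr : r4 ^ n = (2 : ℝ) ^ ((n : ℝ) / 8) * (2 : ℝ) ^ ((n : ℝ) / 8) := r4_pow_eq n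
    have hb : 4 * (2 * 9 ^ ((w + 2) ^ m) * (w : ℝ) + 1) ^ k / r4 ^ n
        ≤ 4 / (2 : ℝ) ^ ((n : ℝ) / 8) := by
      rw [hr, div_le_div_iff₀ (by positivity) hu]
      nlinarith
    have hc8 : 8 * Real.exp (-((k : ℝ) / s)) ≤ 8 * Real.exp (-t) := by linarith
    have hcastm : ((m + 1 : ℕ) : ℝ) = (m : ℝ) + 1 := by push_cast; ring
    rw [hcastm] at hmain
    have hmul : ((m : ℝ) + 1) * (8 * Real.exp (-((k : ℝ) / s))
          + 4 * (2 * 9 ^ ((w + 2) ^ m) * (w : ℝ) + 1) ^ k / r4 ^ n)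
        ≤ ((m : ℝ) + 1) * (4 / (2 : ℝ) ^ ((n : ℝ) / 8) + 8 * Real.exp (-t)) :=
      mul_le_mul_of_nonneg_left (by linarith) (by linarith)
    linarith

end Vale.Agent.H98.QAC
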