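import Mathlib
import Vale.Agent.H98.QAC.Basic
import Vale.Agent.H98.QAC.Circuit
import Vale.Agent.H98.QAC.NF
import Vale.Agent.H98.QAC.NFw
import Vale.Agent.H98.QAC.Prob
import Vale.Agent.H98.QAC.Final
import Vale.Agent.H98.QAC.Final3
import Vale.Agent.H98.QAC.Deep
import Vale.Agent.H98.QAC.Deep2
import Vale.Agent.H98.QAC.DeepFinal

namespace Vale.Agent.H98.QAC

open Matrix

set_option linter.unusedSectionVars false

theorem t_lower_deep (m : ℕ) (τ : ℝ) (hτ1 : 1 ≤ τ) (n w : ℕ) (hn : (19 : ℝ) ≤ (n : ℝ))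
    (hw1 : 1 ≤ w)
    (hwle : (w : ℝ) ^ (2 * m + 1)
      ≤ (Real.log 2 / (48 * τ * 3 ^ m) * (n : ℝ) / Real.log (n : ℝ)) ^ 2) :
    τ ≤ (n : ℝ) * Real.log 2
      / (16 * ((w : ℝ) + 2) ^ m * Real.sqrt (w : ℝ) * Real.log (19 * (w : ℝ))) := by
  have hlog2 : 0 < Real.log 2 := Real.log_pos (by norm_num)
  have hlog2' : Real.log 2 < 1 := by
    have h := Real.log_two_lt_d9
    linarith
  have h3m : (1 : ℝ) ≤ 3 ^ m := one_le_pow₀ (by norm_num)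
  set w₀ : ℝ := Real.log 2 / (48 * τ * 3 ^ m) with hw₀
  have hw0 : 0 < w₀ := by positivity
  have hw1' : w₀ ≤ 1 := by
    rw [hw₀, div_le_one (by positivity)]
    nlinarith
  have hΛ : 1 ≤ Real.log (n : ℝ) := by
    rw [Real.le_log_iff_exp_le (by linarith)]
    have h := Real.exp_one_lt_d9
    linarith
  set Λ : ℝ := Real.log (n : ℝ) with hΛdef
  have hwr : (1 : ℝ) ≤ (w : ℝ) := by exact_mod_cast hw1
  have hsw0 : 0 ≤ Real.sqrt (w : ℝ) := Real.sqrt_nonneg _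
  have hsq : Real.sqrt (w : ℝ) ^ 2 = (w : ℝ) := Real.sq_sqrt (by linarith)
  have ha2 : ((w : ℝ) ^ m * Real.sqrt (w : ℝ)) ^ 2 = (w : ℝ) ^ (2 * m + 1) := by
    calc ((w : ℝ) ^ m * Real.sqrt (w : ℝ)) ^ 2
        = (w : ℝ) ^ (2 * m) * Real.sqrt (w : ℝ) ^ 2 := by ring
      _ = (w : ℝ) ^ (2 * m) * (w : ℝ) := by rw [hsq]
      _ = (w : ℝ) ^ (2 * m + 1) := by ring
  have hA : (w : ℝ) ^ m * Real.sqrt (w : ℝ) ≤ w₀ * (n : ℝ) / Λ := by
    have h := Real.sqrt_le_sqrt (ha2 ▸ hwle)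
    rwa [Real.sqrt_sq (by positivity), Real.sqrt_sq (by positivity)] at h
  have hB : ((w : ℝ) + 2) ^ m ≤ 3 ^ m * (w : ℝ) ^ m := by
    rw [← mul_pow]
    exact pow_le_pow_left₀ (by linarith) (by linarith) m
  have hbn : w₀ * (n : ℝ) / Λ ≤ (n : ℝ) := by
    rw [div_le_iff₀ (by linarith)]
    nlinarith
  have hN2 : (w : ℝ) ≤ (n : ℝ) ^ 2 := by
    have h1 : (w : ℝ) ≤ (w : ℝ) ^ (2 * m + 1) := le_self_pow₀ hwr (by omega)
    refine (h1.trans hwle).trans ?_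
    exact pow_le_pow_left₀ (by positivity) hbn 2
  have hlog19 : Real.log (19 * (w : ℝ)) ≤ 3 * Λ := by
    have h1 : 19 * (w : ℝ) ≤ (n : ℝ) ^ 3 := by nlinarith
    have h2 := Real.log_le_log (by linarith) h1
    rw [Real.log_pow] at h2
    exact_mod_cast h2
  have hsNpos : 0 < Real.sqrt (w : ℝ) := Real.sqrt_pos.mpr (by linarith)
  have hℓpos : 0 < Real.log (19 * (w : ℝ)) := Real.log_pos (by linarith)
  have hwm : (0 : ℝ) < ((w : ℝ) + 2) ^ m := by positivity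
  have hden : 16 * ((w : ℝ) + 2) ^ m * Real.sqrt (w : ℝ) * Real.log (19 * (w : ℝ))
      ≤ (n : ℝ) * Real.log 2 / τ := by
    have h1 : ((w : ℝ) + 2) ^ m * Real.sqrt (w : ℝ)
        ≤ 3 ^ m * ((w : ℝ) ^ m * Real.sqrt (w : ℝ)) := by
      have := mul_le_mul_of_nonneg_right hB hsw0
      linarith
    have h2 : ((w : ℝ) + 2) ^ m * Real.sqrt (w : ℝ) ≤ 3 ^ m * (w₀ * (n : ℝ) / Λ) :=
      h1.trans (mul_le_mul_of_nonneg_left hA (by positivity))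
    have h3 : ((w : ℝ) + 2) ^ m * Real.sqrt (w : ℝ) * Real.log (19 * (w : ℝ))
        ≤ 3 ^ m * (w₀ * (n : ℝ) / Λ) * (3 * Λ) :=
      mul_le_mul h2 hlog19 hℓpos.le (by positivity)
    have h4 : 3 ^ m * (w₀ * (n : ℝ) / Λ) * (3 * Λ) = 3 * 3 ^ m * w₀ * (n : ℝ) := by
      field_simp
    have h5 : 16 * (3 * 3 ^ m * w₀ * (n : ℝ)) = (n : ℝ) * Real.log 2 / τ := by
      rw [hw₀]
      field_simp
      ring
    linarith
  rw [le_div_iff₀ (by positivity)]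
  have h1 : τ * (16 * ((w : ℝ) + 2) ^ m * Real.sqrt (w : ℝ) * Real.log (19 * (w : ℝ)))
      ≤ τ * ((n : ℝ) * Real.log 2 / τ) := mul_le_mul_of_nonneg_left hden (by linarith)
  have h2 : τ * ((n : ℝ) * Real.log 2 / τ) = (n : ℝ) * Real.log 2 := by
    field_simp
  linarith

/-- Asymptotic form at every entangling depth `d ≥ 3`: for every `δ > 0` there are `c₀ > 0`
and `n₀` such that for `n ≥ n₀` no circuit of entangling depth at most `d` has parity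
correlation above `δ`, provided each of its gates acts on at most `w` qubits with
`w ^ (2 d - 5) ≤ c₀ n^2 / (log n)^2` (with any number of ancillas), or the total number `N` of
qubits satisfies `N ^ (2 d - 5) ≤ c₀ n^2 / (log n)^2`. -/
theorem deep_asymptotic (d : ℕ) (hd3 : 3 ≤ d) (δ : ℝ) (hδ : 0 < δ) :
    ∃ c₀ : ℝ, 0 < c₀ ∧ ∃ n₀ : ℕ, ∀ n : ℕ, n₀ ≤ n →
      ∀ (A : Type) [Fintype A] [DecidableEq A] (c : List (List (Gate (Fin n ⊕ A)))),
        (∀ l ∈ c, IsLayer l) → entanglingDepth c ≤ d →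
        (((n + Fintype.card A : ℕ) : ℝ) ^ (2 * d - 5) ≤ c₀ * (n : ℝ) ^ 2 / Real.log n ^ 2 ∨
          ∀ l ∈ c, ∀ g ∈ l,
            (g.support.card : ℝ) ^ (2 * d - 5) ≤ c₀ * (n : ℝ) ^ 2 / Real.log n ^ 2) →
        ∀ q : Fin n ⊕ A, |parityCorrelation (circuitMatrix c) q| ≤ δ := by
  obtain ⟨m, rfl⟩ : ∃ m, d = m + 3 := ⟨d - 3, by omega⟩
  have h2d : 2 * (m + 3) - 5 = 2 * m + 1 := by omega
  simp only [h2d]
  have hD1 : (1 : ℝ) ≤ (m : ℝ) + 1 := by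
    have : (0 : ℝ) ≤ (m : ℝ) := Nat.cast_nonneg m
    linarith
  have hδ' : 0 < δ / ((m : ℝ) + 1) := by positivity
  set δ' : ℝ := δ / ((m : ℝ) + 1) with hδ'def
  set τ : ℝ := max 1 (Real.log (24 / δ')) with hτ
  have hτ1 : 1 ≤ τ := le_max_left _ _
  have hτ2 : Real.log (24 / δ') ≤ τ := le_max_right _ _
  have hlog2 : 0 < Real.log 2 := Real.log_pos (by norm_num)
  have hw0 : 0 < Real.log 2 / (48 * τ * 3 ^ m) := by positivity
  set w₀ : ℝ := Real.log 2 / (48 * τ * 3 ^ m) with hw₀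
  refine ⟨w₀ ^ 2, by positivity,
    max (max 19 ⌈8 * Real.log (18 / δ') / Real.log 2⌉₊) ⌈(2 / w₀) ^ 2⌉₊, ?_⟩
  intro n hn A _ _ c hc hd hyp q
  have hn19 : 19 ≤ n := ((le_max_left _ _).trans (le_max_left _ _)).trans hn
  have hnceil : ⌈8 * Real.log (18 / δ') / Real.log 2⌉₊ ≤ n :=
    ((le_max_right _ _).trans (le_max_left _ _)).trans hn
  have hnceil2 : ⌈(2 / w₀) ^ 2⌉₊ ≤ n := (le_max_right _ _).trans hn
  have hnr : (19 : ℝ) ≤ (n : ℝ) := by exact_mod_cast hn19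
  have hnr2 : 8 * Real.log (18 / δ') / Real.log 2 ≤ (n : ℝ) :=
    (Nat.le_ceil _).trans (by exact_mod_cast hnceil)
  have hnr3 : (2 / w₀) ^ 2 ≤ (n : ℝ) :=
    (Nat.le_ceil _).trans (by exact_mod_cast hnceil2)
  have hΛ : 1 ≤ Real.log (n : ℝ) := by
    rw [Real.le_log_iff_exp_le (by linarith)]
    have h := Real.exp_one_lt_d9
    linarith
  have eW : w₀ ^ 2 * (n : ℝ) ^ 2 / Real.log (n : ℝ) ^ 2
      = (w₀ * (n : ℝ) / Real.log (n : ℝ)) ^ 2 := by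
    field_simp
  set Wb : ℝ := (w₀ * (n : ℝ) / Real.log (n : ℝ)) ^ 2 with hWb
  have hyp' : ∀ l ∈ c, ∀ g ∈ l, (g.support.card : ℝ) ^ (2 * m + 1) ≤ Wb := by
    rw [eW] at hyp
    rcases hyp with h | h
    · intro l _ g _
      have h1 : (g.support.card : ℝ) ≤ ((n + Fintype.card A : ℕ) : ℝ) := by
        exact_mod_cast support_card_le g
      exact (pow_le_pow_left₀ (Nat.cast_nonneg _) h1 _).trans h
    · exact h
  have hW1' : 1 ≤ Wb := bound_ge_one w₀ hw0 n hnr hnr3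
  have hWb0 : 0 ≤ Wb := by linarith
  have hne : (2 * m + 1) ≠ 0 := by omega
  set R : ℝ := Wb ^ (((2 * m + 1 : ℕ) : ℝ)⁻¹) with hR
  have hR1 : 1 ≤ R := Real.one_le_rpow hW1' (by positivity)
  have hRpow : R ^ (2 * m + 1) = Wb := Real.rpow_inv_natCast_pow hWb0 hne
  have hw1' : 1 ≤ ⌊R⌋₊ := Nat.le_floor (by exact_mod_cast hR1)
  have hfl : ((⌊R⌋₊ : ℕ) : ℝ) ≤ R := Nat.floor_le (by linarith)
  have hwle : ((⌊R⌋₊ : ℕ) : ℝ) ^ (2 * m + 1) ≤ Wb := by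
    rw [← hRpow]
    exact pow_le_pow_left₀ (Nat.cast_nonneg _) hfl _
  have hgates : ∀ l ∈ c, ∀ g ∈ l, g.support.card ≤ ⌊R⌋₊ := by
    intro l hl g hg
    apply Nat.le_floor
    have h1 := hyp' l hl g hg
    have h2 : ((g.support.card : ℝ) ^ (2 * m + 1)) ^ (((2 * m + 1 : ℕ) : ℝ)⁻¹)
        ≤ Wb ^ (((2 * m + 1 : ℕ) : ℝ)⁻¹) :=
      Real.rpow_le_rpow (by positivity) h1 (by positivity)
    rwa [Real.pow_rpow_inv_natCast (Nat.cast_nonneg _) hne] at h2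
  have ht := t_lower_deep m τ hτ1 n _ hnr hw1' hwle
  have hmain := deep_correlation c hc (m + 3) (by omega) hd _ hw1' hgates q
  have hdm : m + 3 - 3 = m := by omega
  have hcast : ((m + 3 : ℕ) : ℝ) - 2 = (m : ℝ) + 1 := by
    push_cast
    ring
  rw [hdm, hcast] at hmain
  have h3 := three_terms δ' hδ' n _ hnr2 (hτ2.trans ht)
  have h6 : (0 : ℝ) ≤ 6 / Real.sqrt 2 ^ n := by positivity
  refine hmain.trans ?_
  have h7 : ((m : ℝ) + 1) * δ' = δ := by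
    rw [hδ'def]
    field_simp
  have h8 := mul_le_mul_of_nonneg_left h3 (by linarith : (0 : ℝ) ≤ (m : ℝ) + 1)
  rw [h7] at h8
  nlinarith

end Vale.Agent.H98.QAC
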