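import Mathlib
import Vale.Agent.H98.QAC.Circuit
import Vale.Agent.H98.QAC.Prob

namespace Vale.Agent.H98.QAC

open Matrix

set_option linter.unusedSectionVars false

section funmat

variable {Q : Type} [Fintype Q] [DecidableEq Q]

/-- the matrix of a map on basis states -/
def funMat (f : (Q → Bool) → (Q → Bool)) : Matrix (Q → Bool) (Q → Bool) ℂ :=
  Matrix.of fun s t => if s = f t then 1 else 0

theorem funMat_mul (f g : (Q → Bool) → (Q → Bool)) : funMat f * funMat g = funMat (f ∘ g) := by
  ext s t
  simp only [funMat, Matrix.mul_apply, Matrix.of_apply, Function.comp]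
  rw [Finset.sum_eq_single (g t)]
  · simp
  · intro r _ hr
    simp [hr]
  · intro h
    exact absurd (Finset.mem_univ _) h

theorem funMat_id : funMat (id : (Q → Bool) → (Q → Bool)) = 1 := by
  ext s t
  simp [funMat, Matrix.one_apply]

/-- action of a generalized Toffoli gate on basis states -/
def tofFun (S : Finset Q) (b : Q) (t : Q → Bool) : Q → Bool :=
  Function.update t b (xor (t b) (decide (∀ i ∈ S, t i = true)))

theorem toffoli_matrix_funMat (S : Finset Q) (b : Q) :
    (Gate.toffoli S b).matrix = funMat (tofFun S b) := rfl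

theorem outProb_funMat (f : (Q → Bool) → (Q → Bool)) (q : Q) (s0 : Q → Bool) (b : Bool) :
    outProb (funMat f) q s0 b = if f s0 q = b then 1 else 0 := by
  unfold outProb
  rw [Finset.sum_eq_single (f s0)]
  · simp [funMat]
  · intro s _ hs
    simp [funMat, hs]
  · intro h
    exact absurd (Finset.mem_univ _) h

end funmat

/-- the control qubit of pair `i` -/
def cq (m : ℕ) (i : Fin m) : Fin (m + m) ⊕ Unit := Sum.inl (Fin.castAdd m i)

/-- the target qubit of pair `i` -/
def tq (m : ℕ) (i : Fin m) : Fin (m + m) ⊕ Unit := Sum.inl (Fin.natAdd m i)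

theorem cq_ne_tq (m : ℕ) (i j : Fin m) : cq m i ≠ tq m j := by
  intro h
  have h1 := Sum.inl_injective h
  have h2 := congrArg Fin.val h1
  simp at h2
  omega

theorem cq_inj (m : ℕ) (i j : Fin m) (h : cq m i = cq m j) : i = j := by
  have h1 := Sum.inl_injective h
  exact Fin.castAdd_injective m m h1

theorem tq_inj (m : ℕ) (i j : Fin m) (h : tq m i = tq m j) : i = j := by
  have h1 := Sum.inl_injective h
  exact Fin.natAdd_injective m m h1

/-- first layer: a CNOT from the first to the second qubit of every pair -/
def cnotLayer (m : ℕ) : List (Gate (Fin (m + m) ⊕ Unit)) :=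
  (List.finRange m).map (fun i => Gate.toffoli {cq m i} (tq m i))

/-- second layer: one Toffoli from all second qubits onto the ancilla -/
def andLayer (m : ℕ) : List (Gate (Fin (m + m) ⊕ Unit)) :=
  [Gate.toffoli (Finset.univ.image (tq m)) (Sum.inr ())]

/-- the two-layer circuit -/
def tightCircuit (m : ℕ) : List (List (Gate (Fin (m + m) ⊕ Unit))) := [cnotLayer m, andLayer m]

theorem cnotLayer_isLayer (m : ℕ) : IsLayer (cnotLayer m) := by
  constructor
  · intro g hg
    simp only [cnotLayer, List.mem_map] at hg
    obtain ⟨i, _, rfl⟩ := hg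
    refine ⟨Finset.singleton_nonempty _, ?_⟩
    rw [Finset.mem_singleton]
    exact fun h => cq_ne_tq m i i h.symm
  · unfold cnotLayer
    rw [List.pairwise_map]
    refine List.Pairwise.imp ?_ (List.nodup_finRange m)
    intro i j hij
    simp only [Gate.support]
    rw [Finset.disjoint_left]
    intro a ha hb
    rw [Finset.mem_insert, Finset.mem_singleton] at ha hb
    rcases ha with ha | ha <;> rcases hb with hb | hb
    · exact hij (tq_inj m i j (ha ▸ hb))
    · exact cq_ne_tq m j i (hb ▸ ha)
    · exact cq_ne_tq m i j (ha ▸ hb)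
    · exact hij (cq_inj m i j (ha ▸ hb))

theorem andLayer_isLayer (m : ℕ) (hm : 1 ≤ m) : IsLayer (andLayer m) := by
  constructor
  · intro g hg
    simp only [andLayer, List.mem_singleton] at hg
    subst hg
    refine ⟨?_, ?_⟩
    · exact ⟨tq m ⟨0, hm⟩, Finset.mem_image_of_mem _ (Finset.mem_univ _)⟩
    · intro h
      rw [Finset.mem_image] at h
      obtain ⟨i, _, hi⟩ := h
      simp [tq] at hi
  · simp [andLayer]

/-- the action of a list of the CNOTs on basis states -/
def cnotFun (m : ℕ) (l : List (Fin m)) : (Fin (m + m) ⊕ Unit → Bool) → (Fin (m + m) ⊕ Unit → Bool) :=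
  l.foldr (fun i acc => tofFun {cq m i} (tq m i) ∘ acc) id

theorem layerMatrix_cnots (m : ℕ) (l : List (Fin m)) :
    layerMatrix (l.map (fun i => Gate.toffoli {cq m i} (tq m i))) = funMat (cnotFun m l) := by
  induction l with
  | nil => simp [layerMatrix, cnotFun, funMat_id]
  | cons i l ih =>
      have h1 : layerMatrix ((i :: l).map (fun i => Gate.toffoli {cq m i} (tq m i)))
          = (Gate.toffoli {cq m i} (tq m i)).matrix
            * layerMatrix (l.map (fun i => Gate.toffoli {cq m i} (tq m i))) := by
        simp [layerMatrix]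
      rw [h1, ih, toffoli_matrix_funMat, funMat_mul]
      rfl

theorem cnotFun_apply (m : ℕ) (t : Fin (m + m) ⊕ Unit → Bool) :
    ∀ l : List (Fin m), l.Nodup →
      (∀ j : Fin m, cnotFun m l t (cq m j) = t (cq m j)) ∧
      (∀ j : Fin m, cnotFun m l t (tq m j)
        = if j ∈ l then xor (t (tq m j)) (t (cq m j)) else t (tq m j)) ∧
      cnotFun m l t (Sum.inr ()) = t (Sum.inr ())
  | [], _ => by simp [cnotFun]
  | i :: l, hnd => by
      have hnd' := List.nodup_cons.mp hnd
      obtain ⟨h1, h2, h3⟩ := cnotFun_apply m t l hnd'.2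
      have hstep : cnotFun m (i :: l) t = tofFun {cq m i} (tq m i) (cnotFun m l t) := rfl
      rw [hstep]
      refine ⟨?_, ?_, ?_⟩
      · intro j
        unfold tofFun
        rw [Function.update_of_ne (cq_ne_tq m j i), h1 j]
      · intro j
        unfold tofFun
        by_cases hji : j = i
        · subst hji
          rw [Function.update_self, h2 j, if_neg hnd'.1, if_pos (by simp)]
          congr 1
          simp [h1 j]
        · have hne : tq m j ≠ tq m i := fun h => hji (tq_inj m j i h)
          rw [Function.update_of_ne hne, h2 j]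
          have hmem : (j ∈ i :: l) ↔ (j ∈ l) := by simp [hji]
          simp only [hmem]
      · unfold tofFun
        rw [Function.update_of_ne (by simp [tq]), h3]

/-- the output bit of the circuit on input `x` -/
def outBit (m : ℕ) (x : Fin (m + m) → Bool) : Bool :=
  decide (∀ j : Fin m, xor (x (Fin.natAdd m j)) (x (Fin.castAdd m j)) = true)

theorem tight_matrix (m : ℕ) :
    circuitMatrix (tightCircuit m)
      = funMat (tofFun (Finset.univ.image (tq m)) (Sum.inr ()) ∘ cnotFun m (List.finRange m)) := by
  have h1 : circuitMatrix (tightCircuit m) = layerMatrix (andLayer m) * layerMatrix (cnotLayer m) := by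
    simp [circuitMatrix, tightCircuit]
  have h2 : layerMatrix (andLayer m)
      = funMat (tofFun (Finset.univ.image (tq m)) (Sum.inr ())) := by
    simp [layerMatrix, andLayer, toffoli_matrix_funMat]
  rw [h1, h2]
  unfold cnotLayer
  rw [layerMatrix_cnots, funMat_mul]

theorem tight_out (m : ℕ) (x : Fin (m + m) → Bool) :
    (tofFun (Finset.univ.image (tq m)) (Sum.inr ()) ∘ cnotFun m (List.finRange m))
      (inputState x) (Sum.inr ()) = outBit m x := by
  obtain ⟨h1, h2, h3⟩ := cnotFun_apply m (inputState x) (List.finRange m) (List.nodup_finRange m)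
  show tofFun _ _ (cnotFun m (List.finRange m) (inputState x)) (Sum.inr ()) = outBit m x
  unfold tofFun outBit
  rw [Function.update_self, h3]
  have e0 : (inputState x : Fin (m + m) ⊕ Unit → Bool) (Sum.inr ()) = false := rfl
  rw [e0, Bool.false_xor]
  congr 1
  apply propext
  constructor
  · intro h j
    have hj := h (tq m j) (Finset.mem_image_of_mem _ (Finset.mem_univ j))
    rw [h2 j, if_pos (List.mem_finRange j)] at hj
    exact hj
  · intro h k hk
    rw [Finset.mem_image] at hk
    obtain ⟨j, _, rfl⟩ := hk
    rw [h2 j, if_pos (List.mem_finRange j)]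
    exact h j

theorem sum_chi_zero (m : ℕ) (hm : 1 ≤ m) : ∑ v : Fin m → Bool, chi v = 0 := by
  unfold chi
  have h := Finset.prod_univ_sum (fun _ : Fin m => (Finset.univ : Finset Bool))
    (fun (_ : Fin m) (b : Bool) => if b = true then (-1 : ℝ) else 1)
  rw [Fintype.piFinset_univ] at h
  rw [← h]
  have h2 : ∑ b : Bool, (if b = true then (-1 : ℝ) else 1) = 0 := by simp
  simp only [h2]
  rw [Finset.prod_const, Finset.card_univ, Fintype.card_fin]
  exact zero_pow (by omega)

theorem chi_append (m : ℕ) (u v : Fin m → Bool) : chi (Fin.append u v) = chi u * chi v := by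
  unfold chi
  rw [Fin.prod_univ_add]
  simp only [Fin.append_left, Fin.append_right]

theorem chi_not (m : ℕ) (u : Fin m → Bool) : chi u * chi (fun j => !(u j)) = (-1) ^ m := by
  unfold chi
  rw [← Finset.prod_mul_distrib]
  have h : ∀ j : Fin m, (if u j = true then (-1 : ℝ) else 1)
      * (if (!(u j)) = true then (-1 : ℝ) else 1) = -1 := by
    intro j
    cases u j <;> simp
  simp only [h]
  rw [Finset.prod_const, Finset.card_univ, Fintype.card_fin]

theorem tight_sum (m : ℕ) (hm : 1 ≤ m) :
    ∑ x : Fin (m + m) → Bool, chi x * (if outBit m x = true then (-1 : ℝ) else 1)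
      = -2 * (-1) ^ m * 2 ^ m := by
  rw [← Equiv.sum_comp (Fin.appendEquiv m m)
    (fun x => chi x * (if outBit m x = true then (-1 : ℝ) else 1))]
  rw [Fintype.sum_prod_type]
  have hinner : ∀ u : Fin m → Bool,
      ∑ v : Fin m → Bool, chi (Fin.appendEquiv m m (u, v))
          * (if outBit m (Fin.appendEquiv m m (u, v)) = true then (-1 : ℝ) else 1)
        = -2 * (-1) ^ m := by
    intro u
    have e1 : ∀ v : Fin m → Bool, chi (Fin.appendEquiv m m (u, v))
          * (if outBit m (Fin.appendEquiv m m (u, v)) = true then (-1 : ℝ) else 1)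
        = chi u * chi v - 2 * (if v = (fun j => !(u j)) then chi u * chi v else 0) := by
      intro v
      have ea : Fin.appendEquiv m m (u, v) = Fin.append u v := rfl
      rw [ea, chi_append]
      have hcond : (outBit m (Fin.append u v) = true) ↔ v = (fun j => !(u j)) := by
        unfold outBit
        simp only [decide_eq_true_eq, Fin.append_left, Fin.append_right]
        constructor
        · intro h
          funext j
          have hj := h j
          cases hv : v j <;> cases hu : u j <;> simp [hv, hu] at hj ⊢
        · intro h j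
          rw [h]
          cases hu : u j <;> simp [hu]
      by_cases hc : v = (fun j => !(u j))
      · rw [if_pos (hcond.mpr hc), if_pos hc]
        ring
      · rw [if_neg (fun h => hc (hcond.mp h)), if_neg hc]
        ring
    simp only [e1]
    rw [Finset.sum_sub_distrib, ← Finset.mul_sum, ← Finset.mul_sum, sum_chi_zero m hm,
      Finset.sum_ite_eq' Finset.univ (fun j => !(u j)) (fun v => chi u * chi v)]
    simp only [Finset.mem_univ, if_true, mul_zero, zero_sub]
    rw [chi_not]
    ring
  simp only [hinner]
  rw [Finset.sum_const, Finset.card_univ, Fintype.card_fun, Fintype.card_bool, Fintype.card_fin,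
    nsmul_eq_mul]
  push_cast
  ring

/-- The two-layer circuit has parity correlation of absolute value `2 / sqrt 2 ^ n`,
`n = 2 m`. -/
theorem tight_correlation (m : ℕ) (hm : 1 ≤ m) :
    |parityCorrelation (circuitMatrix (tightCircuit m)) (Sum.inr ())|
      = 2 / Real.sqrt 2 ^ (m + m) := by
  unfold parityCorrelation
  rw [tight_matrix]
  have hsummand : ∀ x : Fin (m + m) → Bool,
      outProb (funMat (tofFun (Finset.univ.image (tq m)) (Sum.inr ())
          ∘ cnotFun m (List.finRange m))) (Sum.inr ()) (inputState x) (parity x)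
        - outProb (funMat (tofFun (Finset.univ.image (tq m)) (Sum.inr ())
          ∘ cnotFun m (List.finRange m))) (Sum.inr ()) (inputState x) (!(parity x))
        = chi x * (if outBit m x = true then (-1 : ℝ) else 1) := by
    intro x
    rw [outProb_funMat, outProb_funMat, tight_out, chi_eq]
    cases outBit m x <;> cases parity x <;> simp
  simp only [hsummand]
  rw [tight_sum m hm]
  have h2 : Real.sqrt 2 ^ (m + m) = 2 ^ m := by
    rw [pow_add, ← mul_pow, Real.mul_self_sqrt (by norm_num)]
  have h6 : |(-2 : ℝ) * (-1) ^ m * 2 ^ m| = 2 * 2 ^ m := by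
    rw [abs_mul, abs_mul, abs_pow, abs_pow]
    norm_num
  rw [h2, abs_div, h6, abs_of_pos (by positivity : (0 : ℝ) < 2 ^ (m + m)), pow_add]
  field_simp

theorem tight_depth (m : ℕ) : entanglingDepth (tightCircuit m) ≤ 2 := by
  unfold entanglingDepth tightCircuit
  exact (List.length_filter_le _ _).trans (by simp)

theorem tight_layers (m : ℕ) (hm : 1 ≤ m) : ∀ l ∈ tightCircuit m, IsLayer l := by
  intro l hl
  simp only [tightCircuit, List.mem_cons, List.not_mem_nil, or_false] at hl
  rcases hl with rfl | rfl
  · exact cnotLayer_isLayer m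
  · exact andLayer_isLayer m hm

end Vale.Agent.H98.QAC
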