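import Mathlib
import Vale.Agent.H98.QAC.Circuit
import Vale.Agent.H98.QAC.Prob
import Vale.Agent.H98.QAC.Tight

namespace Vale.Agent.H98.QAC

open Matrix

set_option linter.unusedSectionVars false

section generic

variable {Q : Type} [Fintype Q] [DecidableEq Q]

/-- the action on basis states of a list of CNOT gates with controls `c i` and targets `t i` -/
def cnotFunG {k : ℕ} (c t : Fin k → Q) (l : List (Fin k)) : (Q → Bool) → (Q → Bool) :=
  l.foldr (fun i acc => tofFun {c i} (t i) ∘ acc) id

theorem layerMatrix_cnotsG {k : ℕ} (c t : Fin k → Q) (l : List (Fin k)) :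
    layerMatrix (l.map (fun i => Gate.toffoli {c i} (t i))) = funMat (cnotFunG c t l) := by
  induction l with
  | nil => simp [layerMatrix, cnotFunG, funMat_id]
  | cons i l ih =>
      have h1 : layerMatrix ((i :: l).map (fun i => Gate.toffoli {c i} (t i)))
          = (Gate.toffoli {c i} (t i)).matrix
            * layerMatrix (l.map (fun i => Gate.toffoli {c i} (t i))) := by
        simp [layerMatrix]
      rw [h1, ih, toffoli_matrix_funMat, funMat_mul]
      rfl

theorem cnotFunG_apply {k : ℕ} (c t : Fin k → Q) (hct : ∀ i j, c i ≠ t j)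
    (ht : Function.Injective t) (s : Q → Bool) :
    ∀ l : List (Fin k), l.Nodup →
      (∀ q : Q, (∀ j ∈ l, q ≠ t j) → cnotFunG c t l s q = s q) ∧
      (∀ j ∈ l, cnotFunG c t l s (t j) = xor (s (t j)) (s (c j)))
  | [], _ => by simp [cnotFunG]
  | i :: l, hnd => by
      have hnd' := List.nodup_cons.mp hnd
      obtain ⟨h1, h2⟩ := cnotFunG_apply c t hct ht s l hnd'.2
      have hstep : cnotFunG c t (i :: l) s = tofFun {c i} (t i) (cnotFunG c t l s) := rfl
      rw [hstep]
      refine ⟨?_, ?_⟩
      · intro q hq
        unfold tofFun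
        rw [Function.update_of_ne (hq i (by simp)), h1 q (fun j hj => hq j (by simp [hj]))]
      · intro j hj
        unfold tofFun
        by_cases hji : j = i
        · subst hji
          have hti : ∀ j' ∈ l, t j ≠ t j' := by
            intro j' hj' h
            exact hnd'.1 (ht h ▸ hj')
          have hci : ∀ j' ∈ l, c j ≠ t j' := fun j' _ => hct j j'
          rw [Function.update_self, h1 (t j) hti]
          congr 1
          simp [h1 (c j) hci]
        · have hne : t j ≠ t i := fun h => hji (ht h)
          have hjl : j ∈ l := by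
            rcases List.mem_cons.mp hj with h | h
            · exact absurd h hji
            · exact h
          rw [Function.update_of_ne hne, h2 j hjl]

theorem cnotsG_isLayer {k : ℕ} (c t : Fin k → Q) (hct : ∀ i j, c i ≠ t j)
    (hc : Function.Injective c) (ht : Function.Injective t) :
    IsLayer ((List.finRange k).map (fun i => Gate.toffoli {c i} (t i))) := by
  constructor
  · intro g hg
    simp only [List.mem_map] at hg
    obtain ⟨i, _, rfl⟩ := hg
    refine ⟨Finset.singleton_nonempty _, ?_⟩
    rw [Finset.mem_singleton]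
    exact fun h => hct i i h.symm
  · rw [List.pairwise_map]
    refine List.Pairwise.imp ?_ (List.nodup_finRange k)
    intro i j hij
    simp only [Gate.support]
    rw [Finset.disjoint_left]
    intro a ha hb
    rw [Finset.mem_insert, Finset.mem_singleton] at ha hb
    rcases ha with ha | ha <;> rcases hb with hb | hb
    · exact hij (ht (ha ▸ hb))
    · exact hct j i (hb ▸ ha)
    · exact hct i j (ha ▸ hb)
    · exact hij (hc (ha ▸ hb))

theorem cons_cnotsG_isLayer {k : ℕ} (c t : Fin k → Q) (hct : ∀ i j, c i ≠ t j)
    (hc : Function.Injective c) (ht : Function.Injective t) (a z : Q) (haz : a ≠ z)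
    (ha : ∀ j, a ≠ t j ∧ a ≠ c j) (hz : ∀ j, z ≠ t j ∧ z ≠ c j) :
    IsLayer (Gate.toffoli {a} z :: (List.finRange k).map (fun i => Gate.toffoli {c i} (t i))) := by
  have hL := cnotsG_isLayer c t hct hc ht
  constructor
  · intro g hg
    rcases List.mem_cons.mp hg with rfl | hg
    · refine ⟨Finset.singleton_nonempty _, ?_⟩
      rw [Finset.mem_singleton]
      exact fun h => haz h.symm
    · exact hL.1 g hg
  · rw [List.pairwise_cons]
    refine ⟨?_, hL.2⟩
    intro g hg
    simp only [List.mem_map] at hg
    obtain ⟨i, _, rfl⟩ := hg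
    simp only [Gate.support]
    rw [Finset.disjoint_left]
    intro b hb1 hb2
    rw [Finset.mem_insert, Finset.mem_singleton] at hb1 hb2
    rcases hb1 with hb1 | hb1 <;> rcases hb2 with hb2 | hb2
    · exact (hz i).1 (hb1 ▸ hb2)
    · exact (hz i).2 (hb1 ▸ hb2)
    · exact (ha i).1 (hb1 ▸ hb2)
    · exact (ha i).2 (hb1 ▸ hb2)

theorem single_toffoli_isLayer (S : Finset Q) (z : Q) (hS : S.Nonempty) (hz : z ∉ S) :
    IsLayer [Gate.toffoli S z] := by
  constructor
  · intro g hg
    rw [List.mem_singleton] at hg
    subst hg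
    exact ⟨hS, hz⟩
  · simp

/-- output bit: CNOT layer, then one Toffoli from all CNOT targets onto a fresh qubit `z` -/
theorem tof_cnots_out {k : ℕ} (c t : Fin k → Q) (hct : ∀ i j, c i ≠ t j)
    (ht : Function.Injective t) (z : Q) (hz : ∀ j, z ≠ t j) (s : Q → Bool) :
    tofFun (Finset.univ.image t) z (cnotFunG c t (List.finRange k) s) z
      = xor (s z) (decide (∀ j : Fin k, xor (s (t j)) (s (c j)) = true)) := by
  obtain ⟨h1, h2⟩ := cnotFunG_apply c t hct ht s (List.finRange k) (List.nodup_finRange k)
  unfold tofFun
  rw [Function.update_self, h1 z (fun j _ => hz j)]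
  congr 1
  apply decide_eq_decide.mpr
  constructor
  · intro h j
    have hj := h (t j) (Finset.mem_image_of_mem _ (Finset.mem_univ j))
    rw [h2 j (List.mem_finRange j)] at hj
    exact hj
  · intro h q hq
    rw [Finset.mem_image] at hq
    obtain ⟨j, _, rfl⟩ := hq
    rw [h2 j (List.mem_finRange j)]
    exact h j

/-- output bit: CNOT layer with one more CNOT from `a` to `z`, then one Toffoli from all
other CNOT targets onto `z` -/
theorem tof_cnot_cnots_out {k : ℕ} (c t : Fin k → Q) (hct : ∀ i j, c i ≠ t j)
    (ht : Function.Injective t) (a z : Q) (hz : ∀ j, z ≠ t j) (ha : ∀ j, a ≠ t j)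
    (s : Q → Bool) :
    tofFun (Finset.univ.image t) z (tofFun {a} z (cnotFunG c t (List.finRange k) s)) z
      = xor (xor (s z) (s a)) (decide (∀ j : Fin k, xor (s (t j)) (s (c j)) = true)) := by
  obtain ⟨h1, h2⟩ := cnotFunG_apply c t hct ht s (List.finRange k) (List.nodup_finRange k)
  have e1 : tofFun {a} z (cnotFunG c t (List.finRange k) s) z = xor (s z) (s a) := by
    unfold tofFun
    rw [Function.update_self, h1 z (fun j _ => hz j)]
    congr 1
    simp [h1 a (fun j _ => ha j)]
  have e2 : ∀ j : Fin k, tofFun {a} z (cnotFunG c t (List.finRange k) s) (t j)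
      = xor (s (t j)) (s (c j)) := by
    intro j
    unfold tofFun
    rw [Function.update_of_ne (fun h => hz j h.symm), h2 j (List.mem_finRange j)]
  have e3 : tofFun (Finset.univ.image t) z (tofFun {a} z (cnotFunG c t (List.finRange k) s)) z
      = xor (tofFun {a} z (cnotFunG c t (List.finRange k) s) z)
        (decide (∀ i ∈ Finset.univ.image t,
          tofFun {a} z (cnotFunG c t (List.finRange k) s) i = true)) := by
    rw [tofFun, Function.update_self]
  rw [e3, e1]
  congr 1
  apply decide_eq_decide.mpr
  constructor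
  · intro h j
    have hj := h (t j) (Finset.mem_image_of_mem _ (Finset.mem_univ j))
    rw [e2 j] at hj
    exact hj
  · intro h q hq
    rw [Finset.mem_image] at hq
    obtain ⟨j, _, rfl⟩ := hq
    rw [e2 j]
    exact h j

theorem circuitMatrix_two (l1 l2 : List (Gate Q)) :
    circuitMatrix [l1, l2] = layerMatrix l2 * layerMatrix l1 := by
  simp [circuitMatrix]

theorem layerMatrix_single_toffoli (S : Finset Q) (z : Q) :
    layerMatrix [Gate.toffoli S z] = funMat (tofFun S z) := by
  simp [layerMatrix, toffoli_matrix_funMat]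

theorem layerMatrix_cons_toffoli (S : Finset Q) (z : Q) (l : List (Gate Q)) :
    layerMatrix (Gate.toffoli S z :: l) = funMat (tofFun S z) * layerMatrix l := by
  simp [layerMatrix, toffoli_matrix_funMat]

theorem depth_two_le (l1 l2 : List (Gate Q)) : entanglingDepth [l1, l2] ≤ 2 := by
  unfold entanglingDepth
  exact (List.length_filter_le _ _).trans (by simp)

end generic

section sums

theorem chi_append_gen (a b : ℕ) (u : Fin a → Bool) (v : Fin b → Bool) :
    chi (Fin.append u v) = chi u * chi v := by
  unfold chi
  rw [Fin.prod_univ_add]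
  simp only [Fin.append_left, Fin.append_right]

theorem gen_sum (k r : ℕ) (hk : 1 ≤ k) (pw : (Fin r → Bool) → Bool)
    (hpw : ∀ w : Fin r → Bool, chi w = if pw w = true then (-1 : ℝ) else 1) :
    ∑ x : Fin (k + k + r) → Bool, chi x
        * (if xor (pw (fun i => x (Fin.natAdd (k + k) i)))
              (outBit k (fun i => x (Fin.castAdd r i))) = true then (-1 : ℝ) else 1)
      = -2 * (-1) ^ k * 2 ^ k * 2 ^ r := by
  rw [← Equiv.sum_comp (Fin.appendEquiv (k + k) r)
    (fun x => chi x * (if xor (pw (fun i => x (Fin.natAdd (k + k) i)))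
              (outBit k (fun i => x (Fin.castAdd r i))) = true then (-1 : ℝ) else 1))]
  rw [Fintype.sum_prod_type]
  have hterm : ∀ (x' : Fin (k + k) → Bool) (w : Fin r → Bool),
      chi (Fin.appendEquiv (k + k) r (x', w))
        * (if xor (pw (fun i => Fin.appendEquiv (k + k) r (x', w) (Fin.natAdd (k + k) i)))
              (outBit k (fun i => Fin.appendEquiv (k + k) r (x', w) (Fin.castAdd r i))) = true
            then (-1 : ℝ) else 1)
        = chi x' * (if outBit k x' = true then (-1 : ℝ) else 1) := by
    intro x' w
    have ea : Fin.appendEquiv (k + k) r (x', w) = Fin.append x' w := rfl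
    have e1 : (fun i => Fin.append x' w (Fin.natAdd (k + k) i)) = w := by
      funext i
      rw [Fin.append_right]
    have e2 : (fun i => Fin.append x' w (Fin.castAdd r i)) = x' := by
      funext i
      rw [Fin.append_left]
    rw [ea, e1, e2, chi_append_gen, hpw w]
    cases pw w <;> cases outBit k x' <;> simp
  simp only [hterm]
  rw [Finset.sum_comm]
  simp only [tight_sum k hk]
  rw [Finset.sum_const, Finset.card_univ, Fintype.card_fun, Fintype.card_bool, Fintype.card_fin,
    nsmul_eq_mul]
  push_cast
  ring

variable {A : Type} [Fintype A] [DecidableEq A]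

theorem gen_correlation (k r : ℕ) (hk : 1 ≤ k)
    (F : (Fin (k + k + r) ⊕ A → Bool) → (Fin (k + k + r) ⊕ A → Bool))
    (z : Fin (k + k + r) ⊕ A) (pw : (Fin r → Bool) → Bool)
    (hpw : ∀ w : Fin r → Bool, chi w = if pw w = true then (-1 : ℝ) else 1)
    (hF : ∀ x : Fin (k + k + r) → Bool, F (inputState x) z
      = xor (pw (fun i => x (Fin.natAdd (k + k) i))) (outBit k (fun i => x (Fin.castAdd r i)))) :
    |parityCorrelation (funMat F) z| = 2 / 2 ^ k := by
  unfold parityCorrelation
  have hsummand : ∀ x : Fin (k + k + r) → Bool,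
      outProb (funMat F) z (inputState x) (parity x)
        - outProb (funMat F) z (inputState x) (!(parity x))
        = chi x * (if xor (pw (fun i => x (Fin.natAdd (k + k) i)))
              (outBit k (fun i => x (Fin.castAdd r i))) = true then (-1 : ℝ) else 1) := by
    intro x
    rw [outProb_funMat, outProb_funMat, hF x, chi_eq]
    cases xor (pw (fun i => x (Fin.natAdd (k + k) i))) (outBit k (fun i => x (Fin.castAdd r i)))
      <;> cases parity x <;> simp
  simp only [hsummand]
  rw [gen_sum k r hk pw hpw]
  have h6 : |(-2 : ℝ) * (-1) ^ k * 2 ^ k * 2 ^ r| = 2 * 2 ^ k * 2 ^ r := by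
    rw [abs_mul, abs_mul, abs_mul, abs_pow, abs_pow, abs_pow]
    norm_num
  rw [abs_div, h6, abs_of_pos (by positivity : (0 : ℝ) < 2 ^ (k + k + r)), pow_add, pow_add]
  field_simp

end sums

section circuits

variable (k r : ℕ) (A : Type) [Fintype A] [DecidableEq A]

/-- the control qubit of pair `j` -/
def pc (j : Fin k) : Fin (k + k + r) ⊕ A := Sum.inl (Fin.castAdd r (Fin.castAdd k j))

/-- the target qubit of pair `j` -/
def pt (j : Fin k) : Fin (k + k + r) ⊕ A := Sum.inl (Fin.castAdd r (Fin.natAdd k j))

/-- the remaining input qubits -/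
def lq (i : Fin r) : Fin (k + k + r) ⊕ A := Sum.inl (Fin.natAdd (k + k) i)

theorem pc_ne_pt (i j : Fin k) : pc k r A i ≠ pt k r A j := by
  intro h
  have h2 := congrArg Fin.val (Sum.inl_injective h)
  simp at h2
  omega

theorem pc_inj : Function.Injective (pc k r A) := by
  intro i j h
  have h2 := congrArg Fin.val (Sum.inl_injective h)
  simp at h2
  exact Fin.ext h2

theorem pt_inj : Function.Injective (pt k r A) := by
  intro i j h
  have h2 := congrArg Fin.val (Sum.inl_injective h)
  simp at h2
  exact Fin.ext h2

theorem lq_ne_pt (i : Fin r) (j : Fin k) : lq k r A i ≠ pt k r A j := by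
  intro h
  have h2 := congrArg Fin.val (Sum.inl_injective h)
  simp at h2
  omega

theorem lq_ne_pc (i : Fin r) (j : Fin k) : lq k r A i ≠ pc k r A j := by
  intro h
  have h2 := congrArg Fin.val (Sum.inl_injective h)
  simp at h2
  omega

theorem lq_inj : Function.Injective (lq k r A) := by
  intro i j h
  have h2 := congrArg Fin.val (Sum.inl_injective h)
  simp at h2
  exact Fin.ext h2

end circuits

end Vale.Agent.H98.QAC
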