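import Mathlib
import Vale.Agent.H98.QAC.Circuit
import Vale.Agent.H98.QAC.Prob
import Vale.Agent.H98.QAC.Tight
import Vale.Agent.H98.QAC.Tight2

namespace Vale.Agent.H98.QAC

open Matrix

set_option linter.unusedSectionVars false

variable (k : ℕ) (A : Type) [Fintype A] [DecidableEq A]

/-- Odd number `2 k + 1` of inputs: CNOT gates on `k` input pairs, then one Toffoli gate
from the `k` CNOT targets onto the remaining input qubit. -/
def oddCircuit : List (List (Gate (Fin (k + k + 1) ⊕ A))) :=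
  [(List.finRange k).map (fun i => Gate.toffoli {pc k 1 A i} (pt k 1 A i)),
    [Gate.toffoli (Finset.univ.image (pt k 1 A)) (lq k 1 A 0)]]

/-- Even number `2 k + 2` of inputs: CNOT gates on `k + 1` input pairs, then one Toffoli gate
from the first `k` CNOT targets onto the last CNOT target. -/
def evenCircuit : List (List (Gate (Fin (k + k + 2) ⊕ A))) :=
  [Gate.toffoli {lq k 2 A 0} (lq k 2 A 1)
      :: (List.finRange k).map (fun i => Gate.toffoli {pc k 2 A i} (pt k 2 A i)),
    [Gate.toffoli (Finset.univ.image (pt k 2 A)) (lq k 2 A 1)]]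

theorem top_isLayer (r : ℕ) (hk : 1 ≤ k) (i : Fin r) :
    IsLayer [Gate.toffoli (Finset.univ.image (pt k r A)) (lq k r A i)] := by
  refine single_toffoli_isLayer _ _
    ⟨pt k r A ⟨0, hk⟩, Finset.mem_image_of_mem _ (Finset.mem_univ _)⟩ ?_
  intro h
  rw [Finset.mem_image] at h
  obtain ⟨j, _, hj⟩ := h
  exact lq_ne_pt k r A i j hj.symm

theorem oddCircuit_layers (hk : 1 ≤ k) : ∀ l ∈ oddCircuit k A, IsLayer l := by
  intro l hl
  simp only [oddCircuit, List.mem_cons, List.not_mem_nil, or_false] at hl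
  rcases hl with rfl | rfl
  · exact cnotsG_isLayer _ _ (pc_ne_pt k 1 A) (pc_inj k 1 A) (pt_inj k 1 A)
  · exact top_isLayer k A 1 hk 0

theorem evenCircuit_layers (hk : 1 ≤ k) : ∀ l ∈ evenCircuit k A, IsLayer l := by
  intro l hl
  simp only [evenCircuit, List.mem_cons, List.not_mem_nil, or_false] at hl
  rcases hl with rfl | rfl
  · refine cons_cnotsG_isLayer _ _ (pc_ne_pt k 2 A) (pc_inj k 2 A) (pt_inj k 2 A) _ _ ?_
      (fun j => ⟨lq_ne_pt k 2 A 0 j, lq_ne_pc k 2 A 0 j⟩)
      (fun j => ⟨lq_ne_pt k 2 A 1 j, lq_ne_pc k 2 A 1 j⟩)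
    intro h
    have h2 := lq_inj k 2 A h
    exact absurd h2 (by decide)
  · exact top_isLayer k A 2 hk 1

theorem oddCircuit_matrix :
    circuitMatrix (oddCircuit k A)
      = funMat (tofFun (Finset.univ.image (pt k 1 A)) (lq k 1 A 0)
          ∘ cnotFunG (pc k 1 A) (pt k 1 A) (List.finRange k)) := by
  unfold oddCircuit
  rw [circuitMatrix_two, layerMatrix_single_toffoli, layerMatrix_cnotsG, funMat_mul]

theorem evenCircuit_matrix :
    circuitMatrix (evenCircuit k A)
      = funMat (tofFun (Finset.univ.image (pt k 2 A)) (lq k 2 A 1)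
          ∘ (tofFun {lq k 2 A 0} (lq k 2 A 1)
            ∘ cnotFunG (pc k 2 A) (pt k 2 A) (List.finRange k))) := by
  unfold evenCircuit
  rw [circuitMatrix_two, layerMatrix_single_toffoli, layerMatrix_cons_toffoli, layerMatrix_cnotsG,
    funMat_mul, funMat_mul]

theorem oddCircuit_correlation (hk : 1 ≤ k) :
    |parityCorrelation (circuitMatrix (oddCircuit k A)) (lq k 1 A 0)| = 2 / 2 ^ k := by
  rw [oddCircuit_matrix]
  refine gen_correlation k 1 hk _ _ (fun w => w 0) ?_ ?_
  · intro w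
    unfold chi
    simp
  · intro x
    show tofFun _ _ (cnotFunG _ _ _ (inputState x)) _ = _
    rw [tof_cnots_out _ _ (pc_ne_pt k 1 A) (pt_inj k 1 A) _ (fun j => lq_ne_pt k 1 A 0 j)]
    rfl

theorem evenCircuit_correlation (hk : 1 ≤ k) :
    |parityCorrelation (circuitMatrix (evenCircuit k A)) (lq k 2 A 1)| = 2 / 2 ^ k := by
  rw [evenCircuit_matrix]
  refine gen_correlation k 2 hk _ _ (fun w => xor (w 1) (w 0)) ?_ ?_
  · intro w
    unfold chi
    rw [Fin.prod_univ_two]
    cases w 0 <;> cases w 1 <;> simp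
  · intro x
    show tofFun _ _ (tofFun _ _ (cnotFunG _ _ _ (inputState x))) _ = _
    rw [tof_cnot_cnots_out _ _ (pc_ne_pt k 2 A) (pt_inj k 2 A) _ _
      (fun j => lq_ne_pt k 2 A 1 j) (fun j => lq_ne_pt k 2 A 0 j)]
    rfl

/-- For every `n ≥ 3` and every ancilla type there is a circuit of entangling depth at most two
whose parity correlation has absolute value exactly `4 / 2 ^ ceil (n / 2)`. -/
theorem exists_tight (n : ℕ) (hn : 3 ≤ n) (B : Type) [Fintype B] [DecidableEq B] :
    ∃ c : List (List (Gate (Fin n ⊕ B))), (∀ l ∈ c, IsLayer l) ∧ entanglingDepth c ≤ 2 ∧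
      ∃ q : Fin n ⊕ B, |parityCorrelation (circuitMatrix c) q| = 4 / 2 ^ ((n + 1) / 2) := by
  obtain ⟨k, hk, h⟩ : ∃ k, 1 ≤ k ∧ (n = k + k + 1 ∨ n = k + k + 2) :=
    ⟨(n - 1) / 2, by omega, by omega⟩
  rcases h with rfl | rfl
  · refine ⟨oddCircuit k B, oddCircuit_layers k B hk, depth_two_le _ _, lq k 1 B 0, ?_⟩
    rw [oddCircuit_correlation k B hk]
    have e : (k + k + 1 + 1) / 2 = k + 1 := by omega
    rw [e, pow_succ]
    field_simp
    norm_num
  · refine ⟨evenCircuit k B, evenCircuit_layers k B hk, depth_two_le _ _, lq k 2 B 1, ?_⟩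
    rw [evenCircuit_correlation k B hk]
    have e : (k + k + 2 + 1) / 2 = k + 1 := by omega
    rw [e, pow_succ]
    field_simp
    norm_num

end Vale.Agent.H98.QAC
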