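import Mathlib
import Vale.Agent.H98.QAC.Basic
import Vale.Agent.H98.QAC.Abs
import Vale.Agent.H98.QAC.Block
import Vale.Agent.H98.QAC.Block2
import Vale.Agent.H98.QAC.Factor
import Vale.Agent.H98.QAC.Core
import Vale.Agent.H98.QAC.Core2
import Vale.Agent.H98.QAC.Top
import Vale.Agent.H98.QAC.Main

namespace Vale.Agent.H98.QAC

open Matrix

set_option linter.unusedSectionVars false

variable {Q : Type*} [Fintype Q] [DecidableEq Q]

/-- Sharp core estimate: for a circuit in the normal form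
`U2 T2 U1 T1 U0` (two layers of reflections about product states with pairwise disjoint
supports, interleaved with layers of one-qubit unitaries) and at least four inputs, the signed
sum over inputs of the probability of a one-qubit measurement outcome is at most
`2 * 2 ^ floor (|I| / 2)`. -/
theorem core2 (v0 v1 v2 : Q → Matrix Bool Bool ℂ) (h0 : ∀ i, (v0 i)ᴴ * v0 i = 1)
    (h1 : ∀ i, (v1 i)ᴴ * v1 i = 1) (h2 : ∀ i, (v2 i)ᴴ * v2 i = 1)
    (L1 L2 : List (Finset Q × (Q → Matrix Bool Bool ℂ))) (hL1 : GoodList L1) (hL2 : GoodList L2)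
    (I : Finset Q) (hI : 4 ≤ I.card) (q : Q) (m : Matrix Bool Bool ℂ) (hm : IsProj m)
    (hm1 : m.trace = 1) :
    ‖(op (Function.update (fun _ => (1 : Matrix Bool Bool ℂ)) q m)
        * (op v2 * prodR L2 * op v1 * prodR L1 * op v0)
        * Matrix.diagonal (fun s : Q → Bool => ((rz I s : ℝ) : ℂ))
        * (op v2 * prodR L2 * op v1 * prodR L1 * op v0)ᴴ).trace‖ ≤ 2 * (2 : ℝ) ^ (I.card / 2) := by
  set M := op (Function.update (fun _ => (1 : Matrix Bool Bool ℂ)) q m) with hM
  set D := Matrix.diagonal (fun s : Q → Bool => ((rz I s : ℝ) : ℂ)) with hD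
  have hCH : (op v2 * prodR L2 * op v1 * prodR L1 * op v0)ᴴ
      = (op v0)ᴴ * prodRrev L1 * (op v1)ᴴ * prodRrev L2 * (op v2)ᴴ := by
    simp only [Matrix.conjTranspose_mul, prodR_conjTranspose L1 hL1.1,
      prodR_conjTranspose L2 hL2.1, Matrix.mul_assoc]
  have hX : op (cfam v0 (zd I)) = op v0 * D * (op v0)ᴴ := by
    rw [op_cfam]
    rfl
  have hre : M * (op v2 * prodR L2 * op v1 * prodR L1 * op v0) * D
        * ((op v0)ᴴ * prodRrev L1 * (op v1)ᴴ * prodRrev L2 * (op v2)ᴴ)
      = (M * op v2 * prodR L2 * op v1) * (prodR L1 * op (cfam v0 (zd I)) * prodRrev L1)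
        * ((op v1)ᴴ * prodRrev L2 * (op v2)ᴴ) := by
    rw [hX]
    simp only [Matrix.mul_assoc]
  rw [hCH, hre, Matrix.trace_mul_cycle]
  set m0 := (v2 q)ᴴ * m * v2 q with hm0
  have hM2 : (op v2)ᴴ * M * op v2 = op (Function.update (fun _ => (1 : Matrix Bool Bool ℂ)) q m0) := by
    rw [hM, op_conjTranspose, op_mul, op_mul]
    congr 1
    funext i
    by_cases h : i = q
    · subst h
      simp [hm0]
    · simp [Function.update_of_ne h, h2 i]
  have hm0p : IsProj m0 := isProj_conj_small (v2 q) m (h2 q) hm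
  have hm0t : m0.trace = 1 := by rw [hm0, trace_conj_small (v2 q) m (h2 q), hm1]
  obtain ⟨y1, y2, hy1, hy2, htop⟩ := top_layer q m0 hm0p hm0t L2 hL2
  have hmid : ((op v1)ᴴ * prodRrev L2 * (op v2)ᴴ) * (M * op v2 * prodR L2 * op v1)
      = op (fun i => (v1 i)ᴴ * (Function.update (fun _ => (1 : Matrix Bool Bool ℂ)) q m0) i * v1 i)
        + op (fun i => (v1 i)ᴴ * y1 i * v1 i) - op (fun i => (v1 i)ᴴ * y2 i * v1 i) := by
    calc ((op v1)ᴴ * prodRrev L2 * (op v2)ᴴ) * (M * op v2 * prodR L2 * op v1)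
        = (op v1)ᴴ * (prodRrev L2 * ((op v2)ᴴ * M * op v2) * prodR L2) * op v1 := by
          simp only [Matrix.mul_assoc]
      _ = (op v1)ᴴ * (op (Function.update (fun _ => (1 : Matrix Bool Bool ℂ)) q m0)
            + op y1 - op y2) * op v1 := by rw [hM2, htop]
      _ = op (fun i => (v1 i)ᴴ * (Function.update (fun _ => (1 : Matrix Bool Bool ℂ)) q m0) i * v1 i)
          + op (fun i => (v1 i)ᴴ * y1 i * v1 i) - op (fun i => (v1 i)ᴴ * y2 i * v1 i) := by
          rw [Matrix.mul_sub, Matrix.mul_add, Matrix.sub_mul, Matrix.add_mul, op_conjTranspose]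
          simp only [op_mul]
  rw [hmid, Matrix.sub_mul, Matrix.add_mul, Matrix.trace_sub, Matrix.trace_add]
  have hy0 : ∀ i, i ≠ q →
      (v1 i)ᴴ * (Function.update (fun _ => (1 : Matrix Bool Bool ℂ)) q m0) i * v1 i = 1 := by
    intro i hi
    rw [Function.update_of_ne hi, Matrix.mul_one, h1 i]
  by_cases hA : (∃ i ∈ I, i ≠ q ∧ i ∉ suppU L1) ∨ (∃ g ∈ L1, q ∉ g.1 ∧ ∃ i ∈ I, i ∈ g.1)
  · have z0 : (op (fun i => (v1 i)ᴴ
          * (Function.update (fun _ => (1 : Matrix Bool Bool ℂ)) q m0) i * v1 i)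
          * (prodR L1 * op (cfam v0 (zd I)) * prodRrev L1)).trace = 0 := by
      have h := single_vanish v0 h0 I L1 hL1 q _ hy0 hA
      simpa only [Matrix.mul_assoc] using h
    have hb : ∀ y : Q → Matrix Bool Bool ℂ, ProjFam y →
        ‖(op (fun i => (v1 i)ᴴ * y i * v1 i)
            * (prodR L1 * op (cfam v0 (zd I)) * prodRrev L1)).trace‖ ≤ (2 : ℝ) ^ (I.card / 2) := by
      intro y hy
      have h := single_bound2 v0 h0 I L1 hL1 _ (projFam_conj v1 h1 y hy)
      simpa only [Matrix.mul_assoc] using h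
    have b1 := hb y1 hy1
    have b2 := hb y2 hy2
    rw [z0, zero_add]
    refine (norm_sub_le _ _).trans ?_
    linarith
  · have hq : ∀ g ∈ L1, q ∉ g.1 → (I ∩ g.1).card < 2 := by
      intro g hg hqg
      have hemp : I ∩ g.1 = ∅ := by
        rw [Finset.eq_empty_iff_forall_notMem]
        intro i hi
        rw [Finset.mem_inter] at hi
        exact hA (Or.inr ⟨g, hg, hqg, i, hi.1, hi.2⟩)
      rw [hemp]
      simp
    have hb : ∀ y : Q → Matrix Bool Bool ℂ, ProjFam y →
        ‖(op (fun i => (v1 i)ᴴ * y i * v1 i)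
            * (prodR L1 * op (cfam v0 (zd I)) * prodRrev L1)).trace‖ ≤ 2 := by
      intro y hy
      have h := single_boundB v0 h0 I L1 hL1 q hq _ (projFam_conj v1 h1 y hy)
      simpa only [Matrix.mul_assoc] using h
    have b0 := hb _ (projFam_update_one q m0 hm0p hm0t)
    have b1 := hb y1 hy1
    have b2 := hb y2 hy2
    have h4 : (4 : ℝ) ≤ (2 : ℝ) ^ (I.card / 2) := by
      calc (4 : ℝ) = 2 ^ 2 := by norm_num
        _ ≤ (2 : ℝ) ^ (I.card / 2) := pow_le_pow_right₀ (by norm_num) (by omega)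
    refine (norm_sub_le _ _).trans ?_
    refine (add_le_add (norm_add_le _ _) le_rfl).trans ?_
    linarith

end Vale.Agent.H98.QAC
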