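import Mathlib
import Vale.Agent.H98.QAC.Basic
import Vale.Agent.H98.QAC.Abs
import Vale.Agent.H98.QAC.Block
import Vale.Agent.H98.QAC.Block2
import Vale.Agent.H98.QAC.Factor
import Vale.Agent.H98.QAC.Core
import Vale.Agent.H98.QAC.Core2
import Vale.Agent.H98.QAC.Top
import Vale.Agent.H98.QAC.Main
import Vale.Agent.H98.QAC.Main2
import Vale.Agent.H98.QAC.Circuit
import Vale.Agent.H98.QAC.NF
import Vale.Agent.H98.QAC.Prob
import Vale.Agent.H98.QAC.Final

namespace Vale.Agent.H98.QAC

open Matrix

set_option linter.unusedSectionVars false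

variable {n : ℕ} {A : Type} [Fintype A] [DecidableEq A]

theorem signed_sum_bound2 (c : List (List (Gate (Fin n ⊕ A)))) (hc : ∀ l ∈ c, IsLayer l)
    (hd : entanglingDepth c ≤ 2) (hn : 4 ≤ n) (q : Fin n ⊕ A) (b : Bool) :
    |∑ x : Fin n → Bool, chi x * outProb (circuitMatrix c) q (inputState x) b|
      ≤ 2 * (2 : ℝ) ^ (n / 2) := by
  obtain ⟨v0, v1, v2, L1, L2, h0, h1, h2, hL1, hL2, hC⟩ :=
    nf_two _ (IsNF.mono hd _ (circuit_nf c hc))
  have hcore := core2 v0 v1 v2 h0 h1 h2 L1 L2 hL1 hL2 (inputSet n A)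
    (by rw [card_inputSet]; exact hn) q (measP b) (measP_isProj b) (measP_trace b)
  rw [← hC, trace_prob, card_inputSet, sum_rz_inputSet, Complex.norm_real,
    Real.norm_eq_abs] at hcore
  exact hcore

theorem outProb_nonneg {Q : Type} [Fintype Q] [DecidableEq Q] (C : Matrix (Q → Bool) (Q → Bool) ℂ)
    (q : Q) (s0 : Q → Bool) (b : Bool) : 0 ≤ outProb C q s0 b := by
  unfold outProb
  refine Finset.sum_nonneg (fun s _ => ?_)
  split_ifs
  · positivity
  · exact le_rfl

theorem parityCorrelation_abs_le_one (C : Matrix (Fin n ⊕ A → Bool) (Fin n ⊕ A → Bool) ℂ)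
    (hC : Cᴴ * C = 1) (q : Fin n ⊕ A) : |parityCorrelation C q| ≤ 1 := by
  unfold parityCorrelation
  rw [abs_div, abs_of_pos (by positivity : (0 : ℝ) < 2 ^ n), div_le_one (by positivity)]
  have hx : ∀ x : Fin n → Bool,
      |outProb C q (inputState x) (parity x) - outProb C q (inputState x) (!(parity x))| ≤ 1 := by
    intro x
    have h1 := outProb_add C hC q (inputState x) (parity x)
    have h2 := outProb_nonneg C q (inputState x) (parity x)
    have h3 := outProb_nonneg C q (inputState x) (!(parity x))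
    rw [abs_le]
    constructor <;> linarith
  calc |∑ x : Fin n → Bool,
          (outProb C q (inputState x) (parity x) - outProb C q (inputState x) (!(parity x)))|
      ≤ ∑ x : Fin n → Bool,
          |outProb C q (inputState x) (parity x) - outProb C q (inputState x) (!(parity x))| :=
        Finset.abs_sum_le_sum_abs _ _
    _ ≤ ∑ _x : Fin n → Bool, (1 : ℝ) := Finset.sum_le_sum (fun x _ => hx x)
    _ = 2 ^ n := by
        rw [Finset.sum_const, Finset.card_univ, Fintype.card_fun, Fintype.card_bool,
          Fintype.card_fin, nsmul_eq_mul]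
        push_cast
        ring

/-- Parity correlation of entangling-depth-two circuits is at most `4 / 2 ^ ceil (n / 2)`. -/
theorem depth2_parity_correlation_sharp (c : List (List (Gate (Fin n ⊕ A))))
    (hc : ∀ l ∈ c, IsLayer l) (hd : entanglingDepth c ≤ 2) (q : Fin n ⊕ A) :
    |parityCorrelation (circuitMatrix c) q| ≤ 4 / 2 ^ ((n + 1) / 2) := by
  rcases Nat.lt_or_ge n 4 with hn | hn
  · have h1 := parityCorrelation_abs_le_one (circuitMatrix c) (circuit_unitary c hc hd) q
    have h2 : (1 : ℝ) ≤ 4 / 2 ^ ((n + 1) / 2) := by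
      rw [le_div_iff₀ (by positivity), one_mul]
      calc (2 : ℝ) ^ ((n + 1) / 2) ≤ 2 ^ 2 := pow_le_pow_right₀ (by norm_num) (by omega)
        _ = 4 := by norm_num
    exact h1.trans h2
  · have hf := signed_sum_bound2 c hc hd hn q false
    have ht := signed_sum_bound2 c hc hd hn q true
    unfold parityCorrelation
    rw [correlation_split, abs_div, abs_of_pos (by positivity : (0 : ℝ) < 2 ^ n)]
    have h2n : (2 : ℝ) ^ n = 2 ^ (n / 2) * 2 ^ ((n + 1) / 2) := by
      rw [← pow_add]
      congr 1
      omega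
    have hp : (0 : ℝ) < 2 ^ ((n + 1) / 2) := by positivity
    rw [div_le_div_iff₀ (by positivity) hp, h2n]
    have habs := abs_sub
      (∑ x : Fin n → Bool, chi x * outProb (circuitMatrix c) q (inputState x) false)
      (∑ x : Fin n → Bool, chi x * outProb (circuitMatrix c) q (inputState x) true)
    calc |(∑ x : Fin n → Bool, chi x * outProb (circuitMatrix c) q (inputState x) false)
            - ∑ x : Fin n → Bool, chi x * outProb (circuitMatrix c) q (inputState x) true|
          * 2 ^ ((n + 1) / 2)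
        ≤ (4 * 2 ^ (n / 2)) * 2 ^ ((n + 1) / 2) :=
          mul_le_mul_of_nonneg_right (by linarith) hp.le
      _ = 4 * (2 ^ (n / 2) * 2 ^ ((n + 1) / 2)) := by ring

/-- No entangling-depth-two circuit computes parity with worst-case advantage above
`2 / 2 ^ ceil (n / 2)`. -/
theorem depth2_parity_advantage_sharp (c : List (List (Gate (Fin n ⊕ A))))
    (hc : ∀ l ∈ c, IsLayer l) (hd : entanglingDepth c ≤ 2) (q : Fin n ⊕ A) (ε : ℝ)
    (hε : ∀ x : Fin n → Bool, 1 / 2 + ε ≤ outProb (circuitMatrix c) q (inputState x) (parity x)) :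
    ε ≤ 2 / 2 ^ ((n + 1) / 2) := by
  have hcorr := depth2_parity_correlation_sharp c hc hd q
  have hU := circuit_unitary c hc hd
  have hlow : 2 * ε ≤ parityCorrelation (circuitMatrix c) q := by
    unfold parityCorrelation
    rw [le_div_iff₀ (by positivity)]
    have hx : ∀ x : Fin n → Bool, 2 * ε ≤ outProb (circuitMatrix c) q (inputState x) (parity x)
        - outProb (circuitMatrix c) q (inputState x) (!(parity x)) := by
      intro x
      have h1 := outProb_add (circuitMatrix c) hU q (inputState x) (parity x)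
      have h2 := hε x
      linarith
    calc 2 * ε * 2 ^ n = ∑ _x : Fin n → Bool, 2 * ε := by
          rw [Finset.sum_const, Finset.card_univ, Fintype.card_fun, Fintype.card_bool,
            Fintype.card_fin, nsmul_eq_mul]
          push_cast
          ring
      _ ≤ _ := Finset.sum_le_sum (fun x _ => hx x)
  have h3 := (le_abs_self _).trans hcorr
  have h4 : 2 * ε ≤ 4 / 2 ^ ((n + 1) / 2) := hlow.trans h3
  have h5 : (4 : ℝ) / 2 ^ ((n + 1) / 2) = 2 * (2 / 2 ^ ((n + 1) / 2)) := by ring
  linarith

end Vale.Agent.H98.QAC
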