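import Mathlib
import Vale.Agent.H98.QAC.Deep2

namespace Vale.Agent.H98.QAC

open Matrix

set_option linter.unusedSectionVars false

variable {Q : Type} [Fintype Q] [DecidableEq Q]

/-- Pushing a product of atoms through one layer of reflections of arbitrary sizes: if the
kernel pairs with every product of atoms by at most `c`, the cost is a factor nine for each
gate that meets the non-identity part, counted through a set `F` that hits every such gate. -/
theorem mid_gates (K : Matrix (Q → Bool) (Q → Bool) ℂ) (c : ℝ) (hc : 0 ≤ c)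
    (hK : AtomBd K 1 c) :
    ∀ L : List (Finset Q × (Q → Matrix Bool Bool ℂ)), GoodList L →
      ∀ (y : Q → Matrix Bool Bool ℂ), AtomFam y → ∀ F : Finset Q,
        (∀ g ∈ L, (∃ i ∈ g.1, y i ≠ 1) → ∃ i ∈ F, i ∈ g.1) →
        ‖(prodRrev L * op y * prodR L * K).trace‖ ≤ 9 ^ F.card * c
  | [], _, y, hy, F, _ => by
      have h := hK y hy Finset.univ (fun i hi => absurd (Finset.mem_univ i) hi)
      rw [one_pow, one_mul] at h
      have h9 : (1 : ℝ) ≤ 9 ^ F.card := one_le_pow₀ (by norm_num)
      simp only [prodR_nil, prodRrev_nil, Matrix.one_mul, Matrix.mul_one]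
      nlinarith
  | g :: L, h, y, hy, F, hF => by
      have hpw := List.pairwise_cons.mp h.2
      have hg := h.1 g (by simp)
      have hL : GoodList L := ⟨fun g' hg' => h.1 g' (by simp [hg']), hpw.2⟩
      have IH := mid_gates K c hc hK L hL
      rw [prodR_cons, prodRrev_cons]
      have hassoc : prodRrev L * refl g.2 * op y * (refl g.2 * prodR L)
          = prodRrev L * (refl g.2 * op y * refl g.2) * prodR L := by
        simp only [Matrix.mul_assoc]
      rw [hassoc]
      by_cases htouch : ∀ i ∈ g.1, y i = 1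
      · have hc' : op y * refl g.2 = refl g.2 * op y := by
          apply op_comm_refl
          intro i
          by_cases hi : i ∈ g.1
          · rw [htouch i hi, Matrix.one_mul, Matrix.mul_one]
          · rw [hg.1 i hi, Matrix.one_mul, Matrix.mul_one]
        rw [Matrix.mul_assoc (refl g.2), hc', ← Matrix.mul_assoc (refl g.2),
          refl_sq g.2 (fun i => (hg.projFam i).1.2), Matrix.one_mul]
        exact IH y hy F (fun g' hg' ht => hF g' (by simp [hg']) ht)
      · simp only [not_forall] at htouch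
        obtain ⟨i0, hi0, hyi0⟩ := htouch
        obtain ⟨p, hpF, hpg⟩ := hF g (by simp) ⟨i0, hi0, hyi0⟩
        rw [refl_conj]
        obtain ⟨z1, hz1, x1, hx1, hx1', e1⟩ := atomFam_mul_left g hg y hy
        obtain ⟨z2, hz2, x2, hx2, hx2', e2⟩ := atomFam_mul_right g hg y hy
        obtain ⟨z3, hz3, x3, hx3, hx3', e3⟩ := atomFam_mul_both g hg y hy
        rw [e1, e2, e3]
        have hF' : ∀ x' : Q → Matrix Bool Bool ℂ, (∀ i, i ∉ g.1 → x' i = y i) →
            ∀ g' ∈ L, (∃ i ∈ g'.1, x' i ≠ 1) → ∃ i ∈ F.erase p, i ∈ g'.1 := by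
          intro x' hx' g' hg' hex
          obtain ⟨i, hi, hxi⟩ := hex
          have hdis : Disjoint g.1 g'.1 := hpw.1 g' hg'
          have hig : i ∉ g.1 := fun h' => Finset.disjoint_left.mp hdis h' hi
          rw [hx' i hig] at hxi
          obtain ⟨p', hp'F, hp'g⟩ := hF g' (by simp [hg']) ⟨i, hi, hxi⟩
          refine ⟨p', Finset.mem_erase.mpr ⟨?_, hp'F⟩, hp'g⟩
          intro hpp
          rw [hpp] at hp'g
          exact Finset.disjoint_left.mp hdis hpg hp'g
        have b0 := IH y hy (F.erase p) (hF' y (fun _ _ => rfl))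
        have b1 := IH x1 hx1 (F.erase p) (hF' x1 hx1')
        have b2 := IH x2 hx2 (F.erase p) (hF' x2 hx2')
        have b3 := IH x3 hx3 (F.erase p) (hF' x3 hx3')
        have hcard : (F.erase p).card + 1 = F.card := Finset.card_erase_add_one hpF
        have lin : (prodRrev L * (op y - 2 • (z1 • op x1) - 2 • (z2 • op x2) + 4 • (z3 • op x3))
              * prodR L * K).trace
            = (prodRrev L * op y * prodR L * K).trace
              - 2 * z1 * (prodRrev L * op x1 * prodR L * K).trace
              - 2 * z2 * (prodRrev L * op x2 * prodR L * K).trace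
              + 4 * z3 * (prodRrev L * op x3 * prodR L * K).trace := by
          have e2 : ∀ (z : ℂ) (M : Matrix (Q → Bool) (Q → Bool) ℂ),
              (2 : ℕ) • (z • M) = ((2 : ℂ) * z) • M := by
            intro z M
            rw [← Nat.cast_smul_eq_nsmul ℂ, smul_smul]
            norm_num
          have e4 : ∀ (z : ℂ) (M : Matrix (Q → Bool) (Q → Bool) ℂ),
              (4 : ℕ) • (z • M) = ((4 : ℂ) * z) • M := by
            intro z M
            rw [← Nat.cast_smul_eq_nsmul ℂ, smul_smul]
            norm_num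
          rw [e2, e2, e4]
          simp only [Matrix.mul_sub, Matrix.mul_add, Matrix.sub_mul, Matrix.add_mul, Matrix.mul_smul,
            Matrix.smul_mul, Matrix.trace_sub, Matrix.trace_add, Matrix.trace_smul, smul_eq_mul]
        rw [lin]
        set t0 := (prodRrev L * op y * prodR L * K).trace
        set t1 := (prodRrev L * op x1 * prodR L * K).trace
        set t2 := (prodRrev L * op x2 * prodR L * K).trace
        set t3 := (prodRrev L * op x3 * prodR L * K).trace
        set X := (9 : ℝ) ^ (F.erase p).card * c with hXdef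
        have n1 : ‖2 * z1 * t1‖ ≤ 2 * X := by
          rw [norm_mul, norm_mul]
          have h2 : ‖(2 : ℂ)‖ = 2 := by simp
          rw [h2]
          have := mul_le_mul hz1 b1 (norm_nonneg _) (by norm_num : (0:ℝ) ≤ 1)
          nlinarith [norm_nonneg z1, norm_nonneg t1]
        have n2 : ‖2 * z2 * t2‖ ≤ 2 * X := by
          rw [norm_mul, norm_mul]
          have h2 : ‖(2 : ℂ)‖ = 2 := by simp
          rw [h2]
          have := mul_le_mul hz2 b2 (norm_nonneg _) (by norm_num : (0:ℝ) ≤ 1)
          nlinarith [norm_nonneg z2, norm_nonneg t2]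
        have n3 : ‖4 * z3 * t3‖ ≤ 4 * X := by
          rw [norm_mul, norm_mul]
          have h4 : ‖(4 : ℂ)‖ = 4 := by simp
          rw [h4]
          have := mul_le_mul hz3 b3 (norm_nonneg _) (by norm_num : (0:ℝ) ≤ 1)
          nlinarith [norm_nonneg z3, norm_nonneg t3]
        have tri : ‖t0 - 2 * z1 * t1 - 2 * z2 * t2 + 4 * z3 * t3‖
            ≤ ‖t0‖ + ‖2 * z1 * t1‖ + ‖2 * z2 * t2‖ + ‖4 * z3 * t3‖ := by
          refine (norm_add_le _ _).trans (add_le_add ?_ le_rfl)
          refine (norm_sub_le _ _).trans (add_le_add ?_ le_rfl)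
          exact norm_sub_le _ _
        have hfin : 9 * X = (9 : ℝ) ^ F.card * c := by
          rw [hXdef, ← hcard]
          ring
        linarith

/-- Inclusion-exclusion over units: the number of `j`-subsets of `B ⊆ R` as a signed sum of
indicators of disjointness. -/
theorem sum_powerset_units (R B : Finset Q) (hB : B ⊆ R) (j : ℕ) :
    ∑ T ∈ R.powersetCard j, ∑ T' ∈ T.powerset,
        (-1 : ℝ) ^ T'.card * (if ∀ p ∈ T', p ∉ B then (1 : ℝ) else 0)
      = (B.card.choose j : ℝ) := by
  classical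
  have h1 : ∀ T : Finset Q, ∑ T' ∈ T.powerset,
        (-1 : ℝ) ^ T'.card * (if ∀ p ∈ T', p ∉ B then (1 : ℝ) else 0)
      = if ∀ p ∈ T, p ∈ B then 1 else 0 := by
    intro T
    have h2 := Finset.prod_sub (fun _ : Q => (1 : ℝ)) (fun p => if p ∉ B then (1 : ℝ) else 0) T
    simp only [Finset.prod_const_one, mul_one] at h2
    have h3 : ∀ T' : Finset Q, ∏ p ∈ T', (if p ∉ B then (1 : ℝ) else 0)
        = if ∀ p ∈ T', p ∉ B then 1 else 0 := by
      intro T'
      rw [Finset.prod_boole]
      all_goals (first | rfl | congr)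
    simp only [h3] at h2
    rw [← h2]
    have h4 : ∀ p : Q, (1 : ℝ) - (if p ∉ B then (1 : ℝ) else 0) = if p ∈ B then 1 else 0 := by
      intro p
      by_cases hp : p ∈ B <;> simp [hp]
    simp only [h4]
    rw [Finset.prod_boole]
    all_goals (first | rfl | congr)
  simp only [h1]
  rw [Finset.sum_boole, ← Finset.card_powersetCard]
  congr 2
  ext T
  simp only [Finset.mem_filter, Finset.mem_powersetCard]
  constructor
  · rintro ⟨⟨_, h2⟩, h3⟩
    exact ⟨fun p hp => h3 p hp, h2⟩
  · rintro ⟨h1', h2⟩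
    exact ⟨⟨fun p hp => hB (h1' hp), h2⟩, fun p hp => h1' hp⟩

/-- Approximate inclusion-exclusion over units: the non-identity factors of the product
projector `op y` are grouped into units by a map `r` into a set `R` of at most `W`
representatives.  If the indicator of zero is approximated on `0..W` to within `ε` by
`∑ j ≤ k, β j * choose m j`, the trace of `op y * K` is at most `ε` times the diagonal mass of
`K` plus the weighted sum of the bounds for the restrictions of `y` to unions of units. -/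
theorem and_approx_units (K : Matrix (Q → Bool) (Q → Bool) ℂ) (D c ε ρ : ℝ) (hρ : 0 ≤ ρ)
    (hc : 0 ≤ c) (k W : ℕ) (β : ℕ → ℝ)
    (hβ : ∀ m : ℕ, m ≤ W →
      |(if m = 0 then (1 : ℝ) else 0) - ∑ j ∈ Finset.range (k + 1), β j * (m.choose j : ℝ)| ≤ ε)
    (hD : ∀ v : Q → Matrix Bool Bool ℂ, (∀ i, (v i)ᴴ * v i = 1) →
      ∑ s, ‖((op v)ᴴ * K * op v) s s‖ ≤ D)
    (y : Q → Matrix Bool Bool ℂ) (hy : RankFam y) (r : Q → Q) (R : Finset Q)
    (hR : ∀ i, y i ≠ 1 → r i ∈ R) (hRW : R.card ≤ W)
    (hterm : ∀ T : Finset Q, T ⊆ R →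
      ‖(op (fun i => if r i ∈ T then y i else 1) * K).trace‖ ≤ ρ ^ T.card * c) :
    ‖(op y * K).trace‖ ≤ ε * D
      + (∑ j ∈ Finset.range (k + 1), |β j| * (W.choose j : ℝ) * (1 + ρ) ^ j) * c := by
  classical
  have hv := fun i => rank_diag (hy i)
  choose v hvu hvd using hv
  set G : Finset Q := Finset.univ.filter (fun i => y i ≠ 1) with hG
  have hG1 : ∀ i, i ∉ G → y i = 1 := by
    intro i hi
    by_contra h
    exact hi (Finset.mem_filter.mpr ⟨Finset.mem_univ _, h⟩)
  have hG2 : ∀ i, i ∈ G →
      y i = v i * Matrix.diagonal (fun c : Bool => if c then (0 : ℂ) else 1) * (v i)ᴴ := by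
    intro i hi
    rcases hvd i with h | h
    · exact absurd h (Finset.mem_filter.mp hi).2
    · exact h.1
  set κ : (Q → Bool) → ℂ := fun s => ((op v)ᴴ * K * op v) s s with hκ
  set Bs : (Q → Bool) → Finset Q :=
    fun s => R.filter (fun p => ∃ i ∈ G, r i = p ∧ s i = true) with hBs
  have hBsR : ∀ s, Bs s ⊆ R := fun s => Finset.filter_subset _ _
  have hbN : ∀ s, (Bs s).card ≤ W := fun s => (Finset.card_le_card (hBsR s)).trans hRW
  have tr_d : ∀ d : Q → Bool → ℝ,
      (op (cfam v d) * K).trace = ∑ s, ((∏ i, d i (s i) : ℝ) : ℂ) * κ s := by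
    intro d
    rw [op_cfam, trace_conj_diag]
  have trT : ∀ T : Finset Q, T ⊆ R →
      (op (fun i => if r i ∈ T then y i else 1) * K).trace
        = ∑ s, (((if ∀ p ∈ T, p ∉ Bs s then (1 : ℝ) else 0) : ℝ) : ℂ) * κ s := by
    intro T hT
    have e1 : (fun i => if r i ∈ T then y i else 1)
        = cfam v (dG (G.filter (fun i => r i ∈ T))) := by
      apply cfam_dG_eq v _ hvu
      · intro i hi
        by_cases hr : r i ∈ T
        · simp only [if_pos hr]
          exact hG1 i (fun hiG => hi (Finset.mem_filter.mpr ⟨hiG, hr⟩))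
        · simp only [if_neg hr]
      · intro i hi
        have h := Finset.mem_filter.mp hi
        simp only [if_pos h.2]
        exact hG2 i h.1
    rw [e1, tr_d]
    refine Finset.sum_congr rfl (fun s _ => ?_)
    rw [prod_dG]
    congr 2
    apply if_congr _ rfl rfl
    rw [Finset.card_eq_zero, Finset.filter_eq_empty_iff]
    constructor
    · intro h p hp hpB
      obtain ⟨_, i, hiG, hri, hsi⟩ := Finset.mem_filter.mp hpB
      exact h (Finset.mem_filter.mpr ⟨hiG, hri ▸ hp⟩) hsi
    · intro h i hi hsi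
      have hi' := Finset.mem_filter.mp hi
      exact h (r i) hi'.2 (Finset.mem_filter.mpr ⟨hT hi'.2, i, hi'.1, rfl, hsi⟩)
  have hyR : y = fun i => if r i ∈ R then y i else 1 := by
    funext i
    by_cases h : y i = 1
    · simp [h]
    · simp [hR i h]
  have e1 : (op y * K).trace
      = ∑ s, (((if (Bs s).card = 0 then (1 : ℝ) else 0) : ℝ) : ℂ) * κ s := by
    conv_lhs => rw [hyR]
    rw [trT R (Finset.Subset.refl _)]
    refine Finset.sum_congr rfl (fun s _ => ?_)
    congr 2
    apply if_congr _ rfl rfl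
    rw [Finset.card_eq_zero]
    constructor
    · intro h
      apply Finset.eq_empty_of_forall_notMem
      intro p hp
      exact h p (hBsR s hp) hp
    · intro h p _
      rw [h]
      exact Finset.notMem_empty p
  have hsumT : ∀ j : ℕ, ∑ T ∈ R.powersetCard j, ∑ T' ∈ T.powerset,
        ((-1 : ℂ) ^ T'.card) * (op (fun i => if r i ∈ T' then y i else 1) * K).trace
      = ∑ s, ((((Bs s).card.choose j : ℝ)) : ℂ) * κ s := by
    intro j
    have h1 : ∀ T ∈ R.powersetCard j, ∑ T' ∈ T.powerset,
        ((-1 : ℂ) ^ T'.card) * (op (fun i => if r i ∈ T' then y i else 1) * K).trace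
        = ∑ s, ((∑ T' ∈ T.powerset, (-1 : ℝ) ^ T'.card
            * (if ∀ p ∈ T', p ∉ Bs s then (1 : ℝ) else 0) : ℝ) : ℂ) * κ s := by
      intro T hT
      have hTR : T ⊆ R := (Finset.mem_powersetCard.mp hT).1
      have h2 : ∀ T' ∈ T.powerset,
          ((-1 : ℂ) ^ T'.card) * (op (fun i => if r i ∈ T' then y i else 1) * K).trace
          = ∑ s, (((-1 : ℝ) ^ T'.card
              * (if ∀ p ∈ T', p ∉ Bs s then (1 : ℝ) else 0) : ℝ) : ℂ) * κ s := by
        intro T' hT'
        rw [trT T' ((Finset.mem_powerset.mp hT').trans hTR), Finset.mul_sum]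
        refine Finset.sum_congr rfl (fun s _ => ?_)
        push_cast
        ring
      rw [Finset.sum_congr rfl h2, Finset.sum_comm]
      refine Finset.sum_congr rfl (fun s _ => ?_)
      rw [← Finset.sum_mul, Complex.ofReal_sum]
    rw [Finset.sum_congr rfl h1, Finset.sum_comm]
    refine Finset.sum_congr rfl (fun s _ => ?_)
    rw [← Finset.sum_mul, ← Complex.ofReal_sum, sum_powerset_units R (Bs s) (hBsR s) j]
  have hmain : (op y * K).trace
        - ∑ j ∈ Finset.range (k + 1),
            (β j : ℂ) * ∑ T ∈ R.powersetCard j, ∑ T' ∈ T.powerset,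
              ((-1 : ℂ) ^ T'.card) * (op (fun i => if r i ∈ T' then y i else 1) * K).trace
      = ∑ s, (((if (Bs s).card = 0 then (1 : ℝ) else 0)
          - ∑ j ∈ Finset.range (k + 1), β j * (((Bs s).card).choose j : ℝ) : ℝ) : ℂ) * κ s := by
    simp only [hsumT]
    rw [e1]
    have e2 : ∑ j ∈ Finset.range (k + 1),
          (β j : ℂ) * ∑ s, ((((Bs s).card).choose j : ℝ) : ℂ) * κ s
        = ∑ s, ((∑ j ∈ Finset.range (k + 1), β j * (((Bs s).card).choose j : ℝ) : ℝ) : ℂ)
            * κ s := by
      simp only [Finset.mul_sum]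
      rw [Finset.sum_comm]
      refine Finset.sum_congr rfl (fun s _ => ?_)
      rw [Complex.ofReal_sum, Finset.sum_mul]
      refine Finset.sum_congr rfl (fun j _ => ?_)
      push_cast
      ring
    rw [e2, ← Finset.sum_sub_distrib]
    refine Finset.sum_congr rfl (fun s _ => ?_)
    rw [Complex.ofReal_sub, sub_mul]
  have hε0 : 0 ≤ ε := (abs_nonneg _).trans (hβ 0 (Nat.zero_le _))
  have herr : ‖∑ s, (((if (Bs s).card = 0 then (1 : ℝ) else 0)
          - ∑ j ∈ Finset.range (k + 1), β j * (((Bs s).card).choose j : ℝ) : ℝ) : ℂ) * κ s‖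
      ≤ ε * D := by
    refine (norm_sum_le _ _).trans ?_
    have h1 : ∀ s ∈ (Finset.univ : Finset (Q → Bool)),
        ‖(((if (Bs s).card = 0 then (1 : ℝ) else 0)
          - ∑ j ∈ Finset.range (k + 1), β j * (((Bs s).card).choose j : ℝ) : ℝ) : ℂ) * κ s‖
          ≤ ε * ‖κ s‖ := by
      intro s _
      rw [norm_mul, Complex.norm_real, Real.norm_eq_abs]
      exact mul_le_mul_of_nonneg_right (hβ (Bs s).card (hbN s)) (norm_nonneg _)
    refine (Finset.sum_le_sum h1).trans ?_
    rw [← Finset.mul_sum]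
    exact mul_le_mul_of_nonneg_left (hD v hvu) hε0
  have hTsum : ∀ j, ∀ T ∈ R.powersetCard j, ‖∑ T' ∈ T.powerset,
        ((-1 : ℂ) ^ T'.card) * (op (fun i => if r i ∈ T' then y i else 1) * K).trace‖
      ≤ (1 + ρ) ^ j * c := by
    intro j T hT
    rw [Finset.mem_powersetCard] at hT
    refine (norm_sum_le _ _).trans ?_
    have h1 : ∀ T' ∈ T.powerset,
        ‖((-1 : ℂ) ^ T'.card) * (op (fun i => if r i ∈ T' then y i else 1) * K).trace‖
          ≤ ρ ^ T'.card * 1 ^ (T.card - T'.card) * c := by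
      intro T' hT'
      rw [norm_mul, norm_pow, norm_neg, norm_one, one_pow, one_mul, one_pow, mul_one]
      exact hterm T' ((Finset.mem_powerset.mp hT').trans hT.1)
    refine (Finset.sum_le_sum h1).trans ?_
    rw [← Finset.sum_mul, Finset.sum_pow_mul_eq_add_pow, hT.2, add_comm]
  have hmainb : ‖∑ j ∈ Finset.range (k + 1),
        (β j : ℂ) * ∑ T ∈ R.powersetCard j, ∑ T' ∈ T.powerset,
          ((-1 : ℂ) ^ T'.card) * (op (fun i => if r i ∈ T' then y i else 1) * K).trace‖
      ≤ (∑ j ∈ Finset.range (k + 1), |β j| * (W.choose j : ℝ) * (1 + ρ) ^ j) * c := by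
    rw [Finset.sum_mul]
    refine (norm_sum_le _ _).trans (Finset.sum_le_sum (fun j _ => ?_))
    rw [norm_mul, Complex.norm_real, Real.norm_eq_abs]
    have h1 : ‖∑ T ∈ R.powersetCard j, ∑ T' ∈ T.powerset,
          ((-1 : ℂ) ^ T'.card) * (op (fun i => if r i ∈ T' then y i else 1) * K).trace‖
        ≤ (R.card.choose j : ℝ) * ((1 + ρ) ^ j * c) := by
      refine (norm_sum_le _ _).trans ?_
      refine (Finset.sum_le_sum (hTsum j)).trans ?_
      rw [Finset.sum_const, Finset.card_powersetCard, nsmul_eq_mul]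
    have h2 : (R.card.choose j : ℝ) ≤ (W.choose j : ℝ) := by
      exact_mod_cast Nat.choose_le_choose j hRW
    have h3 : (0 : ℝ) ≤ (1 + ρ) ^ j * c := mul_nonneg (pow_nonneg (by linarith) j) hc
    calc |β j| * ‖∑ T ∈ R.powersetCard j, ∑ T' ∈ T.powerset,
          ((-1 : ℂ) ^ T'.card) * (op (fun i => if r i ∈ T' then y i else 1) * K).trace‖
        ≤ |β j| * ((R.card.choose j : ℝ) * ((1 + ρ) ^ j * c)) :=
          mul_le_mul_of_nonneg_left h1 (abs_nonneg _)
      _ ≤ |β j| * ((W.choose j : ℝ) * ((1 + ρ) ^ j * c)) :=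
          mul_le_mul_of_nonneg_left (mul_le_mul_of_nonneg_right h2 h3) (abs_nonneg _)
      _ = |β j| * (W.choose j : ℝ) * (1 + ρ) ^ j * c := by ring
  have hfin : (op y * K).trace
      = (∑ s, (((if (Bs s).card = 0 then (1 : ℝ) else 0)
          - ∑ j ∈ Finset.range (k + 1), β j * (((Bs s).card).choose j : ℝ) : ℝ) : ℂ) * κ s)
        + ∑ j ∈ Finset.range (k + 1),
            (β j : ℂ) * ∑ T ∈ R.powersetCard j, ∑ T' ∈ T.powerset,
              ((-1 : ℂ) ^ T'.card) * (op (fun i => if r i ∈ T' then y i else 1) * K).trace := by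
    rw [← hmain]
    ring
  rw [hfin]
  exact (norm_add_le _ _).trans (add_le_add herr hmainb)

end Vale.Agent.H98.QAC
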