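import Mathlib
import Vale.Agent.H98.QAC.Deep2
import Vale.Agent.H98.QAC.Units

namespace Vale.Agent.H98.QAC

open Matrix

set_option linter.unusedSectionVars false

variable {Q : Type} [Fintype Q] [DecidableEq Q]

theorem rankFam_conj (v : Q → Matrix Bool Bool ℂ) (hv : ∀ i, (v i)ᴴ * v i = 1)
    (y : Q → Matrix Bool Bool ℂ) (hy : RankFam y) :
    RankFam (fun i => (v i)ᴴ * y i * v i) := by
  intro i
  rcases hy i with h | ⟨a, ha, h⟩
  · left
    show (v i)ᴴ * y i * v i = 1
    rw [h, Matrix.mul_one, hv i]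
  · right
    obtain ⟨hu, he⟩ := rank_conj (R := v i) (mul_eq_one_comm.mp (hv i)) ha
    refine ⟨_, hu, ?_⟩
    show (v i)ᴴ * y i * v i = _
    rw [h, he]

theorem pairwise_ne_disjoint :
    ∀ L : List (Finset Q × (Q → Matrix Bool Bool ℂ)),
      L.Pairwise (fun g h => Disjoint g.1 h.1) →
      ∀ g ∈ L, ∀ g' ∈ L, g ≠ g' → Disjoint g.1 g'.1
  | [], _, g, hg, _, _, _ => by simp at hg
  | a :: L, hpw, g, hg, g', hg', hne => by
      have h := List.pairwise_cons.mp hpw
      rcases List.mem_cons.mp hg with e | e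
      · rcases List.mem_cons.mp hg' with e' | e'
        · exact absurd (e.trans e'.symm) hne
        · rw [e]
          exact h.1 g' e'
      · rcases List.mem_cons.mp hg' with e' | e'
        · rw [e']
          exact (h.1 g e).symm
        · exact pairwise_ne_disjoint L h.2 g e g' e' hne

/-- Representatives of the gates of a layer: a map `r` sending every qubit of a gate into
that gate, with at most `length + 1` values. -/
theorem exists_reps (L : List (Finset Q × (Q → Matrix Bool Bool ℂ)))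
    (hpw : L.Pairwise (fun g h => Disjoint g.1 h.1)) (q : Q) :
    ∃ (r : Q → Q) (R : Finset Q), (∀ i, r i ∈ R) ∧ R.card ≤ L.length + 1 ∧
      ∀ g ∈ L, ∀ i ∈ g.1, r i ∈ g.1 := by
  classical
  let rep : Finset Q → Q := fun s => if h : s.Nonempty then h.choose else q
  have hrep : ∀ s : Finset Q, s.Nonempty → rep s ∈ s := by
    intro s hs
    show (if h : s.Nonempty then h.choose else q) ∈ s
    rw [dif_pos hs]
    exact hs.choose_spec
  let r : Q → Q := fun i => if h : ∃ g ∈ L, i ∈ g.1 then rep (h.choose).1 else q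
  refine ⟨r, insert q (L.map (fun g => rep g.1)).toFinset, ?_, ?_, ?_⟩
  · intro i
    show (if h : ∃ g ∈ L, i ∈ g.1 then rep (h.choose).1 else q) ∈ _
    by_cases h : ∃ g ∈ L, i ∈ g.1
    · rw [dif_pos h]
      apply Finset.mem_insert_of_mem
      rw [List.mem_toFinset, List.mem_map]
      exact ⟨h.choose, h.choose_spec.1, rfl⟩
    · rw [dif_neg h]
      exact Finset.mem_insert_self _ _
  · refine (Finset.card_insert_le _ _).trans ?_
    have h := List.toFinset_card_le (l := L.map (fun g => rep g.1))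
    rw [List.length_map] at h
    omega
  · intro g hg i hi
    have h : ∃ g ∈ L, i ∈ g.1 := ⟨g, hg, hi⟩
    show (if h : ∃ g ∈ L, i ∈ g.1 then rep (h.choose).1 else q) ∈ g.1
    rw [dif_pos h]
    have hs := h.choose_spec
    by_cases hgg : h.choose = g
    · rw [hgg]
      exact hrep g.1 ⟨i, hi⟩
    · have hd := pairwise_ne_disjoint L hpw _ hs.1 g hg hgg
      exact absurd hi (Finset.disjoint_left.mp hd hs.2)

/-- The bound for a product projector of arbitrary support against the kernel of two layers,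
the upper one with at most `m` reflections of arbitrary sizes. -/
theorem and_bound_units (K₁ : Matrix (Q → Bool) (Q → Bool) ℂ) (Dm c : ℝ) (hc : 0 ≤ c)
    (hK₁ : AtomBd K₁ 1 c) (L : List (Finset Q × (Q → Matrix Bool Bool ℂ))) (hL : GoodList L)
    (m : ℕ) (hm : L.length ≤ m) (k : ℕ)
    (hD : ∀ v : Q → Matrix Bool Bool ℂ, (∀ i, (v i)ᴴ * v i = 1) →
      ∑ s, ‖((op v)ᴴ * (prodR L * K₁ * prodRrev L) * op v) s s‖ ≤ Dm)
    (q : Q) (y : Q → Matrix Bool Bool ℂ) (hy : RankFam y) :
    ‖(op y * (prodR L * K₁ * prodRrev L)).trace‖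
      ≤ 2 * Real.exp (-((k : ℝ) / Real.sqrt ((m + 1 : ℕ) : ℝ))) * Dm
        + (2 * 10 * (((m + 1 : ℕ) : ℝ)) + 1) ^ k * c := by
  classical
  obtain ⟨r, R, hrR, hRc, hr⟩ := exists_reps L hL.2 q
  obtain ⟨β, hβ1, hβ2⟩ := cheb_exists_gen (m + 1) k 10 (by norm_num)
  have hterm : ∀ T : Finset Q, T ⊆ R →
      ‖(op (fun i => if r i ∈ T then y i else 1) * (prodR L * K₁ * prodRrev L)).trace‖
        ≤ 9 ^ T.card * c := by
    intro T _
    set x : Q → Matrix Bool Bool ℂ := fun i => if r i ∈ T then y i else 1 with hx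
    have hxa : AtomFam x := by
      intro i
      show Atom1 (if r i ∈ T then y i else 1)
      by_cases h : r i ∈ T
      · rw [if_pos h]
        exact projFam_atomFam_of_rank y hy i
      · rw [if_neg h]
        exact atom1_one
    have e : (op x * (prodR L * K₁ * prodRrev L)).trace
        = (prodRrev L * op x * prodR L * K₁).trace := by
      have e2 : op x * (prodR L * K₁ * prodRrev L) = (op x * prodR L * K₁) * prodRrev L := by
        simp only [Matrix.mul_assoc]
      rw [e2, Matrix.trace_mul_comm]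
      simp only [Matrix.mul_assoc]
    rw [e]
    refine mid_gates K₁ c hc hK₁ L hL x hxa T ?_
    intro g hg hex
    obtain ⟨i, hi, hxi⟩ := hex
    have hri : r i ∈ T := by
      by_contra h
      apply hxi
      show (if r i ∈ T then y i else 1) = 1
      rw [if_neg h]
    exact ⟨r i, hri, hr g hg i hi⟩
  have h := and_approx_units (prodR L * K₁ * prodRrev L) Dm c
    (2 * Real.exp (-((k : ℝ) / Real.sqrt ((m + 1 : ℕ) : ℝ)))) 9 (by norm_num) hc k (m + 1) β hβ1
    hD y hy r R (fun i _ => hrR i) (hRc.trans (by omega)) hterm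
  have h10 : (1 : ℝ) + 9 = 10 := by norm_num
  rw [h10] at h
  have hSum : (∑ j ∈ Finset.range (k + 1), |β j| * ((m + 1).choose j : ℝ) * 10 ^ j) * c
      ≤ (2 * 10 * (((m + 1 : ℕ) : ℝ)) + 1) ^ k * c := mul_le_mul_of_nonneg_right hβ2 hc
  exact h.trans (add_le_add le_rfl hSum)

/-- Peeling the top layer: the one-qubit projector at the output becomes a one-qubit projector
plus a difference of two product projectors. -/
theorem top_step_abs (K : Matrix (Q → Bool) (Q → Bool) ℂ) (P0 X : ℝ) (q : Q)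
    (hP : ∀ a' : Bool → ℂ, star a' ⬝ᵥ a' = 1 →
      ‖(op (Function.update (fun _ => (1 : Matrix Bool Bool ℂ)) q (vecMulVec a' (star a')))
          * K).trace‖ ≤ P0)
    (hA : ∀ y : Q → Matrix Bool Bool ℂ, RankFam y → ‖(op y * K).trace‖ ≤ X)
    (v : Q → Matrix Bool Bool ℂ) (hv : ∀ i, (v i)ᴴ * v i = 1)
    (L : List (Finset Q × (Q → Matrix Bool Bool ℂ))) (hL : GoodList L)
    (a : Bool → ℂ) (ha : star a ⬝ᵥ a = 1) :
    ‖(op (Function.update (fun _ => (1 : Matrix Bool Bool ℂ)) q (vecMulVec a (star a)))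
        * (op v * prodR L) * K * (op v * prodR L)ᴴ).trace‖ ≤ P0 + 2 * X := by
  set M := op (Function.update (fun _ => (1 : Matrix Bool Bool ℂ)) q (vecMulVec a (star a)))
    with hM
  have hCH : (op v * prodR L)ᴴ = prodRrev L * (op v)ᴴ := by
    rw [Matrix.conjTranspose_mul, prodR_conjTranspose L hL.1]
  have hre : M * (op v * prodR L) * K * (prodRrev L * (op v)ᴴ)
      = (M * op v * prodR L) * K * (prodRrev L * (op v)ᴴ) := by
    simp only [Matrix.mul_assoc]
  rw [hCH, hre, Matrix.trace_mul_cycle]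
  obtain ⟨ha0, hm0⟩ := rank_conj (R := v q) (mul_eq_one_comm.mp (hv q)) ha
  set a0 := (v q)ᴴ *ᵥ a with ha0def
  have hM2 : (op v)ᴴ * M * op v
      = op (Function.update (fun _ => (1 : Matrix Bool Bool ℂ)) q (vecMulVec a0 (star a0))) := by
    rw [hM, op_conjTranspose, op_mul, op_mul]
    congr 1
    funext i
    by_cases h : i = q
    · rw [h, Function.update_self, Function.update_self]
      exact hm0
    · simp [Function.update_of_ne h, hv i]
  obtain ⟨y1, y2, S, hy1, hy2, _, _, htop⟩ := top_layer_rank q a0 ha0 L hL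
  have hmid : (prodRrev L * (op v)ᴴ) * (M * op v * prodR L)
      = op (Function.update (fun _ => (1 : Matrix Bool Bool ℂ)) q (vecMulVec a0 (star a0)))
        + op y1 - op y2 := by
    calc (prodRrev L * (op v)ᴴ) * (M * op v * prodR L)
        = prodRrev L * ((op v)ᴴ * M * op v) * prodR L := by
          simp only [Matrix.mul_assoc]
      _ = _ := by rw [hM2, htop]
  rw [hmid, Matrix.sub_mul, Matrix.add_mul, Matrix.trace_sub, Matrix.trace_add]
  have b0 := hP a0 ha0
  have A1 := hA y1 hy1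
  have A2 := hA y2 hy2
  refine (norm_sub_le _ _).trans ?_
  refine (add_le_add (norm_add_le _ _) le_rfl).trans ?_
  linarith

/-- Core estimate at entangling depth three when the middle layer has at most `m` reflections
(of arbitrary sizes; the other two layers are arbitrary). -/
theorem core3_units (v0 v1 v2 v3 : Q → Matrix Bool Bool ℂ) (h0 : ∀ i, (v0 i)ᴴ * v0 i = 1)
    (h1 : ∀ i, (v1 i)ᴴ * v1 i = 1) (h2 : ∀ i, (v2 i)ᴴ * v2 i = 1)
    (h3 : ∀ i, (v3 i)ᴴ * v3 i = 1)
    (L1 L2 L3 : List (Finset Q × (Q → Matrix Bool Bool ℂ))) (hL1 : GoodList L1)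
    (hL2 : GoodList L2) (hL3 : GoodList L3) (m : ℕ) (hm : L2.length ≤ m) (I : Finset Q) (k : ℕ)
    (q : Q) (a : Bool → ℂ) (ha : star a ⬝ᵥ a = 1) :
    ‖(op (Function.update (fun _ => (1 : Matrix Bool Bool ℂ)) q (vecMulVec a (star a)))
        * (op v3 * prodR L3 * op v2 * prodR L2 * op v1 * prodR L1 * op v0)
        * Matrix.diagonal (fun s : Q → Bool => ((rz I s : ℝ) : ℂ))
        * (op v3 * prodR L3 * op v2 * prodR L2 * op v1 * prodR L1 * op v0)ᴴ).trace‖
      ≤ 3 * Real.sqrt 2 ^ I.card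
        + 2 * (2 * Real.exp (-((k : ℝ) / Real.sqrt ((m + 1 : ℕ) : ℝ))) * 2 ^ I.card
          + (2 * 10 * (((m + 1 : ℕ) : ℝ)) + 1) ^ k * r4 ^ (3 * I.card)) := by
  set D := Matrix.diagonal (fun s : Q → Bool => ((rz I s : ℝ) : ℂ)) with hD
  set K1 := prodR L1 * op (cfam v0 (zd I)) * prodRrev L1 with hK1
  set K₁ := op v1 * K1 * (op v1)ᴴ with hK₁def
  set K₂ := prodR L2 * K₁ * prodRrev L2 with hK₂def
  set K := op v2 * K₂ * (op v2)ᴴ with hKdef
  have hc0 : (0 : ℝ) ≤ r4 ^ (3 * I.card) := pow_nonneg r4_pos.le _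
  have hX : op (cfam v0 (zd I)) = op v0 * D * (op v0)ᴴ := by
    rw [op_cfam]
    rfl
  have hA1 : AtomBd K1 1 (r4 ^ (3 * I.card)) := by
    intro x hx T _
    have h := single_bound_atom v0 h0 I L1 hL1 x hx
    rw [one_pow, one_mul]
    have e : op x * K1 = op x * prodR L1 * op (cfam v0 (zd I)) * prodRrev L1 := by
      rw [hK1]
      simp only [Matrix.mul_assoc]
    rw [e]
    exact h
  have hAK₁ : AtomBd K₁ 1 (r4 ^ (3 * I.card)) := hA1.conj v1 h1
  -- the kernel below the top layer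
  have eK : (op v2 * prodR L2 * op v1 * prodR L1 * op v0) * D
        * (op v2 * prodR L2 * op v1 * prodR L1 * op v0)ᴴ = K := by
    rw [hKdef, hK₂def, hK₁def, hK1, hX]
    simp only [Matrix.conjTranspose_mul, prodR_conjTranspose L1 hL1.1,
      prodR_conjTranspose L2 hL2.1, Matrix.mul_assoc]
  have hC : (prodR L2 * op v1 * prodR L1 * op v0)ᴴ * (prodR L2 * op v1 * prodR L1 * op v0) = 1 :=
    unitary_mul_big _ _ (unitary_mul_big _ _ (unitary_mul_big _ _ (prodR_unitary L2 hL2)
      (op_unitary_left v1 h1)) (prodR_unitary L1 hL1)) (op_unitary_left v0 h0)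
  have eK₂ : K₂ = (prodR L2 * op v1 * prodR L1 * op v0) * D
      * (prodR L2 * op v1 * prodR L1 * op v0)ᴴ := by
    rw [hK₂def, hK₁def, hK1, hX]
    simp only [Matrix.conjTranspose_mul, prodR_conjTranspose L1 hL1.1,
      prodR_conjTranspose L2 hL2.1, Matrix.mul_assoc]
  have hDb : ∀ v : Q → Matrix Bool Bool ℂ, (∀ i, (v i)ᴴ * v i = 1) →
      ∑ s, ‖((op v)ᴴ * (prodR L2 * K₁ * prodRrev L2) * op v) s s‖ ≤ 2 ^ I.card := by
    intro v hv
    have h := diag_mass_bound (prodR L2 * op v1 * prodR L1 * op v0) hC I v hv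
    rw [← hK₂def, eK₂]
    exact h
  have hA : ∀ y : Q → Matrix Bool Bool ℂ, RankFam y → ‖(op y * K).trace‖
      ≤ 2 * Real.exp (-((k : ℝ) / Real.sqrt ((m + 1 : ℕ) : ℝ))) * 2 ^ I.card
          + (2 * 10 * (((m + 1 : ℕ) : ℝ)) + 1) ^ k * r4 ^ (3 * I.card) := by
    intro y hy
    have e : (op y * K).trace = (op (fun i => (v2 i)ᴴ * y i * v2 i) * K₂).trace := by
      have e1 : op (fun i => (v2 i)ᴴ * y i * v2 i) = (op v2)ᴴ * op y * op v2 := by
        rw [op_conjTranspose, op_mul, op_mul]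
      rw [e1, hKdef]
      have e2 : op y * (op v2 * K₂ * (op v2)ᴴ) = (op y * op v2 * K₂) * (op v2)ᴴ := by
        simp only [Matrix.mul_assoc]
      rw [e2, Matrix.trace_mul_comm]
      simp only [Matrix.mul_assoc]
    rw [e]
    exact and_bound_units K₁ (2 ^ I.card) (r4 ^ (3 * I.card)) hc0 hAK₁ L2 hL2 m hm k hDb q _
      (rankFam_conj v2 h2 y hy)
  have hP : ∀ a' : Bool → ℂ, star a' ⬝ᵥ a' = 1 →
      ‖(op (Function.update (fun _ => (1 : Matrix Bool Bool ℂ)) q (vecMulVec a' (star a')))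
          * K).trace‖ ≤ 3 * Real.sqrt 2 ^ I.card := by
    intro a' ha'
    have h := core v0 v1 v2 h0 h1 h2 L1 L2 hL1 hL2 I q (vecMulVec a' (star a'))
      (rankOne_isProj ha') (rankOne_trace ha')
    rw [← eK]
    have e' : op (Function.update (fun _ => (1 : Matrix Bool Bool ℂ)) q
          (vecMulVec a' (star a')))
        * ((op v2 * prodR L2 * op v1 * prodR L1 * op v0) * D
          * (op v2 * prodR L2 * op v1 * prodR L1 * op v0)ᴴ)
        = op (Function.update (fun _ => (1 : Matrix Bool Bool ℂ)) q (vecMulVec a' (star a')))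
          * (op v2 * prodR L2 * op v1 * prodR L1 * op v0) * D
          * (op v2 * prodR L2 * op v1 * prodR L1 * op v0)ᴴ := by
      simp only [Matrix.mul_assoc]
    rw [e']
    exact h
  have hts := top_step_abs K _ _ q hP hA v3 h3 L3 hL3 a ha
  have eM : op (Function.update (fun _ => (1 : Matrix Bool Bool ℂ)) q (vecMulVec a (star a)))
        * (op v3 * prodR L3 * op v2 * prodR L2 * op v1 * prodR L1 * op v0) * D
        * (op v3 * prodR L3 * op v2 * prodR L2 * op v1 * prodR L1 * op v0)ᴴ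
      = op (Function.update (fun _ => (1 : Matrix Bool Bool ℂ)) q (vecMulVec a (star a)))
        * (op v3 * prodR L3) * K * (op v3 * prodR L3)ᴴ := by
    rw [← eK]
    simp only [Matrix.conjTranspose_mul, Matrix.mul_assoc]
  rw [eM]
  exact hts

end Vale.Agent.H98.QAC
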