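import Mathlib
import Vale.Agent.H98.QAC.Deep2
import Vale.Agent.H98.QAC.Units
import Vale.Agent.H98.QAC.UnitsTop

namespace Vale.Agent.H98.QAC

open Matrix

set_option linter.unusedSectionVars false

variable {Q : Type} [Fintype Q] [DecidableEq Q]

/-- Normal form of a layer, with at most one reflection for each multi-qubit gate. -/
theorem layer_nf_len : ∀ l : List (Gate Q), IsLayer l →
    ∃ (v : Q → Matrix Bool Bool ℂ) (L : List (Finset Q × (Q → Matrix Bool Bool ℂ))),
      (∀ j, (v j)ᴴ * v j = 1) ∧ GoodList L ∧ (∀ g' ∈ L, ∃ g0 ∈ l, g'.1 = g0.support) ∧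
      (l.any Gate.isMultiQubit = false → L = []) ∧
      L.length ≤ l.countP Gate.isMultiQubit ∧ layerMatrix l = prodR L * op v
  | [], _ => ⟨fun _ => 1, [], by simp, ⟨by simp, List.Pairwise.nil⟩, by simp, fun _ => rfl,
      by simp, by simp [layerMatrix, prodR_nil, op_one]⟩
  | g :: l, h => by
      have hpw := List.pairwise_cons.mp h.2
      obtain ⟨v, L, hv, hL, hsup, hany, hlen, hmat⟩ :=
        layer_nf_len l ⟨fun g' hg' => h.1 g' (by simp [hg']), hpw.2⟩
      have hlm : layerMatrix (g :: l) = g.matrix * layerMatrix l := by simp [layerMatrix]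
      cases g with
      | oneQubit i u =>
          have hu : u ∈ Matrix.unitaryGroup Bool ℂ := h.1 (Gate.oneQubit i u) (by simp)
          refine ⟨fun j => Function.update (fun _ => (1 : Matrix Bool Bool ℂ)) i u j * v j, L,
            ?_, hL, ?_, ?_, ?_, ?_⟩
          · intro j
            rw [Matrix.conjTranspose_mul, Matrix.mul_assoc, ← Matrix.mul_assoc _ _ (v j),
              unitary_update i u hu j, Matrix.one_mul, hv j]
          · intro g' hg'
            obtain ⟨g0, hg0, e⟩ := hsup g' hg'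
            exact ⟨g0, by simp [hg0], e⟩
          · intro hh
            apply hany
            simpa [Gate.isMultiQubit] using hh
          · rw [List.countP_cons]
            omega
          · have hz : ∀ j, j ∉ ({i} : Finset Q) →
                Function.update (fun _ => (1 : Matrix Bool Bool ℂ)) i u j = 1 := by
              intro j hj
              rw [Function.update_of_ne (by simpa using hj)]
            have hdj : ∀ g' ∈ L, Disjoint ({i} : Finset Q) g'.1 := by
              intro g' hg'
              obtain ⟨g0, hg0, e⟩ := hsup g' hg'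
              rw [e]
              exact hpw.1 g0 hg0
            rw [hlm, hmat, oneQubit_matrix_eq, ← Matrix.mul_assoc,
              op_comm_prodR {i} _ hz L hL.1 hdj, Matrix.mul_assoc, op_mul]
      | toffoli S b =>
          have hval : S.Nonempty ∧ b ∉ S := h.1 (Gate.toffoli S b) (by simp)
          refine ⟨v, (insert b S, tofP S b) :: L, hv, ?_, ?_, ?_, ?_, ?_⟩
          · refine ⟨?_, List.pairwise_cons.mpr ⟨?_, hL.2⟩⟩
            · intro g' hg'
              rcases List.mem_cons.mp hg' with e | e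
              · rw [e]
                exact tofP_gateOK S b hval.2
              · exact hL.1 g' e
            · intro g' hg'
              obtain ⟨g0, hg0, e⟩ := hsup g' hg'
              rw [e]
              exact hpw.1 g0 hg0
          · intro g' hg'
            rcases List.mem_cons.mp hg' with e | e
            · exact ⟨Gate.toffoli S b, by simp, by rw [e]; rfl⟩
            · obtain ⟨g0, hg0, e'⟩ := hsup g' e
              exact ⟨g0, by simp [hg0], e'⟩
          · intro hh
            simp [Gate.isMultiQubit] at hh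
          · rw [List.countP_cons]
            simp only [Gate.isMultiQubit, if_true, List.length_cons]
            omega
          · rw [hlm, hmat, toffoli_matrix_eq S b hval.2, prodR_cons, Matrix.mul_assoc]

/-- Normal forms in which every layer has at most `m` reflections. -/
def IsNFm (m : ℕ) : ℕ → Matrix (Q → Bool) (Q → Bool) ℂ → Prop
  | 0, M => ∃ v : Q → Matrix Bool Bool ℂ, (∀ j, (v j)ᴴ * v j = 1) ∧ M = op v
  | d + 1, M => ∃ (M' : Matrix (Q → Bool) (Q → Bool) ℂ)
      (L : List (Finset Q × (Q → Matrix Bool Bool ℂ))) (v : Q → Matrix Bool Bool ℂ),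
      IsNFm m d M' ∧ GoodList L ∧ L.length ≤ m ∧ (∀ j, (v j)ᴴ * v j = 1) ∧
        M = M' * prodR L * op v

theorem IsNFm.mul_op (m : ℕ) : ∀ (d : ℕ) (M : Matrix (Q → Bool) (Q → Bool) ℂ), IsNFm m d M →
    ∀ v : Q → Matrix Bool Bool ℂ, (∀ j, (v j)ᴴ * v j = 1) → IsNFm m d (M * op v)
  | 0, M, ⟨v0, hv0, e⟩, v, hv =>
      ⟨fun j => v0 j * v j, fun j => unitary_mul_small _ _ (hv0 j) (hv j), by rw [e, op_mul]⟩
  | d + 1, M, ⟨M', L, v0, hM', hL, hLw, hv0, e⟩, v, hv =>
      ⟨M', L, fun j => v0 j * v j, hM', hL, hLw,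
        fun j => unitary_mul_small _ _ (hv0 j) (hv j), by
        rw [e, Matrix.mul_assoc, op_mul]⟩

theorem IsNFm.succ (m d : ℕ) (M : Matrix (Q → Bool) (Q → Bool) ℂ) (h : IsNFm m d M) :
    IsNFm m (d + 1) M :=
  ⟨M, [], fun _ => 1, h, ⟨by simp, List.Pairwise.nil⟩, by simp, by simp, by
    simp [prodR_nil, op_one]⟩

theorem IsNFm.mono (m : ℕ) {d d' : ℕ} (hdd : d ≤ d') (M : Matrix (Q → Bool) (Q → Bool) ℂ)
    (h : IsNFm m d M) : IsNFm m d' M := by
  induction hdd with
  | refl => exact h
  | step _ ih => exact IsNFm.succ m _ M ih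

theorem circuit_nfm (m : ℕ) : ∀ c : List (List (Gate Q)), (∀ l ∈ c, IsLayer l) →
    (∀ l ∈ c, l.countP Gate.isMultiQubit ≤ m) → IsNFm m (entanglingDepth c) (circuitMatrix c)
  | [], _, _ => ⟨fun _ => 1, by simp, by simp [circuitMatrix, op_one]⟩
  | l :: c, h, hw => by
      have IH := circuit_nfm m c (fun l' hl' => h l' (by simp [hl']))
        (fun l' hl' => hw l' (by simp [hl']))
      obtain ⟨v, L, hv, hL, _, hany, hlen, hmat⟩ := layer_nf_len l (h l (by simp))
      have hLm : L.length ≤ m := hlen.trans (hw l (by simp))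
      have hcm : circuitMatrix (l :: c) = circuitMatrix c * layerMatrix l := by
        simp [circuitMatrix]
      by_cases ha : l.any Gate.isMultiQubit = true
      · have hd : entanglingDepth (l :: c) = entanglingDepth c + 1 := by
          simp [entanglingDepth, ha]
        rw [hd, hcm, hmat, ← Matrix.mul_assoc]
        exact ⟨circuitMatrix c, L, v, IH, hL, hLm, hv, rfl⟩
      · have ha' : l.any Gate.isMultiQubit = false := by simpa using ha
        have hd : entanglingDepth (l :: c) = entanglingDepth c := by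
          simp [entanglingDepth, ha']
        rw [hd, hcm, hmat, hany ha', prodR_nil, Matrix.one_mul]
        exact IsNFm.mul_op m _ _ IH v hv

theorem nf_three_m (m : ℕ) (M : Matrix (Q → Bool) (Q → Bool) ℂ) (h : IsNFm m 3 M) :
    ∃ (v0 v1 v2 v3 : Q → Matrix Bool Bool ℂ)
      (L1 L2 L3 : List (Finset Q × (Q → Matrix Bool Bool ℂ))),
      (∀ j, (v0 j)ᴴ * v0 j = 1) ∧ (∀ j, (v1 j)ᴴ * v1 j = 1) ∧ (∀ j, (v2 j)ᴴ * v2 j = 1) ∧
      (∀ j, (v3 j)ᴴ * v3 j = 1) ∧ GoodList L1 ∧ GoodList L2 ∧ GoodList L3 ∧
      L2.length ≤ m ∧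
      M = op v3 * prodR L3 * op v2 * prodR L2 * op v1 * prodR L1 * op v0 := by
  obtain ⟨M1, L1, v0, hM1, hL1, _, hv0, e1⟩ := h
  obtain ⟨M2, L2, v1, hM2, hL2, hm2, hv1, e2⟩ := hM1
  obtain ⟨M3, L3, v2, hM3, hL3, _, hv2, e3⟩ := hM2
  obtain ⟨v3, hv3, e4⟩ := hM3
  exact ⟨v0, v1, v2, v3, L1, L2, L3, hv0, hv1, hv2, hv3, hL1, hL2, hL3, hm2, by
    rw [e1, e2, e3, e4]⟩

end Vale.Agent.H98.QAC
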