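import Mathlib
import Vale.Agent.H98.QAC.DeepAsymp
import Vale.Agent.H98.QAC.Units
import Vale.Agent.H98.QAC.UnitsTop
import Vale.Agent.H98.QAC.UnitsNF

namespace Vale.Agent.H98.QAC

open Matrix

set_option linter.unusedSectionVars false

variable {n : ℕ} {A : Type} [Fintype A] [DecidableEq A]

theorem signed_sum_bound_units (c : List (List (Gate (Fin n ⊕ A)))) (hc : ∀ l ∈ c, IsLayer l)
    (hd : entanglingDepth c ≤ 3) (m : ℕ) (hm : ∀ l ∈ c, l.countP Gate.isMultiQubit ≤ m)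
    (q : Fin n ⊕ A) (b : Bool) (k : ℕ) :
    |∑ x : Fin n → Bool, chi x * outProb (circuitMatrix c) q (inputState x) b|
      ≤ 3 * Real.sqrt 2 ^ n
        + 2 * (2 * Real.exp (-((k : ℝ) / Real.sqrt ((m + 1 : ℕ) : ℝ))) * 2 ^ n
            + (2 * 10 * (((m + 1 : ℕ) : ℝ)) + 1) ^ k * r4 ^ (3 * n)) := by
  have hnf := IsNFm.mono m hd _ (circuit_nfm m c hc hm)
  obtain ⟨v0, v1, v2, v3, L1, L2, L3, h0, h1, h2, h3, hL1, hL2, hL3, hm2, hC⟩ :=
    nf_three_m m _ hnf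
  obtain ⟨a, ha, hma⟩ := measP_rank b
  have hcore := core3_units v0 v1 v2 v3 h0 h1 h2 h3 L1 L2 L3 hL1 hL2 hL3 m hm2 (inputSet n A) k
    q a ha
  rw [← hC, ← hma, trace_prob, card_inputSet, sum_rz_inputSet, Complex.norm_real,
    Real.norm_eq_abs] at hcore
  exact hcore

/-- Parity correlation at entangling depth three with at most `m` multi-qubit gates in each
layer, with a free parameter `k`. -/
theorem units_correlation_k (c : List (List (Gate (Fin n ⊕ A))))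
    (hc : ∀ l ∈ c, IsLayer l) (hd : entanglingDepth c ≤ 3) (m : ℕ)
    (hm : ∀ l ∈ c, l.countP Gate.isMultiQubit ≤ m) (q : Fin n ⊕ A) (k : ℕ) :
    |parityCorrelation (circuitMatrix c) q| ≤ 6 / Real.sqrt 2 ^ n
      + (8 * Real.exp (-((k : ℝ) / Real.sqrt ((m + 1 : ℕ) : ℝ)))
        + 4 * (2 * 10 * (((m + 1 : ℕ) : ℝ)) + 1) ^ k / r4 ^ n) := by
  have hf := signed_sum_bound_units c hc hd m hm q false k
  have ht := signed_sum_bound_units c hc hd m hm q true k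
  unfold parityCorrelation
  rw [correlation_split, abs_div, abs_of_pos (by positivity : (0 : ℝ) < 2 ^ n)]
  have hs : (0 : ℝ) < Real.sqrt 2 ^ n := by positivity
  have hr : (0 : ℝ) < r4 ^ n := pow_pos r4_pos n
  have h2n : (2 : ℝ) ^ n = Real.sqrt 2 ^ n * Real.sqrt 2 ^ n := by
    rw [← mul_pow, Real.mul_self_sqrt (by norm_num)]
  have h2r : (2 : ℝ) ^ n = r4 ^ (3 * n) * r4 ^ n := by
    rw [← pow_add, show 3 * n + n = 4 * n by ring, pow_mul, r4_pow_four]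
  rw [div_le_iff₀ (by positivity)]
  have e1 : 6 / Real.sqrt 2 ^ n * 2 ^ n = 6 * Real.sqrt 2 ^ n := by
    rw [h2n]
    field_simp
  have e2 : 4 * (2 * 10 * (((m + 1 : ℕ) : ℝ)) + 1) ^ k / r4 ^ n * 2 ^ n
      = 4 * (2 * 10 * (((m + 1 : ℕ) : ℝ)) + 1) ^ k * r4 ^ (3 * n) := by
    rw [h2r]
    field_simp
  have e3 : (8 * Real.exp (-((k : ℝ) / Real.sqrt ((m + 1 : ℕ) : ℝ)))
        + 4 * (2 * 10 * (((m + 1 : ℕ) : ℝ)) + 1) ^ k / r4 ^ n) * 2 ^ n
      = (8 * Real.exp (-((k : ℝ) / Real.sqrt ((m + 1 : ℕ) : ℝ))) * 2 ^ n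
        + 4 * (2 * 10 * (((m + 1 : ℕ) : ℝ)) + 1) ^ k * r4 ^ (3 * n)) := by
    rw [add_mul, e2]
  have habs := abs_sub (∑ x : Fin n → Bool, chi x * outProb (circuitMatrix c) q (inputState x) false)
    (∑ x : Fin n → Bool, chi x * outProb (circuitMatrix c) q (inputState x) true)
  rw [add_mul, e1, e3]
  linarith

/-- From the bounds with a free degree `k` to the explicit bound. -/
theorem explicit_of_k (n w : ℕ) (hw1 : 1 ≤ w) (X : ℝ) (hX1 : X ≤ 1)
    (hk : ∀ k : ℕ, X ≤ 6 / Real.sqrt 2 ^ n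
      + (8 * Real.exp (-((k : ℝ) / Real.sqrt (w : ℝ)))
        + 4 * (2 * 9 * (w : ℝ) + 1) ^ k / r4 ^ n)) :
    X ≤ 6 / Real.sqrt 2 ^ n + (4 / (2 : ℝ) ^ ((n : ℝ) / 8)
        + 8 * Real.exp (-((n : ℝ) * Real.log 2
          / (16 * Real.sqrt (w : ℝ) * Real.log (19 * (w : ℝ)))))) := by
  set t : ℝ := (n : ℝ) * Real.log 2 / (16 * Real.sqrt (w : ℝ) * Real.log (19 * (w : ℝ))) with ht
  have hu : (0 : ℝ) < (2 : ℝ) ^ ((n : ℝ) / 8) := Real.rpow_pos_of_pos (by norm_num) _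
  have hs : (0 : ℝ) < Real.sqrt 2 ^ n := by positivity
  have h7 : (0 : ℝ) ≤ 6 / Real.sqrt 2 ^ n := by positivity
  have h8 : (0 : ℝ) ≤ 4 / (2 : ℝ) ^ ((n : ℝ) / 8) := by positivity
  by_cases ht1 : t < 1
  · have h2 : (1 : ℝ) ≤ 8 * Real.exp (-t) := by
      have h3 : Real.exp (-1) ≤ Real.exp (-t) := Real.exp_le_exp.mpr (by linarith)
      have h4 : Real.exp 1 * Real.exp (-1) = 1 := by
        rw [← Real.exp_add]
        simp
      have h5 := Real.exp_one_lt_d9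
      have h6 : 0 < Real.exp (-1) := Real.exp_pos _
      nlinarith
    linarith
  · have ht1' : 1 ≤ t := not_lt.mp ht1
    have hNr : (1 : ℝ) ≤ (w : ℝ) := by exact_mod_cast hw1
    have hsN : 1 ≤ Real.sqrt (w : ℝ) := by
      rw [show (1 : ℝ) = Real.sqrt 1 by simp]
      exact Real.sqrt_le_sqrt hNr
    have hℓ : 0 < Real.log (19 * (w : ℝ)) := Real.log_pos (by linarith)
    set s := Real.sqrt (w : ℝ) with hsdef
    set ℓ := Real.log (19 * (w : ℝ)) with hℓdef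
    have hts : 1 ≤ t * s := by nlinarith
    set k : ℕ := ⌈t * s⌉₊ with hk'
    have hk1 : t * s ≤ (k : ℝ) := Nat.le_ceil _
    have hk2 : (k : ℝ) < t * s + 1 := Nat.ceil_lt_add_one (by linarith)
    have hmain := hk k
    have ha : Real.exp (-((k : ℝ) / s)) ≤ Real.exp (-t) := by
      apply Real.exp_le_exp.mpr
      have : t ≤ (k : ℝ) / s := by
        rw [le_div_iff₀ (by linarith)]
        exact hk1
      linarith
    have hW : (2 * 9 * (w : ℝ) + 1) ^ k ≤ (2 : ℝ) ^ ((n : ℝ) / 8) := by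
      have h1 : (2 * 9 * (w : ℝ) + 1) ^ k ≤ (19 * (w : ℝ)) ^ k :=
        pow_le_pow_left₀ (by positivity) (by linarith) k
      have h2 : (19 * (w : ℝ)) ^ k = Real.exp ((k : ℝ) * ℓ) := by
        rw [Real.exp_nat_mul, hℓdef, Real.exp_log (by linarith)]
      have h3 : (2 : ℝ) ^ ((n : ℝ) / 8) = Real.exp (Real.log 2 * ((n : ℝ) / 8)) := by
        rw [Real.rpow_def_of_pos (by norm_num)]
      have h4 : (k : ℝ) * ℓ ≤ Real.log 2 * ((n : ℝ) / 8) := by
        have h5 : t * (16 * s * ℓ) = (n : ℝ) * Real.log 2 := by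
          rw [ht]
          field_simp
        have h6 : (k : ℝ) ≤ 2 * (t * s) := by linarith
        have h7' : (k : ℝ) * ℓ ≤ (2 * (t * s)) * ℓ :=
          mul_le_mul_of_nonneg_right h6 hℓ.le
        nlinarith
      rw [h3]
      exact h1.trans (h2 ▸ Real.exp_le_exp.mpr h4)
    have hr : r4 ^ n = (2 : ℝ) ^ ((n : ℝ) / 8) * (2 : ℝ) ^ ((n : ℝ) / 8) := r4_pow_eq n
    have hb : 4 * (2 * 9 * (w : ℝ) + 1) ^ k / r4 ^ n ≤ 4 / (2 : ℝ) ^ ((n : ℝ) / 8) := by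
      rw [hr, div_le_div_iff₀ (by positivity) hu]
      nlinarith
    have hc8 : 8 * Real.exp (-((k : ℝ) / s)) ≤ 8 * Real.exp (-t) := by linarith
    linarith

/-- Parity correlation at entangling depth three: an explicit bound in terms of the number of
inputs `n` and a bound `m` on the number of multi-qubit gates in each layer; the sizes of the
gates and the number of ancillas are arbitrary. -/
theorem units_correlation (c : List (List (Gate (Fin n ⊕ A))))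
    (hc : ∀ l ∈ c, IsLayer l) (hd : entanglingDepth c ≤ 3) (m : ℕ)
    (hm : ∀ l ∈ c, l.countP Gate.isMultiQubit ≤ m) (q : Fin n ⊕ A) :
    |parityCorrelation (circuitMatrix c) q| ≤ 6 / Real.sqrt 2 ^ n
      + (4 / (2 : ℝ) ^ ((n : ℝ) / 8)
        + 8 * Real.exp (-((n : ℝ) * Real.log 2
          / (16 * Real.sqrt ((2 * (m + 1) : ℕ) : ℝ)
            * Real.log (19 * ((2 * (m + 1) : ℕ) : ℝ)))))) := by
  refine explicit_of_k n (2 * (m + 1)) (by omega) _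
    (correlation_le_one (circuitMatrix c) (circuit_unitary_any c hc) q) (fun k => ?_)
  refine (units_correlation_k c hc hd m hm q k).trans ?_
  have hW1 : (1 : ℝ) ≤ ((m + 1 : ℕ) : ℝ) := by
    have : 1 ≤ m + 1 := by omega
    exact_mod_cast this
  have hcast : ((2 * (m + 1) : ℕ) : ℝ) = 2 * ((m + 1 : ℕ) : ℝ) := by push_cast; ring
  have hsq : Real.sqrt ((m + 1 : ℕ) : ℝ) ≤ Real.sqrt ((2 * (m + 1) : ℕ) : ℝ) := by
    apply Real.sqrt_le_sqrt
    rw [hcast]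
    linarith
  have hsqpos : 0 < Real.sqrt ((m + 1 : ℕ) : ℝ) := Real.sqrt_pos.mpr (by linarith)
  have h1 : Real.exp (-((k : ℝ) / Real.sqrt ((m + 1 : ℕ) : ℝ)))
      ≤ Real.exp (-((k : ℝ) / Real.sqrt ((2 * (m + 1) : ℕ) : ℝ))) := by
    apply Real.exp_le_exp.mpr
    have := div_le_div_of_nonneg_left (Nat.cast_nonneg k : (0 : ℝ) ≤ (k : ℝ)) hsqpos hsq
    linarith
  have h2 : (2 * 10 * (((m + 1 : ℕ) : ℝ)) + 1) ^ k
      ≤ (2 * 9 * (((2 * (m + 1) : ℕ) : ℝ)) + 1) ^ k := by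
    apply pow_le_pow_left₀ (by positivity)
    rw [hcast]
    linarith
  have hr : (0 : ℝ) < r4 ^ n := pow_pos r4_pos n
  have h3 : 4 * (2 * 10 * (((m + 1 : ℕ) : ℝ)) + 1) ^ k / r4 ^ n
      ≤ 4 * (2 * 9 * (((2 * (m + 1) : ℕ) : ℝ)) + 1) ^ k / r4 ^ n := by
    apply div_le_div_of_nonneg_right _ hr.le
    linarith
  linarith

/-- Asymptotic form at entangling depth three: for every `δ > 0` there are `c₀ > 0` and `n₀`
such that for `n ≥ n₀` no circuit of entangling depth at most three with at most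
`c₀ n^2 / (log n)^2` multi-qubit gates in each layer has parity correlation above `δ`; the
sizes of the gates and the number of ancillas are arbitrary. -/
theorem units_asymptotic (δ : ℝ) (hδ : 0 < δ) :
    ∃ c₀ : ℝ, 0 < c₀ ∧ ∃ n₀ : ℕ, ∀ n : ℕ, n₀ ≤ n →
      ∀ (A : Type) [Fintype A] [DecidableEq A] (c : List (List (Gate (Fin n ⊕ A)))),
        (∀ l ∈ c, IsLayer l) → entanglingDepth c ≤ 3 →
        (∀ l ∈ c, ((l.countP Gate.isMultiQubit : ℕ) : ℝ)
          ≤ c₀ * (n : ℝ) ^ 2 / Real.log n ^ 2) →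
        ∀ q : Fin n ⊕ A, |parityCorrelation (circuitMatrix c) q| ≤ δ := by
  set τ : ℝ := max 1 (Real.log (24 / δ)) with hτ
  have hτ1 : 1 ≤ τ := le_max_left _ _
  have hτ2 : Real.log (24 / δ) ≤ τ := le_max_right _ _
  have hlog2 : 0 < Real.log 2 := Real.log_pos (by norm_num)
  set w₀ : ℝ := Real.log 2 / (48 * τ * 3 ^ 0) with hw₀
  have hw0 : 0 < w₀ := by positivity
  set u₀ : ℝ := w₀ / 2 with hu₀
  have hu0 : 0 < u₀ := by positivity
  refine ⟨u₀ ^ 2, by positivity,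
    max (max 19 ⌈8 * Real.log (18 / δ) / Real.log 2⌉₊) ⌈(2 / u₀) ^ 2⌉₊, ?_⟩
  intro n hn A _ _ c hc hd hyp q
  have hn19 : 19 ≤ n := ((le_max_left _ _).trans (le_max_left _ _)).trans hn
  have hnceil : ⌈8 * Real.log (18 / δ) / Real.log 2⌉₊ ≤ n :=
    ((le_max_right _ _).trans (le_max_left _ _)).trans hn
  have hnceil2 : ⌈(2 / u₀) ^ 2⌉₊ ≤ n := (le_max_right _ _).trans hn
  have hnr : (19 : ℝ) ≤ (n : ℝ) := by exact_mod_cast hn19
  have hnr2 : 8 * Real.log (18 / δ) / Real.log 2 ≤ (n : ℝ) :=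
    (Nat.le_ceil _).trans (by exact_mod_cast hnceil)
  have hnr3 : (2 / u₀) ^ 2 ≤ (n : ℝ) :=
    (Nat.le_ceil _).trans (by exact_mod_cast hnceil2)
  have hΛ : 1 ≤ Real.log (n : ℝ) := by
    rw [Real.le_log_iff_exp_le (by linarith)]
    have h := Real.exp_one_lt_d9
    linarith
  have eW : u₀ ^ 2 * (n : ℝ) ^ 2 / Real.log (n : ℝ) ^ 2
      = (u₀ * (n : ℝ) / Real.log (n : ℝ)) ^ 2 := by
    field_simp
  set Vb : ℝ := (u₀ * (n : ℝ) / Real.log (n : ℝ)) ^ 2 with hVb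
  rw [eW] at hyp
  have hV1 : 1 ≤ Vb := bound_ge_one u₀ hu0 n hnr hnr3
  set g : ℕ := ⌊Vb⌋₊ with hg
  have hgV : (g : ℝ) ≤ Vb := Nat.floor_le (by linarith)
  have hgates : ∀ l ∈ c, l.countP Gate.isMultiQubit ≤ g := by
    intro l hl
    exact Nat.le_floor (hyp l hl)
  have hWV : (w₀ * (n : ℝ) / Real.log (n : ℝ)) ^ 2 = 4 * Vb := by
    rw [hVb, hu₀]
    field_simp
    ring
  have hwle : (((2 * (g + 1) : ℕ)) : ℝ) ^ (2 * 0 + 1)
      ≤ (Real.log 2 / (48 * τ * 3 ^ 0) * (n : ℝ) / Real.log (n : ℝ)) ^ 2 := by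
    rw [← hw₀, hWV]
    push_cast
    linarith
  have ht := t_lower_deep 0 τ hτ1 n (2 * (g + 1)) hnr (by omega) hwle
  have hmain := units_correlation c hc hd g hgates q
  have ht' : τ ≤ (n : ℝ) * Real.log 2
      / (16 * Real.sqrt ((2 * (g + 1) : ℕ) : ℝ) * Real.log (19 * ((2 * (g + 1) : ℕ) : ℝ))) := by
    have e : (16 * (((2 * (g + 1) : ℕ) : ℝ) + 2) ^ 0 * Real.sqrt ((2 * (g + 1) : ℕ) : ℝ)
          * Real.log (19 * ((2 * (g + 1) : ℕ) : ℝ)))
        = 16 * Real.sqrt ((2 * (g + 1) : ℕ) : ℝ) * Real.log (19 * ((2 * (g + 1) : ℕ) : ℝ)) := by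
      rw [pow_zero, mul_one]
    rw [← e]
    exact ht
  have h3 := three_terms δ hδ n _ hnr2 (hτ2.trans ht')
  linarith

end Vale.Agent.H98.QAC
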