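import Mathlib
import Vale.Agent.H98.QAC.UnitsFinal

namespace Vale.Agent.H98.QAC

open Matrix

set_option linter.unusedSectionVars false

section

variable {Q : Type} [Fintype Q] [DecidableEq Q]

theorem circuitMatrix_append (c₁ c₂ : List (List (Gate Q))) :
    circuitMatrix (c₁ ++ c₂) = circuitMatrix c₂ * circuitMatrix c₁ := by
  simp [circuitMatrix, List.map_append, List.reverse_append, List.prod_append]

theorem circuitMatrix_cons (l : List (Gate Q)) (c : List (List (Gate Q))) :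
    circuitMatrix (l :: c) = circuitMatrix c * layerMatrix l := by
  simp [circuitMatrix]

theorem nf_one (M : Matrix (Q → Bool) (Q → Bool) ℂ) (h : IsNF 1 M) :
    ∃ (v0 v1 : Q → Matrix Bool Bool ℂ) (L1 : List (Finset Q × (Q → Matrix Bool Bool ℂ))),
      (∀ j, (v0 j)ᴴ * v0 j = 1) ∧ (∀ j, (v1 j)ᴴ * v1 j = 1) ∧ GoodList L1 ∧
      M = op v1 * prodR L1 * op v0 := by
  obtain ⟨M1, L1, v0, hM1, hL1, hv0, e1⟩ := h
  obtain ⟨v1, hv1, e2⟩ := hM1
  exact ⟨v0, v1, L1, hv0, hv1, hL1, by rw [e1, e2]⟩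

/-- Three layers of reflections about product states interleaved with layers of one-qubit
unitaries, the middle layer consisting of at most `m` reflections. -/
def MidNF (m : ℕ) (M : Matrix (Q → Bool) (Q → Bool) ℂ) : Prop :=
  ∃ (v0 v1 v2 v3 : Q → Matrix Bool Bool ℂ)
      (L1 L2 L3 : List (Finset Q × (Q → Matrix Bool Bool ℂ))),
      (∀ j, (v0 j)ᴴ * v0 j = 1) ∧ (∀ j, (v1 j)ᴴ * v1 j = 1) ∧ (∀ j, (v2 j)ᴴ * v2 j = 1) ∧
      (∀ j, (v3 j)ᴴ * v3 j = 1) ∧ GoodList L1 ∧ GoodList L2 ∧ GoodList L3 ∧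
      L2.length ≤ m ∧
      M = op v3 * prodR L3 * op v2 * prodR L2 * op v1 * prodR L1 * op v0

/-- A circuit consisting of layers `pre` with at most one entangling layer, then a layer `mid`
with at most `m` multi-qubit gates, then layers `post` with at most one entangling layer. -/
theorem mid_nf (pre post : List (List (Gate Q))) (mid : List (Gate Q))
    (hpre : ∀ l ∈ pre, IsLayer l) (hmid : IsLayer mid) (hpost : ∀ l ∈ post, IsLayer l)
    (h1 : entanglingDepth pre ≤ 1) (h3 : entanglingDepth post ≤ 1) (m : ℕ)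
    (hm : mid.countP Gate.isMultiQubit ≤ m) :
    MidNF m (circuitMatrix (pre ++ mid :: post)) := by
  obtain ⟨a0, a1, L1, ha0, ha1, hL1, e1⟩ := nf_one _ (IsNF.mono h1 _ (circuit_nf pre hpre))
  obtain ⟨b0, b1, L3, hb0, hb1, hL3, e3⟩ := nf_one _ (IsNF.mono h3 _ (circuit_nf post hpost))
  obtain ⟨v, L2, hv, hL2, _, _, hlen, e2⟩ := layer_nf_len mid hmid
  refine ⟨a0, fun j => v j * a1 j, b0, b1, L1, L2, L3, ha0,
    fun j => unitary_mul_small _ _ (hv j) (ha1 j), hb0, hb1, hL1, hL2, hL3, hlen.trans hm, ?_⟩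
  rw [circuitMatrix_append, circuitMatrix_cons, e1, e2, e3, ← op_mul]
  simp only [Matrix.mul_assoc]

theorem isLayer_mid (pre post : List (List (Gate Q))) (mid : List (Gate Q))
    (hpre : ∀ l ∈ pre, IsLayer l) (hmid : IsLayer mid) (hpost : ∀ l ∈ post, IsLayer l) :
    ∀ l ∈ pre ++ mid :: post, IsLayer l := by
  intro l hl
  rcases List.mem_append.mp hl with h | h
  · exact hpre l h
  · rcases List.mem_cons.mp h with h' | h'
    · rw [h']
      exact hmid
    · exact hpost l h'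

end

variable {n : ℕ} {A : Type} [Fintype A] [DecidableEq A]

theorem signed_sum_bound_midnf (C : Matrix (Fin n ⊕ A → Bool) (Fin n ⊕ A → Bool) ℂ) (m : ℕ)
    (hnf : MidNF m C) (q : Fin n ⊕ A) (b : Bool) (k : ℕ) :
    |∑ x : Fin n → Bool, chi x * outProb C q (inputState x) b|
      ≤ 3 * Real.sqrt 2 ^ n
        + 2 * (2 * Real.exp (-((k : ℝ) / Real.sqrt ((m + 1 : ℕ) : ℝ))) * 2 ^ n
            + (2 * 10 * (((m + 1 : ℕ) : ℝ)) + 1) ^ k * r4 ^ (3 * n)) := by
  obtain ⟨v0, v1, v2, v3, L1, L2, L3, h0, h1, h2, h3, hL1, hL2, hL3, hm2, hC⟩ := hnf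
  obtain ⟨a, ha, hma⟩ := measP_rank b
  have hcore := core3_units v0 v1 v2 v3 h0 h1 h2 h3 L1 L2 L3 hL1 hL2 hL3 m hm2 (inputSet n A) k
    q a ha
  rw [← hC, ← hma, trace_prob, card_inputSet, sum_rz_inputSet, Complex.norm_real,
    Real.norm_eq_abs] at hcore
  exact hcore

/-- Parity correlation of a three-layer normal form whose middle layer has at most `m`
reflections, with a free parameter `k`. -/
theorem midnf_correlation_k (C : Matrix (Fin n ⊕ A → Bool) (Fin n ⊕ A → Bool) ℂ) (m : ℕ)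
    (hnf : MidNF m C) (q : Fin n ⊕ A) (k : ℕ) :
    |parityCorrelation C q| ≤ 6 / Real.sqrt 2 ^ n
      + (8 * Real.exp (-((k : ℝ) / Real.sqrt ((m + 1 : ℕ) : ℝ)))
        + 4 * (2 * 10 * (((m + 1 : ℕ) : ℝ)) + 1) ^ k / r4 ^ n) := by
  have hf := signed_sum_bound_midnf C m hnf q false k
  have ht := signed_sum_bound_midnf C m hnf q true k
  unfold parityCorrelation
  rw [correlation_split, abs_div, abs_of_pos (by positivity : (0 : ℝ) < 2 ^ n)]
  have hs : (0 : ℝ) < Real.sqrt 2 ^ n := by positivity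
  have hr : (0 : ℝ) < r4 ^ n := pow_pos r4_pos n
  have h2n : (2 : ℝ) ^ n = Real.sqrt 2 ^ n * Real.sqrt 2 ^ n := by
    rw [← mul_pow, Real.mul_self_sqrt (by norm_num)]
  have h2r : (2 : ℝ) ^ n = r4 ^ (3 * n) * r4 ^ n := by
    rw [← pow_add, show 3 * n + n = 4 * n by ring, pow_mul, r4_pow_four]
  rw [div_le_iff₀ (by positivity)]
  have e1 : 6 / Real.sqrt 2 ^ n * 2 ^ n = 6 * Real.sqrt 2 ^ n := by
    rw [h2n]
    field_simp
  have e2 : 4 * (2 * 10 * (((m + 1 : ℕ) : ℝ)) + 1) ^ k / r4 ^ n * 2 ^ n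
      = 4 * (2 * 10 * (((m + 1 : ℕ) : ℝ)) + 1) ^ k * r4 ^ (3 * n) := by
    rw [h2r]
    field_simp
  have e3 : (8 * Real.exp (-((k : ℝ) / Real.sqrt ((m + 1 : ℕ) : ℝ)))
        + 4 * (2 * 10 * (((m + 1 : ℕ) : ℝ)) + 1) ^ k / r4 ^ n) * 2 ^ n
      = (8 * Real.exp (-((k : ℝ) / Real.sqrt ((m + 1 : ℕ) : ℝ))) * 2 ^ n
        + 4 * (2 * 10 * (((m + 1 : ℕ) : ℝ)) + 1) ^ k * r4 ^ (3 * n)) := by
    rw [add_mul, e2]
  have habs := abs_sub (∑ x : Fin n → Bool, chi x * outProb C q (inputState x) false)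
    (∑ x : Fin n → Bool, chi x * outProb C q (inputState x) true)
  rw [add_mul, e1, e3]
  linarith

/-- Parity correlation of a unitary three-layer normal form whose middle layer has at most `m`
reflections: an explicit bound. -/
theorem midnf_correlation (C : Matrix (Fin n ⊕ A → Bool) (Fin n ⊕ A → Bool) ℂ)
    (hU : Cᴴ * C = 1) (m : ℕ) (hnf : MidNF m C) (q : Fin n ⊕ A) :
    |parityCorrelation C q| ≤ 6 / Real.sqrt 2 ^ n
      + (4 / (2 : ℝ) ^ ((n : ℝ) / 8)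
        + 8 * Real.exp (-((n : ℝ) * Real.log 2
          / (16 * Real.sqrt ((2 * (m + 1) : ℕ) : ℝ)
            * Real.log (19 * ((2 * (m + 1) : ℕ) : ℝ)))))) := by
  refine explicit_of_k n (2 * (m + 1)) (by omega) _ (correlation_le_one C hU q) (fun k => ?_)
  refine (midnf_correlation_k C m hnf q k).trans ?_
  have hW1 : (1 : ℝ) ≤ ((m + 1 : ℕ) : ℝ) := by
    have : 1 ≤ m + 1 := by omega
    exact_mod_cast this
  have hcast : ((2 * (m + 1) : ℕ) : ℝ) = 2 * ((m + 1 : ℕ) : ℝ) := by push_cast; ring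
  have hsq : Real.sqrt ((m + 1 : ℕ) : ℝ) ≤ Real.sqrt ((2 * (m + 1) : ℕ) : ℝ) := by
    apply Real.sqrt_le_sqrt
    rw [hcast]
    linarith
  have hsqpos : 0 < Real.sqrt ((m + 1 : ℕ) : ℝ) := Real.sqrt_pos.mpr (by linarith)
  have h1 : Real.exp (-((k : ℝ) / Real.sqrt ((m + 1 : ℕ) : ℝ)))
      ≤ Real.exp (-((k : ℝ) / Real.sqrt ((2 * (m + 1) : ℕ) : ℝ))) := by
    apply Real.exp_le_exp.mpr
    have := div_le_div_of_nonneg_left (Nat.cast_nonneg k : (0 : ℝ) ≤ (k : ℝ)) hsqpos hsq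
    linarith
  have h2 : (2 * 10 * (((m + 1 : ℕ) : ℝ)) + 1) ^ k
      ≤ (2 * 9 * (((2 * (m + 1) : ℕ) : ℝ)) + 1) ^ k := by
    apply pow_le_pow_left₀ (by positivity)
    rw [hcast]
    linarith
  have hr : (0 : ℝ) < r4 ^ n := pow_pos r4_pos n
  have h3 : 4 * (2 * 10 * (((m + 1 : ℕ) : ℝ)) + 1) ^ k / r4 ^ n
      ≤ 4 * (2 * 9 * (((2 * (m + 1) : ℕ) : ℝ)) + 1) ^ k / r4 ^ n := by
    apply div_le_div_of_nonneg_right _ hr.le
    linarith
  linarith

/-- Parity correlation of a circuit made of layers `pre` with at most one entangling layer,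
a layer `mid` with at most `m` multi-qubit gates, and layers `post` with at most one entangling
layer: an explicit bound in terms of `n` and `m` only. -/
theorem mid_correlation (pre post : List (List (Gate (Fin n ⊕ A))))
    (mid : List (Gate (Fin n ⊕ A)))
    (hpre : ∀ l ∈ pre, IsLayer l) (hmid : IsLayer mid) (hpost : ∀ l ∈ post, IsLayer l)
    (h1 : entanglingDepth pre ≤ 1) (h3 : entanglingDepth post ≤ 1) (m : ℕ)
    (hm : mid.countP Gate.isMultiQubit ≤ m) (q : Fin n ⊕ A) :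
    |parityCorrelation (circuitMatrix (pre ++ mid :: post)) q| ≤ 6 / Real.sqrt 2 ^ n
      + (4 / (2 : ℝ) ^ ((n : ℝ) / 8)
        + 8 * Real.exp (-((n : ℝ) * Real.log 2
          / (16 * Real.sqrt ((2 * (m + 1) : ℕ) : ℝ)
            * Real.log (19 * ((2 * (m + 1) : ℕ) : ℝ)))))) :=
  midnf_correlation _ (circuit_unitary_any _ (isLayer_mid pre post mid hpre hmid hpost)) m
    (mid_nf pre post mid hpre hmid hpost h1 h3 m hm) q

/-- Asymptotic form: for every `δ > 0` there are `c₀ > 0` and `n₀` such that for `n ≥ n₀` no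
circuit made of layers `pre` with at most one entangling layer, a layer `mid` with at most
`c₀ n^2 / (log n)^2` multi-qubit gates and layers `post` with at most one entangling layer has
parity correlation above `δ`; the sizes of the gates, the number of ancillas and the numbers
of gates in `pre` and `post` are arbitrary. -/
theorem mid_asymptotic (δ : ℝ) (hδ : 0 < δ) :
    ∃ c₀ : ℝ, 0 < c₀ ∧ ∃ n₀ : ℕ, ∀ n : ℕ, n₀ ≤ n →
      ∀ (A : Type) [Fintype A] [DecidableEq A] (pre post : List (List (Gate (Fin n ⊕ A))))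
        (mid : List (Gate (Fin n ⊕ A))),
        (∀ l ∈ pre, IsLayer l) → IsLayer mid → (∀ l ∈ post, IsLayer l) →
        entanglingDepth pre ≤ 1 → entanglingDepth post ≤ 1 →
        ((mid.countP Gate.isMultiQubit : ℕ) : ℝ) ≤ c₀ * (n : ℝ) ^ 2 / Real.log n ^ 2 →
        ∀ q : Fin n ⊕ A, |parityCorrelation (circuitMatrix (pre ++ mid :: post)) q| ≤ δ := by
  set τ : ℝ := max 1 (Real.log (24 / δ)) with hτ
  have hτ1 : 1 ≤ τ := le_max_left _ _
  have hτ2 : Real.log (24 / δ) ≤ τ := le_max_right _ _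
  have hlog2 : 0 < Real.log 2 := Real.log_pos (by norm_num)
  set w₀ : ℝ := Real.log 2 / (48 * τ * 3 ^ 0) with hw₀
  have hw0 : 0 < w₀ := by positivity
  set u₀ : ℝ := w₀ / 2 with hu₀
  have hu0 : 0 < u₀ := by positivity
  refine ⟨u₀ ^ 2, by positivity,
    max (max 19 ⌈8 * Real.log (18 / δ) / Real.log 2⌉₊) ⌈(2 / u₀) ^ 2⌉₊, ?_⟩
  intro n hn A _ _ pre post mid hpre hmid hpost hd1 hd3 hyp q
  have hn19 : 19 ≤ n := ((le_max_left _ _).trans (le_max_left _ _)).trans hn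
  have hnceil : ⌈8 * Real.log (18 / δ) / Real.log 2⌉₊ ≤ n :=
    ((le_max_right _ _).trans (le_max_left _ _)).trans hn
  have hnceil2 : ⌈(2 / u₀) ^ 2⌉₊ ≤ n := (le_max_right _ _).trans hn
  have hnr : (19 : ℝ) ≤ (n : ℝ) := by exact_mod_cast hn19
  have hnr2 : 8 * Real.log (18 / δ) / Real.log 2 ≤ (n : ℝ) :=
    (Nat.le_ceil _).trans (by exact_mod_cast hnceil)
  have hnr3 : (2 / u₀) ^ 2 ≤ (n : ℝ) :=
    (Nat.le_ceil _).trans (by exact_mod_cast hnceil2)
  have hΛ : 1 ≤ Real.log (n : ℝ) := by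
    rw [Real.le_log_iff_exp_le (by linarith)]
    have h := Real.exp_one_lt_d9
    linarith
  have eW : u₀ ^ 2 * (n : ℝ) ^ 2 / Real.log (n : ℝ) ^ 2
      = (u₀ * (n : ℝ) / Real.log (n : ℝ)) ^ 2 := by
    field_simp
  set Vb : ℝ := (u₀ * (n : ℝ) / Real.log (n : ℝ)) ^ 2 with hVb
  rw [eW] at hyp
  have hV1 : 1 ≤ Vb := bound_ge_one u₀ hu0 n hnr hnr3
  set g : ℕ := ⌊Vb⌋₊ with hg
  have hgV : (g : ℝ) ≤ Vb := Nat.floor_le (by linarith)
  have hgates : mid.countP Gate.isMultiQubit ≤ g := Nat.le_floor hyp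
  have hWV : (w₀ * (n : ℝ) / Real.log (n : ℝ)) ^ 2 = 4 * Vb := by
    rw [hVb, hu₀]
    field_simp
    ring
  have hwle : (((2 * (g + 1) : ℕ)) : ℝ) ^ (2 * 0 + 1)
      ≤ (Real.log 2 / (48 * τ * 3 ^ 0) * (n : ℝ) / Real.log (n : ℝ)) ^ 2 := by
    rw [← hw₀, hWV]
    push_cast
    linarith
  have ht := t_lower_deep 0 τ hτ1 n (2 * (g + 1)) hnr (by omega) hwle
  have hmain := mid_correlation pre post mid hpre hmid hpost hd1 hd3 g hgates q
  have ht' : τ ≤ (n : ℝ) * Real.log 2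
      / (16 * Real.sqrt ((2 * (g + 1) : ℕ) : ℝ) * Real.log (19 * ((2 * (g + 1) : ℕ) : ℝ))) := by
    have e : (16 * (((2 * (g + 1) : ℕ) : ℝ) + 2) ^ 0 * Real.sqrt ((2 * (g + 1) : ℕ) : ℝ)
          * Real.log (19 * ((2 * (g + 1) : ℕ) : ℝ)))
        = 16 * Real.sqrt ((2 * (g + 1) : ℕ) : ℝ) * Real.log (19 * ((2 * (g + 1) : ℕ) : ℝ)) := by
      rw [pow_zero, mul_one]
    rw [← e]
    exact ht
  have h3 := three_terms δ hδ n _ hnr2 (hτ2.trans ht')
  linarith

end Vale.Agent.H98.QAC
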